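import Mathlib

noncomputable section

namespace Vale.Agent.Lib.P090

namespace FinQuot

variable {S : Type} [DecidableEq S]

/-- the ball of radius `g` of the free group -/
abbrev Ball (S : Type) [DecidableEq S] (g : ℕ) : Type := {w : FreeGroup S // w.norm ≤ g}

instance ball_finite [Finite S] (g : ℕ) : Finite (Ball S g) := by
  have hfin : Finite {l : List (S × Bool) // l.length ≤ g} :=
    (List.finite_length_le (S × Bool) g).to_subtype
  refine Finite.of_injective
    (fun w : Ball S g => (⟨w.1.toWord, w.2⟩ : {l : List (S × Bool) // l.length ≤ g})) ?_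
  intro a b hab
  apply Subtype.ext
  apply FreeGroup.toWord_injective
  exact congrArg Subtype.val hab

/-- left multiplication by a generator, as a bijection between two parts of the ball -/
def shift (g : ℕ) (s : S) :
    {x : Ball S g // (FreeGroup.of s * x.1).norm ≤ g} ≃
      {x : Ball S g // ((FreeGroup.of s)⁻¹ * x.1).norm ≤ g} where
  toFun x := ⟨⟨FreeGroup.of s * x.1.1, x.2⟩, by
    show ((FreeGroup.of s)⁻¹ * (FreeGroup.of s * x.1.1)).norm ≤ g
    rw [inv_mul_cancel_left]; exact x.1.2⟩
  invFun x := ⟨⟨(FreeGroup.of s)⁻¹ * x.1.1, x.2⟩, by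
    show (FreeGroup.of s * ((FreeGroup.of s)⁻¹ * x.1.1)).norm ≤ g
    rw [mul_inv_cancel_left]; exact x.1.2⟩
  left_inv x := by
    apply Subtype.ext
    apply Subtype.ext
    show (FreeGroup.of s)⁻¹ * (FreeGroup.of s * x.1.1) = x.1.1
    rw [inv_mul_cancel_left]
  right_inv x := by
    apply Subtype.ext
    apply Subtype.ext
    show FreeGroup.of s * ((FreeGroup.of s)⁻¹ * x.1.1) = x.1.1
    rw [mul_inv_cancel_left]

open Classical in
/-- the permutation of the ball attached to a generator -/
def perm [Finite S] (g : ℕ) (s : S) : Equiv.Perm (Ball S g) :=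
  haveI := Fintype.ofFinite (Ball S g)
  (shift g s).extendSubtype

lemma perm_apply [Finite S] (g : ℕ) (s : S) (x : Ball S g)
    (hx : (FreeGroup.of s * x.1).norm ≤ g) :
    perm g s x = ⟨FreeGroup.of s * x.1, hx⟩ := by
  classical
  have := Fintype.ofFinite (Ball S g)
  unfold perm
  rw [Equiv.extendSubtype_apply_of_mem _ x hx]
  rfl

lemma perm_inv_apply [Finite S] (g : ℕ) (s : S) (x : Ball S g)
    (hx : ((FreeGroup.of s)⁻¹ * x.1).norm ≤ g) :
    (perm g s)⁻¹ x = ⟨(FreeGroup.of s)⁻¹ * x.1, hx⟩ := by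
  rw [Equiv.Perm.inv_eq_iff_eq]
  have h : (FreeGroup.of s * ((FreeGroup.of s)⁻¹ * x.1)).norm ≤ g := by
    rw [mul_inv_cancel_left]; exact x.2
  rw [perm_apply g s ⟨(FreeGroup.of s)⁻¹ * x.1, hx⟩ h]
  apply Subtype.ext
  show x.1 = FreeGroup.of s * ((FreeGroup.of s)⁻¹ * x.1)
  rw [mul_inv_cancel_left]

/-- the action of the free group on the ball -/
def act [Finite S] (g : ℕ) : FreeGroup S →* Equiv.Perm (Ball S g) :=
  FreeGroup.lift (perm g)

lemma act_mk [Finite S] (g : ℕ) (L : List (S × Bool)) (hL : L.length ≤ g) :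
    act g (FreeGroup.mk L) ⟨1, by simp⟩ =
      ⟨FreeGroup.mk L, le_trans FreeGroup.norm_mk_le hL⟩ := by
  induction L with
  | nil => 
    apply Subtype.ext
    have h1 : (FreeGroup.mk ([] : List (S × Bool))) = 1 := rfl
    simp [h1]
  | cons a L ih =>
    have hL' : L.length ≤ g := by
      simp only [List.length_cons] at hL; omega
    obtain ⟨s, b⟩ := a
    have hsplit : FreeGroup.mk ((s, b) :: L) = FreeGroup.mk [(s, b)] * FreeGroup.mk L := by
      rw [FreeGroup.mul_mk]; rfl
    have hn : (FreeGroup.mk [(s, b)] * FreeGroup.mk L).norm ≤ g := by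
      rw [← hsplit]; exact le_trans FreeGroup.norm_mk_le hL
    have key : act g (FreeGroup.mk ((s, b) :: L)) ⟨1, by simp⟩ =
        act g (FreeGroup.mk [(s, b)]) ⟨FreeGroup.mk L, le_trans FreeGroup.norm_mk_le hL'⟩ := by
      rw [hsplit, map_mul, Equiv.Perm.mul_apply, ih hL']
    rw [key]
    cases b with
    | true =>
      have h1 : FreeGroup.mk [(s, true)] = FreeGroup.of s := rfl
      have h2 : act g (FreeGroup.of s) = perm g s := FreeGroup.lift_apply_of
      rw [h1] at hn
      rw [h1, h2, perm_apply g s _ hn]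
      apply Subtype.ext
      show FreeGroup.of s * FreeGroup.mk L = FreeGroup.mk ((s, true) :: L)
      rw [hsplit, h1]
    | false =>
      have h1 : FreeGroup.mk [(s, false)] = (FreeGroup.of s)⁻¹ := rfl
      have h2 : act g (FreeGroup.of s)⁻¹ = (perm g s)⁻¹ := by
        rw [map_inv]; congr 1
      rw [h1] at hn
      rw [h1, h2, perm_inv_apply g s _ hn]
      apply Subtype.ext
      show (FreeGroup.of s)⁻¹ * FreeGroup.mk L = FreeGroup.mk ((s, false) :: L)
      rw [hsplit, h1]

end FinQuot

open FinQuot in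
/-- U11.  Free groups of finite rank have finite quotients which are injective on balls. -/
theorem exists_finite_quotient (S : Type) [Finite S] [DecidableEq S] (g : ℕ) :
    ∃ (Q : Type) (_ : Group Q) (_ : Finite Q) (Φ : FreeGroup S →* Q), Function.Surjective Φ ∧
      ∀ w : FreeGroup S, w.norm ≤ g → Φ w = 1 → w = 1 := by
  refine ⟨(act (S := S) g).range, inferInstance, inferInstance, (act (S := S) g).rangeRestrict,
    MonoidHom.rangeRestrict_surjective _, ?_⟩
  intro w hw h1
  have h2 : act g w = 1 := by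
    have := congrArg Subtype.val h1
    simpa using this
  have h3 := act_mk g w.toWord hw
  have h4 := congrArg Subtype.val h3
  simp only [FreeGroup.mk_toWord, h2, Equiv.Perm.coe_one, id_eq] at h4
  exact h4.symm

end Vale.Agent.Lib.P090
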