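import Vale.Agent.Lib.P090.CoeffRetract

/-!
# Gluing bounded uniformly discrete spaces
-/

noncomputable section

namespace Vale.Agent.Lib.P090

/-- The retraction of the disjoint union onto the `n`-th summand: everything outside the summand
goes to the chosen base point. -/
def glueRetr (M : ℕ → Type) (hne : ∀ n, Nonempty (M n)) (n : ℕ) : (Σ k, M k) → M n
  | ⟨m, y⟩ => if h : m = n then h ▸ y else (hne n).some

theorem glueRetr_same (M : ℕ → Type) (hne : ∀ n, Nonempty (M n)) (n : ℕ) (y : M n) :
    glueRetr M hne n ⟨n, y⟩ = y := by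
  simp [glueRetr]

theorem glueRetr_ne (M : ℕ → Type) (hne : ∀ n, Nonempty (M n)) {n m : ℕ} (h : m ≠ n) (y : M m) :
    glueRetr M hne n ⟨m, y⟩ = (hne n).some := by
  simp [glueRetr, h]

/-- A sequence of bounded `1`-separated metric spaces can be glued to one `1`-separated metric
space which retracts onto each of them. -/
theorem exists_glue (M : ℕ → Type) [∀ n, MetricSpace (M n)] (hne : ∀ n, Nonempty (M n))
    (hsep : ∀ n (x y : M n), x ≠ y → 1 ≤ dist x y)
    (hbdd : ∀ n, ∃ R : ℝ, ∀ x y : M n, dist x y ≤ R) :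
    ∃ (G : Type) (_ : MetricSpace G), (∀ x y : G, x ≠ y → 1 ≤ dist x y) ∧
      ((∀ n, Countable (M n)) → Countable G) ∧
      ∀ L : ℝ, CoeffProp G L → ∀ n, CoeffProp (M n) L := by
  refine ⟨Σ n, M n, Metric.Sigma.metricSpace, ?_, ?_, ?_⟩
  · rintro ⟨i, x⟩ ⟨j, y⟩ hxy
    rcases eq_or_ne i j with (rfl | hij)
    · have hxy' : x ≠ y := fun h => hxy (by rw [h])
      have := hsep i x y hxy'
      rwa [← Metric.Sigma.dist_same i x y] at this
    · exact Metric.Sigma.one_le_dist_of_ne hij x y
  · intro hc
    infer_instance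
  · intro L hL n
    let _ : MetricSpace (Σ n, M n) := Metric.Sigma.metricSpace
    refine CoeffProp.retract (M := Σ n, M n) (N := M n) (Sigma.mk n) (glueRetr M hne n)
      (fun x y => Metric.Sigma.dist_same n x y) ?_ (fun x => glueRetr_same M hne n x) hL
    rintro ⟨i, x⟩ ⟨j, y⟩
    rcases eq_or_ne i n with (rfl | hi)
    · rcases eq_or_ne j i with (rfl | hj)
      · rw [glueRetr_same, glueRetr_same]
        exact (Metric.Sigma.dist_same j x y).ge
      · rw [glueRetr_same, glueRetr_ne M hne hj]
        have h1 := Metric.Sigma.dist_ne (Ne.symm hj) x y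
        have h2 : (0 : ℝ) ≤ dist (Nonempty.some ⟨y⟩) y := dist_nonneg
        have h3 : dist x (hne i).some = dist x (Nonempty.some ⟨x⟩) := rfl
        change _ ≤ Metric.Sigma.dist _ _
        change Metric.Sigma.dist _ _ = _ at h1
        rw [h1, h3]
        linarith
    · rcases eq_or_ne j n with (rfl | hj)
      · rw [glueRetr_same, glueRetr_ne M hne hi]
        have h1 := Metric.Sigma.dist_ne hi x y
        have h2 : (0 : ℝ) ≤ dist x (Nonempty.some ⟨x⟩) := dist_nonneg
        have h3 : dist (hne j).some y = dist (Nonempty.some ⟨y⟩) y := rfl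
        change _ ≤ Metric.Sigma.dist _ _
        change Metric.Sigma.dist _ _ = _ at h1
        rw [h1, h3]
        linarith
      · rw [glueRetr_ne M hne hi, glueRetr_ne M hne hj, dist_self]
        exact dist_nonneg

end Vale.Agent.Lib.P090
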