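import Vale.Agent.Lib.P090.HairPsi

noncomputable section

namespace Vale.Agent.Lib.P090

open Classical in
/-- The weights distributing a vertex of the hair graph on its root and its hub. -/
def hairWt {X Q : Type*} (π : X → Q) (ℓ : ℕ) : X × Fin ℓ ⊕ Q → X ⊕ Q → ℝ
  | Sum.inl p, Sum.inl u' => if p.1 = u' then 1 - (p.2 : ℝ) / ℓ else 0
  | Sum.inl p, Sum.inr z => if π p.1 = z then (p.2 : ℝ) / ℓ else 0
  | Sum.inr z, Sum.inr z' => if z = z' then 1 else 0
  | Sum.inr _, Sum.inl _ => 0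

open Classical in
theorem hairWt_sum {X Q K : Type*} (π : X → Q) (ℓ W : ℕ) (ρ : X → Q → ℕ) (cl : X → X ⊕ Q → K)
    (σ : K → ℝ) (y : X) (FU : Finset (X ⊕ Q)) (v : X × Fin ℓ ⊕ Q)
    (h1 : Sum.map Prod.fst id v ∈ FU) (h2 : ∀ z : Q, Sum.inr z ∈ FU) :
    ∑ U ∈ FU, hairWt π ℓ v U * (cutoff W (ρ y (typ π U)) * σ (cl y U))
      = hairPsi π ℓ W ρ cl σ y v := by
  rcases v with p | z
  · have hsub : ({Sum.inl p.1, Sum.inr (π p.1)} : Finset (X ⊕ Q)) ⊆ FU := by
      intro U hU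
      simp only [Finset.mem_insert, Finset.mem_singleton] at hU
      rcases hU with rfl | rfl
      · exact h1
      · exact h2 _
    rw [← Finset.sum_subset hsub]
    · rw [Finset.sum_pair (by simp)]
      simp only [hairWt, hairPsi, typ, Sum.elim_inl, Sum.elim_inr, id, if_true]
      ring
    · intro U _ hU
      simp only [Finset.mem_insert, Finset.mem_singleton, not_or] at hU
      rcases U with u | z
      · have : p.1 ≠ u := fun e => hU.1 (by rw [e])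
        simp [hairWt, this]
      · have : π p.1 ≠ z := fun e => hU.2 (by rw [e])
        simp [hairWt, this]
  · rw [Finset.sum_eq_single_of_mem (Sum.inr z) (h2 z)]
    · simp [hairWt, hairPsi, typ]
    · intro U _ hU
      rcases U with u | z'
      · simp [hairWt]
      · have : z ≠ z' := fun e => hU (by rw [e])
        simp [hairWt, this]

/-- U5c.  The transfer theorem. -/
theorem HairCoeff.transfer {X Q K : Type*} [Finite Q] {GX : SimpleGraph X} {π : X → Q} {ℓ W : ℕ}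
    {L1 Lam : ℝ} {F : Finset (X × Fin ℓ ⊕ Q)} {c : X → X × Fin ℓ ⊕ Q → ℝ}
    (hc : HairCoeff GX π ℓ W L1 Lam F c) (hℓ : 1 ≤ ℓ) (hW : ℓ ≤ W) (hL1 : 0 ≤ L1) (hLam : 0 ≤ Lam)
    (ρ : X → Q → ℕ) (hρ0 : ∀ y, ρ y (π y) = 0)
    (hρy : ∀ y y' z, GX.Adj y y' → ρ y z ≤ ρ y' z + 1)
    (hρu : ∀ y u u', GX.Adj u u' → ρ y (π u) ≤ ρ y (π u') + 1)
    (cl : X → X ⊕ Q → K)
    (hcl1 : ∀ y u u', GX.Adj u u' → ρ y (π u) < W → ρ y (π u') < W →
      cl y (Sum.inl u) = cl y (Sum.inl u'))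
    (hcl2 : ∀ y y' u, GX.Adj y y' → ρ y (typ π u) < W → ρ y' (typ π u) < W → cl y u = cl y' u) :
    ∃ (FU : Finset (X ⊕ Q)) (g : X → X ⊕ Q → ℝ),
      (∀ y u, W ≤ ρ y (typ π u) → g y u = 0) ∧
      (∀ y, |∑ u ∈ FU, g y u - 1| ≤ Lam / W) ∧
      ∀ σ : K → ℝ, (∀ k, |σ k| ≤ 1) → ∀ y y', GX.Adj y y' →
        ∑ u ∈ FU, (g y u * σ (cl y u) - g y' u * σ (cl y' u)) ≤
          2 * L1 / ℓ + (2 * Lam + 1) / W := by
  classical
  have : Fintype Q := Fintype.ofFinite Q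
  have hW1 : 1 ≤ W := le_trans hℓ hW
  have hWpos : (0 : ℝ) < W := by exact_mod_cast hW1
  have hℓpos : (0 : ℝ) < ℓ := by exact_mod_cast hℓ
  have hℓW : (ℓ : ℝ) ≤ W := by exact_mod_cast hW
  set FU : Finset (X ⊕ Q) :=
    F.image (Sum.map Prod.fst id) ∪ (Finset.univ : Finset Q).image Sum.inr with hFU
  set g : X → X ⊕ Q → ℝ := fun y U =>
    (∑ v ∈ F, c y v * hairWt π ℓ v U) * cutoff W (ρ y (typ π U)) with hg
  have hF1 : ∀ v ∈ F, Sum.map Prod.fst id v ∈ FU := by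
    intro v hv
    exact Finset.mem_union_left _ (Finset.mem_image_of_mem _ hv)
  have hF2 : ∀ z : Q, Sum.inr z ∈ FU := by
    intro z
    exact Finset.mem_union_right _ (Finset.mem_image_of_mem _ (Finset.mem_univ z))
  -- the rearrangement identity
  have hR : ∀ (σ : K → ℝ) (y : X), ∑ U ∈ FU, g y U * σ (cl y U)
      = ∑ v ∈ F, c y v * hairPsi π ℓ W ρ cl σ y v := by
    intro σ y
    have e1 : ∀ U ∈ FU, g y U * σ (cl y U)
        = ∑ v ∈ F, c y v * (hairWt π ℓ v U * (cutoff W (ρ y (typ π U)) * σ (cl y U))) := by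
      intro U _
      simp only [hg]
      rw [Finset.sum_mul, Finset.sum_mul]
      apply Finset.sum_congr rfl
      intro v _
      ring
    rw [Finset.sum_congr rfl e1, Finset.sum_comm]
    apply Finset.sum_congr rfl
    intro v hv
    rw [← Finset.mul_sum, hairWt_sum π ℓ W ρ cl σ y FU v (hF1 v hv) hF2]
  refine ⟨FU, g, ?_, ?_, ?_⟩
  · intro y u hu
    simp only [hg]
    rw [cutoff_eq_zero hW1 hu, mul_zero]
  · intro y
    have e : ∑ u ∈ FU, g y u = ∑ v ∈ F, c y v * hairPsi π ℓ W ρ cl (fun _ => 1) y v := by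
      rw [← hR (fun _ => 1) y]
      simp
    rw [e]
    have hosc : ∀ a b : X × Fin ℓ ⊕ Q,
        |hairPsi π ℓ W ρ cl (fun _ => 1) y a - hairPsi π ℓ W ρ cl (fun _ => 1) y b|
          ≤ 1 / (W : ℝ) * ((W : ℝ) + 1) := by
      intro a b
      rw [hairPsi_one, hairPsi_one]
      have a0 := cutoff_nonneg W (ρ y (htyp π a))
      have a1 := cutoff_le_one W (ρ y (htyp π a))
      have b0 := cutoff_nonneg W (ρ y (htyp π b))
      have b1 := cutoff_le_one W (ρ y (htyp π b))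
      have h1 : (1 : ℝ) ≤ 1 / (W : ℝ) * ((W : ℝ) + 1) := by
        rw [div_mul_eq_mul_div, le_div_iff₀ hWpos]
        linarith
      refine le_trans ?_ h1
      rw [abs_le]
      constructor <;> linarith
    have h := hc.hub (hairPsi π ℓ W ρ cl (fun _ => 1) y) (1 / W) (by positivity)
      (fun a b hab => hairPsi_one_edge hW1 ρ hρu cl y a b hab) hosc y
    have hv : hairPsi π ℓ W ρ cl (fun _ => 1) y (Sum.inr (π y)) = 1 := by
      rw [hairPsi_one]
      simp only [htyp, Sum.elim_inr, id]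
      rw [hρ0, cutoff_zero]
    rw [hv] at h
    calc _ ≤ 1 / (W : ℝ) * Lam := h
      _ = Lam / W := by ring
  · intro σ hσ y y' hy
    rw [Finset.sum_sub_distrib, hR σ y, hR σ y']
    set Ψ := hairPsi π ℓ W ρ cl σ y with hΨ
    set Ψ' := hairPsi π ℓ W ρ cl σ y' with hΨ'
    have e : ∑ v ∈ F, c y v * Ψ v - ∑ v ∈ F, c y' v * Ψ' v
        = ∑ v ∈ F, (c y v - c y' v) * Ψ v + ∑ v ∈ F, c y' v * (Ψ v - Ψ' v) := by
      rw [← Finset.sum_sub_distrib, ← Finset.sum_add_distrib]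
      apply Finset.sum_congr rfl
      intro v _
      ring
    rw [e]
    have hA : ∑ v ∈ F, (c y v - c y' v) * Ψ v ≤ 2 / (ℓ : ℝ) * L1 := by
      apply hc.edge Ψ (2 / ℓ) (by positivity)
        (fun a b hab => hairPsi_edge hℓ hW ρ hρu cl hcl1 σ hσ y a b hab) _ y y' hy
      intro a b
      have ha := hairPsi_abs_le (π := π) (ℓ := ℓ) (W := W) ρ cl σ hσ y a
      have hb := hairPsi_abs_le (π := π) (ℓ := ℓ) (W := W) ρ cl σ hσ y b
      have h1 : (2 : ℝ) ≤ 2 / (ℓ : ℝ) * ((W : ℝ) + 1) := by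
        rw [div_mul_eq_mul_div, le_div_iff₀ hℓpos]
        linarith
      refine le_trans ?_ h1
      rw [abs_le] at ha hb ⊢
      constructor <;> linarith [ha.1, ha.2, hb.1, hb.2]
    have hΦ : ∀ a, |Ψ a - Ψ' a| ≤ 1 / (W : ℝ) := fun a =>
      hairPsi_diff hW1 ρ hρy cl hcl2 σ hσ y y' hy a
    have hΦ2 : ∀ a b, |(Ψ a - Ψ' a) - (Ψ b - Ψ' b)| ≤ 2 / (W : ℝ) := by
      intro a b
      have ha := hΦ a
      have hb := hΦ b
      have e2 : 2 / (W : ℝ) = 1 / W + 1 / W := by ring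
      rw [e2]
      rw [abs_le] at ha hb ⊢
      constructor <;> linarith [ha.1, ha.2, hb.1, hb.2]
    have hB := hc.hub (fun a => Ψ a - Ψ' a) (2 / W) (by positivity)
      (fun a b _ => hΦ2 a b)
      (fun a b => le_trans (hΦ2 a b) (by
        have : (0 : ℝ) ≤ 2 / (W : ℝ) := by positivity
        nlinarith)) y'
    have hB1 := (abs_le.1 hB).2
    have hB2 := (abs_le.1 (hΦ (Sum.inr (π y')))).2
    have e3 : 2 * L1 / (ℓ : ℝ) + (2 * Lam + 1) / (W : ℝ)
        = 2 / (ℓ : ℝ) * L1 + (1 / (W : ℝ) + 2 / (W : ℝ) * Lam) := by ring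
    rw [e3]
    linarith

end Vale.Agent.Lib.P090
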