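import Vale.Agent.Lib.P090.Dir

/-!
# Reduced words in free groups: multiplication by a letter
-/

noncomputable section

namespace Vale.Agent.Lib.P090

open FreeGroup

variable {α : Type*} [DecidableEq α]

/-- U7a.  Left multiplication by a letter prepends the letter or removes the first letter. -/
theorem toWord_letter_mul (w : FreeGroup α) (x : α × Bool) :
    (FreeGroup.mk [x] * w).toWord =
      if w.toWord.head? = some (x.1, !x.2) then w.toWord.tail else x :: w.toWord := by
  have h1 : (FreeGroup.mk [x] * w).toWord = reduce (x :: w.toWord) := by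
    rw [toWord_mul, toWord_mk, reduce_singleton]
    rfl
  rw [h1, reduce.cons, reduce_toWord]
  rcases x with ⟨a, b⟩
  cases hw : w.toWord with
  | nil => simp
  | cons hd tl =>
    rcases hd with ⟨a', b'⟩
    by_cases h : a = a' ∧ b = !b'
    · obtain ⟨rfl, rfl⟩ := h
      simp
    · have h2 : ¬ ((a', b') = (a, !b)) := by
        intro h3
        apply h
        have h4 := Prod.mk.inj h3
        refine ⟨h4.1.symm, ?_⟩
        rw [h4.2]
        simp
      simp only [List.head?_cons, Option.some.injEq, List.tail_cons]
      rw [if_neg h, if_neg h2]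

theorem invRev_singleton' (x : α × Bool) : invRev [x] = [(x.1, !x.2)] := by
  simp [invRev]

theorem head?_invRev (L : List (α × Bool)) :
    (invRev L).head? = L.getLast?.map (fun y => (y.1, !y.2)) := by
  simp [invRev, List.head?_reverse]

theorem tail_invRev (L : List (α × Bool)) :
    (invRev L).tail = invRev L.dropLast := by
  simp [invRev, List.tail_reverse, List.map_dropLast]

/-- U7a.  Right multiplication by a letter appends the letter or removes the last letter. -/
theorem toWord_mul_letter (w : FreeGroup α) (x : α × Bool) :
    (w * FreeGroup.mk [x]).toWord =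
      if w.toWord.getLast? = some (x.1, !x.2) then w.toWord.dropLast else w.toWord ++ [x] := by
  have h1 : w * FreeGroup.mk [x] = (FreeGroup.mk [(x.1, !x.2)] * w⁻¹)⁻¹ := by
    rw [mul_inv_rev, inv_inv, inv_mk, invRev_singleton']
    simp
  rw [h1, toWord_inv, toWord_letter_mul, toWord_inv, head?_invRev, tail_invRev]
  have h2 : (w.toWord.getLast?.map (fun y => (y.1, !y.2)) = some (x.1, !(!x.2))) ↔
      w.toWord.getLast? = some (x.1, !x.2) := by
    cases hl : w.toWord.getLast? with
    | none => simp
    | some y =>
      rcases y with ⟨a, b⟩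
      rcases x with ⟨a', b'⟩
      simp only [Option.map_some, Option.some.injEq, Prod.mk.injEq, Bool.not_not]
      constructor
      · rintro ⟨rfl, h⟩
        refine ⟨rfl, ?_⟩
        rw [← h]; simp
      · rintro ⟨rfl, h⟩
        refine ⟨rfl, ?_⟩
        rw [h]; simp
  by_cases h : w.toWord.getLast? = some (x.1, !x.2)
  · rw [if_pos (h2.2 h), if_pos h, invRev_invRev]
  · rw [if_neg (fun h' => h (h2.1 h')), if_neg h, invRev_cons, invRev_invRev, invRev_singleton']
    simp

/-- U7a.  At most one letter does not increase the norm. -/
theorem card_norm_le (w : FreeGroup (Fin 2)) :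
    (Finset.univ.filter fun x : Dir => (w * FreeGroup.mk [x]).norm ≤ w.norm).card ≤ 1 := by
  rw [Finset.card_le_one]
  have key : ∀ x : Dir, (w * FreeGroup.mk [x]).norm ≤ w.norm →
      w.toWord.getLast? = some (x.1, !x.2) := by
    intro x hx
    by_contra h
    unfold FreeGroup.norm at hx
    rw [toWord_mul_letter, if_neg h] at hx
    simp at hx
  intro x hx y hy
  have h1 := key x (Finset.mem_filter.1 hx).2
  have h2 := key y (Finset.mem_filter.1 hy).2
  rw [h1] at h2
  have h3 := Prod.mk.inj (Option.some.inj h2)
  apply Prod.ext h3.1
  have := h3.2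
  cases hx2 : x.2 <;> cases hy2 : y.2 <;> simp_all

end Vale.Agent.Lib.P090
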