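import Vale.Agent.Lib.P090.LabWalk
import Vale.Agent.Lib.P090.FreeWord

noncomputable section

namespace Vale.Agent.Lib.P090

open FreeGroup

variable {Z S : Type*} [DecidableEq S] {mv : Dir → Z → Z} {lab : Z → Dir → S × Bool}
  {gen : S → Fin 2}

/-- one more step of a walk along a reduced word -/
theorem IsLab.mv_walkEnd_toWord (hlab : IsLab mv lab gen) (z₀ : Z) (ω : FreeGroup (Fin 2))
    (x : Dir) :
    mv x (walkEnd mv z₀ ω.toWord) = walkEnd mv z₀ (ω * FreeGroup.mk [x]).toWord := by
  have h1 : (ω * FreeGroup.mk [x]).toWord = reduce (ω.toWord ++ [x]) := by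
    rw [toWord_mul, toWord_mk, reduce_singleton]
  rw [h1, hlab.walkEnd_reduce, walkEnd_append]
  rfl

theorem norm_mul_letter_le (ω : FreeGroup (Fin 2)) (x : Dir) :
    (ω * FreeGroup.mk [x]).norm ≤ ω.norm + 1 := by
  refine le_trans (FreeGroup.norm_mul_le _ _) ?_
  have : (FreeGroup.mk [x]).norm ≤ 1 := by
    refine le_trans FreeGroup.norm_mk_le ?_
    simp
  omega

/-- U10.  If the walks from `z₀` along reduced words of length at most `r + 1` end at distinct
points, there is a height function such that at every point of the ball of radius `r` at most one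
direction does not increase the height. -/
theorem IsLab.exists_height (hlab : IsLab mv lab gen) (z₀ : Z) (r : ℕ)
    (hinj : ∀ ω ω' : FreeGroup (Fin 2), ω.norm ≤ r + 1 → ω'.norm ≤ r + 1 →
      walkEnd mv z₀ ω.toWord = walkEnd mv z₀ ω'.toWord → ω = ω') :
    ∃ h : Z → ℕ, ∀ ω : FreeGroup (Fin 2), ω.norm ≤ r →
      (Finset.univ.filter fun x : Dir =>
        h (mv x (walkEnd mv z₀ ω.toWord)) ≤ h (walkEnd mv z₀ ω.toWord)).card ≤ 1 := by
  classical
  let P : Z → FreeGroup (Fin 2) → Prop := fun z ω => ω.norm ≤ r + 1 ∧ z = walkEnd mv z₀ ω.toWord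
  let h : Z → ℕ := fun z => if hz : ∃ ω, P z ω then (Classical.choose hz).norm else 0
  have hval : ∀ ω : FreeGroup (Fin 2), ω.norm ≤ r + 1 → h (walkEnd mv z₀ ω.toWord) = ω.norm := by
    intro ω hω
    have hz : ∃ ω', P (walkEnd mv z₀ ω.toWord) ω' := ⟨ω, hω, rfl⟩
    have hs := Classical.choose_spec hz
    have he : Classical.choose hz = ω := hinj _ _ hs.1 hω hs.2.symm
    show (if hz : ∃ ω', P (walkEnd mv z₀ ω.toWord) ω' then (Classical.choose hz).norm else 0)
      = ω.norm
    rw [dif_pos hz, he]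
  refine ⟨h, fun ω hω => ?_⟩
  refine le_trans (Finset.card_le_card ?_) (card_norm_le ω)
  intro x hx
  rw [Finset.mem_filter] at hx ⊢
  refine ⟨hx.1, ?_⟩
  have h1 := hx.2
  rw [hlab.mv_walkEnd_toWord, hval _ (le_trans (norm_mul_letter_le ω x) (by omega)),
    hval ω (by omega)] at h1
  exact h1

end Vale.Agent.Lib.P090
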