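import Vale.Agent.Lib.P090.IsoDir

/-!
# The counting argument
-/

noncomputable section

namespace Vale.Agent.Lib.P090

/-- U6b.  The counting argument. -/
theorem count_contra {Y U K : Type*} [Fintype Y] [Nonempty Y] (N : Dir → Y → Y)
    (hN : ∀ (x : Dir) (y : Y), N (x.1, !x.2) (N x y) = y)
    (FU : Finset U) (g : Y → U → ℝ) (cl : Y → U → K) (η ε : ℝ)
    (hmass : ∀ y, |∑ u ∈ FU, g y u - 1| ≤ η)
    (hvar : ∀ σ : K → ℝ, (∀ k, |σ k| ≤ 1) → ∀ (y : Y) (x : Dir),
      ∑ u ∈ FU, (g y u * σ (cl y u) - g (N x y) u * σ (cl (N x y) u)) ≤ ε)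
    (hh : ∀ k : K, ∃ h : Y → ℕ, ∀ y, (∃ u ∈ FU, cl y u = k ∧ g y u ≠ 0) →
      (Finset.univ.filter fun x : Dir => h (N x y) ≤ h y).card ≤ 1) :
    1 - η ≤ 2 * ε := by
  classical
  -- the finite set of classes
  set KF : Finset K := (Finset.univ ×ˢ FU).image (fun p : Y × U => cl p.1 p.2) with hKF
  have hmem : ∀ (y : Y), ∀ u ∈ FU, cl y u ∈ KF := by
    intro y u hu
    rw [hKF]
    exact Finset.mem_image.2 ⟨(y, u), by simp [hu], rfl⟩
  -- the class masses
  set f : K → Y → ℝ := fun k y => ∑ u ∈ FU with cl y u = k, g y u with hf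
  -- fibrewise summation with a weight
  have hfib : ∀ (σ : K → ℝ) (y : Y),
      ∑ u ∈ FU, g y u * σ (cl y u) = ∑ k ∈ KF, f k y * σ k := by
    intro σ y
    rw [← Finset.sum_fiberwise_of_maps_to (hmem y)]
    refine Finset.sum_congr rfl fun k _ => ?_
    rw [hf]
    simp only
    rw [Finset.sum_mul]
    refine Finset.sum_congr rfl fun u hu => ?_
    rw [(Finset.mem_filter.1 hu).2]
  -- Step 1: mass
  have h1 : ∀ y, 1 - η ≤ ∑ k ∈ KF, |f k y| := by
    intro y
    have e : ∑ u ∈ FU, g y u = ∑ k ∈ KF, f k y := by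
      have := hfib (fun _ => 1) y
      simpa using this
    have h2 : |∑ k ∈ KF, f k y| ≤ ∑ k ∈ KF, |f k y| := Finset.abs_sum_le_sum_abs _ _
    have h3 := hmass y
    rw [e] at h3
    have h4 := abs_le.1 h3
    have h5 := le_abs_self (∑ k ∈ KF, f k y)
    linarith [h4.1]
  -- Step 2: variation
  have h2 : ∀ (y : Y) (x : Dir), ∑ k ∈ KF, |f k (N x y) - f k y| ≤ ε := by
    intro y x
    set σ : K → ℝ := fun k => if 0 ≤ f k y - f k (N x y) then 1 else -1 with hσ
    have hσ1 : ∀ k, |σ k| ≤ 1 := by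
      intro k
      rw [hσ]
      simp only
      split_ifs <;> simp
    have h := hvar σ hσ1 y x
    rw [Finset.sum_sub_distrib, hfib σ y, hfib σ (N x y), ← Finset.sum_sub_distrib] at h
    refine le_trans (le_of_eq ?_) h
    refine Finset.sum_congr rfl fun k _ => ?_
    rw [hσ]
    simp only
    split_ifs with hc
    · rw [abs_sub_comm, abs_of_nonneg hc]; ring
    · rw [abs_sub_comm, abs_of_neg (not_le.1 hc)]; ring
  -- Step 3: isoperimetry in each class
  have h3 : ∀ k, 2 * ∑ y, |f k y| ≤ ∑ y, ∑ x : Dir, |f k (N x y) - f k y| := by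
    intro k
    obtain ⟨h, hh'⟩ := hh k
    refine iso_dir N hN (f k) h fun y hy => hh' y ?_
    obtain ⟨u, hu, hgu⟩ := Finset.exists_ne_zero_of_sum_ne_zero hy
    exact ⟨u, (Finset.mem_filter.1 hu).1, (Finset.mem_filter.1 hu).2, hgu⟩
  -- Sum up
  have hcard : (0 : ℝ) < Fintype.card Y := by exact_mod_cast Fintype.card_pos
  have hL : 2 * ((Fintype.card Y : ℝ) * (1 - η)) ≤ 2 * ∑ k ∈ KF, ∑ y, |f k y| := by
    rw [Finset.sum_comm]
    have : ∑ _y : Y, (1 - η) ≤ ∑ y, ∑ k ∈ KF, |f k y| := Finset.sum_le_sum fun y _ => h1 y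
    simp only [Finset.sum_const, Finset.card_univ, nsmul_eq_mul] at this
    linarith
  have hM : 2 * ∑ k ∈ KF, ∑ y, |f k y| ≤ ∑ k ∈ KF, ∑ y, ∑ x : Dir, |f k (N x y) - f k y| := by
    rw [Finset.mul_sum]
    exact Finset.sum_le_sum fun k _ => h3 k
  have hR : ∑ k ∈ KF, ∑ y, ∑ x : Dir, |f k (N x y) - f k y| ≤ (Fintype.card Y : ℝ) * (4 * ε) := by
    rw [Finset.sum_comm]
    have : ∑ y : Y, ∑ k ∈ KF, ∑ x : Dir, |f k (N x y) - f k y| ≤ ∑ _y : Y, (4 * ε) := by
      refine Finset.sum_le_sum fun y _ => ?_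
      rw [Finset.sum_comm]
      have : ∑ x : Dir, ∑ k ∈ KF, |f k (N x y) - f k y| ≤ ∑ _x : Dir, ε :=
        Finset.sum_le_sum fun x _ => h2 y x
      simp only [Finset.sum_const, Finset.card_univ, nsmul_eq_mul] at this
      have hc : (Fintype.card Dir : ℝ) = 4 := by
        simp [Dir]
      rw [hc] at this
      exact this
    simp only [Finset.sum_const, Finset.card_univ, nsmul_eq_mul] at this
    exact this
  have hfin : (Fintype.card Y : ℝ) * (2 * (1 - η)) ≤ (Fintype.card Y : ℝ) * (4 * ε) := by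
    linarith
  have := le_of_mul_le_mul_left hfin hcard
  linarith

end Vale.Agent.Lib.P090
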