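import Mathlib

noncomputable section

namespace Vale.Agent.Lib.P090

/-- U13b.  The number of functions with prescribed values at `n` distinct points. -/
theorem card_prescribed_mul {H B : Type*} [Fintype H] [DecidableEq H] [Fintype B] [DecidableEq B]
    (n : ℕ) (p : Fin n → H) (hp : Function.Injective p) (β : Fin n → B) :
    (Finset.univ.filter fun b : H → B => ∀ t, b (p t) = β t).card * Fintype.card B ^ n =
      Fintype.card B ^ Fintype.card H := by
  classical
  have hset : (Finset.univ.filter fun b : H → B => ∀ t, b (p t) = β t) =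
      Fintype.piFinset (fun h : H => if hh : ∃ t, p t = h then {β hh.choose} else Finset.univ) := by
    ext b
    simp only [Finset.mem_filter, Finset.mem_univ, true_and, Fintype.mem_piFinset]
    constructor
    · intro hb h
      split_ifs with hh
      · rw [Finset.mem_singleton]
        have := hb hh.choose
        rwa [hh.choose_spec] at this
      · exact Finset.mem_univ _
    · intro hb t
      have hh : ∃ t', p t' = p t := ⟨t, rfl⟩
      have := hb (p t)
      rw [dif_pos hh, Finset.mem_singleton] at this
      rw [this, hp hh.choose_spec]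
  rw [hset, Fintype.card_piFinset]
  have hcard : ∀ h : H, (if hh : ∃ t, p t = h then ({β hh.choose} : Finset B)
      else Finset.univ).card = if (∃ t, p t = h) then 1 else Fintype.card B := by
    intro h
    split_ifs <;> simp
  simp only [hcard]
  rw [Finset.prod_ite, Finset.prod_const_one, one_mul, Finset.prod_const, ← pow_add]
  congr 1
  have h1 : (Finset.univ.filter fun h : H => ∃ t, p t = h).card = n := by
    have : (Finset.univ.filter fun h : H => ∃ t, p t = h) = Finset.univ.image p := by
      ext h; simp
    rw [this, Finset.card_image_of_injective _ hp]; simp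
  have h2 := Finset.card_filter_add_card_filter_not (s := (Finset.univ : Finset H))
    (fun h : H => ∃ t, p t = h)
  rw [h1] at h2
  rw [Finset.card_univ] at h2
  omega

/-- U13b.  Union bound: if there are fewer than `card B ^ n` constraints, each prescribing the values
at `n` distinct points, some function violates all of them. -/
theorem exists_avoiding {H B T : Type*} [Fintype H] [DecidableEq H] [Fintype B] [DecidableEq B]
    [Nonempty B]
    [Fintype T] (n : ℕ) (p : T → Fin n → H) (hp : ∀ τ, Function.Injective (p τ))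
    (β : T → Fin n → B) (hcard : Fintype.card T < Fintype.card B ^ n) :
    ∃ b : H → B, ∀ τ, ∃ t, b (p τ t) ≠ β τ t := by
  classical
  by_contra hcon
  push Not at hcon
  have hcov : (Finset.univ : Finset (H → B)) ⊆
      Finset.univ.biUnion fun τ : T => Finset.univ.filter fun b : H → B => ∀ t, b (p τ t) = β τ t := by
    intro b _
    obtain ⟨τ, hτ⟩ := hcon b
    simp only [Finset.mem_biUnion, Finset.mem_univ, Finset.mem_filter, true_and]
    exact ⟨τ, hτ⟩
  have h1 : Fintype.card B ^ Fintype.card H ≤
      ∑ τ : T, (Finset.univ.filter fun b : H → B => ∀ t, b (p τ t) = β τ t).card := by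
    calc Fintype.card B ^ Fintype.card H = (Finset.univ : Finset (H → B)).card := by
          rw [Finset.card_univ, Fintype.card_fun]
      _ ≤ _ := Finset.card_le_card hcov
      _ ≤ _ := Finset.card_biUnion_le
  have h2 : Fintype.card B ^ Fintype.card H * Fintype.card B ^ n ≤
      Fintype.card T * Fintype.card B ^ Fintype.card H := by
    calc Fintype.card B ^ Fintype.card H * Fintype.card B ^ n
        ≤ (∑ τ : T, (Finset.univ.filter fun b : H → B => ∀ t, b (p τ t) = β τ t).card)
            * Fintype.card B ^ n := Nat.mul_le_mul_right _ h1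
      _ = ∑ τ : T, Fintype.card B ^ Fintype.card H := by
          rw [Finset.sum_mul]
          exact Finset.sum_congr rfl fun τ _ => card_prescribed_mul n (p τ) (hp τ) (β τ)
      _ = Fintype.card T * Fintype.card B ^ Fintype.card H := by
          rw [Finset.sum_const, Finset.card_univ, smul_eq_mul]
  have hpos : 0 < Fintype.card B ^ Fintype.card H := pow_pos Fintype.card_pos _
  rw [mul_comm] at h2
  exact absurd (Nat.le_of_mul_le_mul_right h2 hpos) (not_le.mpr hcard)

/-- U13c.  The numerical inequality. -/
theorem label_numeric (C L : ℕ) (hC : C ≤ L) :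
    C * ((3 ^ (4 * L) + 2) ^ 4 * 4 ^ L) < (3 ^ 20) ^ (L + 1) := by
  have h1 : C < 3 ^ L := lt_of_le_of_lt hC (Nat.lt_pow_self (by norm_num))
  have h2 : 3 ^ (4 * L) + 2 ≤ 3 ^ (4 * L + 1) := by
    have : 1 ≤ 3 ^ (4 * L) := Nat.one_le_pow _ _ (by norm_num)
    rw [pow_succ]; omega
  have h3 : 4 ^ L ≤ 3 ^ (2 * L) := by
    rw [pow_mul]; exact Nat.pow_le_pow_left (by norm_num) L
  have hpos : 0 < (3 ^ (4 * L) + 2) ^ 4 * 4 ^ L := by positivity
  calc C * ((3 ^ (4 * L) + 2) ^ 4 * 4 ^ L) < 3 ^ L * ((3 ^ (4 * L) + 2) ^ 4 * 4 ^ L) :=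
        Nat.mul_lt_mul_of_pos_right h1 hpos
    _ ≤ 3 ^ L * ((3 ^ (4 * L + 1)) ^ 4 * 3 ^ (2 * L)) :=
        Nat.mul_le_mul_left _ (Nat.mul_le_mul (Nat.pow_le_pow_left h2 4) h3)
    _ = 3 ^ (19 * L + 4) := by
        rw [← pow_mul, ← pow_add, ← pow_add]; congr 1; ring
    _ ≤ 3 ^ (20 * (L + 1)) := Nat.pow_le_pow_right (by norm_num) (by omega)
    _ = (3 ^ 20) ^ (L + 1) := by rw [pow_mul]

end Vale.Agent.Lib.P090
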