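import Vale.Agent.Lib.P090.LabelBasic
import Vale.Agent.Lib.P090.LabelCount

noncomputable section

namespace Vale.Agent.Lib.P090

open FreeGroup

/-- U13d.  For finitely many coloured groups there is a coloured group of large injectivity radius
which has no long word in common with them. -/
theorem exists_good_index (𝓕 : Finset Idx) (D : ℕ) : ∃ (i : Idx) (L : ℕ),
    (∀ w : FreeGroup (Fin 2), w.norm ≤ 2 * (2 * D + L) + 2 →
      FreeGroup.lift (slGen i.1) w = 1 → w = 1) ∧
    ∀ i' ∈ 𝓕, NoCommon zmv zlab (fun z : ZZ => z.1) L i i' := by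
  classical
  set C : ℕ := ∑ i' ∈ 𝓕, Fintype.card (SLm i'.1) with hC
  set L : ℕ := max C (2 * D + 1) + 1 with hL
  set g : ℕ := 4 * L with hg
  set m : ℕ := 3 ^ g + 1 with hm
  have hCL : C ≤ L := by rw [hL]; exact (le_max_left _ _).trans (Nat.le_succ _)
  have hDL : 2 * D + 1 ≤ L := by rw [hL]; exact (le_max_right _ _).trans (Nat.le_succ _)
  have hinj : ∀ w : FreeGroup (Fin 2), w.norm ≤ g → FreeGroup.lift (slGen m) w = 1 → w = 1 :=
    fun w hw h1 => sl_inj g m (by rw [hm]; omega) w hw h1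
  -- the constraints
  let T : Type := (Σ i' : 𝓕, SLm i'.1.1) × SLm m × {ω : List.Vector Dir L // IsReduced ω.toList}
  let p : T → Fin (L + 1) → SLm m := fun τ t =>
    τ.2.1 * FreeGroup.lift (slGen m) (FreeGroup.mk (τ.2.2.1.toList.take t))
  let β : T → Fin (L + 1) → Bsym := fun τ t =>
    τ.1.1.1.2 (τ.1.2 * FreeGroup.lift (slGen τ.1.1.1.1) (FreeGroup.mk (τ.2.2.1.toList.take t)))
  have hp : ∀ τ, Function.Injective (p τ) := by
    intro τ t s hts
    have hlen : τ.2.2.1.toList.length = L := τ.2.2.1.toList_length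
    have h := walk_vertices_injective m g hinj τ.2.1 τ.2.2.1.toList τ.2.2.2
      (by rw [hlen, hg]; omega)
    have h' := @h ⟨t, by rw [hlen]; exact t.2⟩ ⟨s, by rw [hlen]; exact s.2⟩ hts
    exact Fin.ext (by simpa using congrArg Fin.val h')
  have hcard : Fintype.card T < Fintype.card Bsym ^ (L + 1) := by
    have h1 : Fintype.card (Σ i' : 𝓕, SLm i'.1.1) = C := by
      rw [Fintype.card_sigma, hC, Finset.univ_eq_attach]
      exact Finset.sum_attach 𝓕 (fun i' => Fintype.card (SLm i'.1))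
    have h2 : Fintype.card (SLm m) ≤ (3 ^ (4 * L) + 2) ^ 4 := by
      have := sl_card m
      rwa [hm, hg] at this
    have h3 : Fintype.card {ω : List.Vector Dir L // IsReduced ω.toList} ≤ 4 ^ L := by
      refine (Fintype.card_subtype_le _).trans ?_
      rw [card_vector]
      simp
    have h4 : Fintype.card T ≤ C * ((3 ^ (4 * L) + 2) ^ 4 * 4 ^ L) := by
      rw [Fintype.card_prod, Fintype.card_prod, h1]
      exact Nat.mul_le_mul_left _ (Nat.mul_le_mul h2 h3)
    have h5 := label_numeric C L hCL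
    have h6 : Fintype.card Bsym = 3 ^ 20 := Fintype.card_fin _
    rw [h6]
    exact lt_of_le_of_lt h4 h5
  obtain ⟨b, hb⟩ := exists_avoiding (L + 1) p hp β hcard
  refine ⟨⟨m, b⟩, L, ?_, ?_⟩
  · intro w hw h1
    exact hinj w (by rw [hg]; omega) h1
  · intro i' hi' z z' ω hz hz' hred hlen heq
    obtain ⟨zi, h⟩ := z
    obtain ⟨zi', h'⟩ := z'
    simp only at hz hz'
    subst hz
    subst hz'
    have hne : ω ≠ [] := by
      intro h0
      rw [h0] at hlen
      simp at hlen
    obtain ⟨t, ht⟩ := hb (⟨⟨zi', hi'⟩, h'⟩, h, ⟨⟨ω, hlen⟩, hred⟩)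
    apply ht
    have hc := zcol_eq_of_walkLab_eq _ _ ω hne heq t (by rw [hlen]; exact Nat.lt_succ_iff.1 t.2)
    rw [walkEnd_zmv, walkEnd_zmv] at hc
    exact hc

end Vale.Agent.Lib.P090
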