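import Vale.Agent.Lib.P090.FreeWord

/-!
# Reduced words in free groups: common factors
-/

noncomputable section

namespace Vale.Agent.Lib.P090

open FreeGroup

variable {α : Type*} [DecidableEq α]

theorem tail_infix_tail {β : Type*} {v L : List β} (h : v <:+: L) : v.tail <:+: L.tail := by
  obtain ⟨s, t, rfl⟩ := h
  cases s with
  | nil =>
    cases v with
    | nil => exact List.nil_infix
    | cons y v' =>
      simp only [List.nil_append, List.cons_append, List.tail_cons]
      exact (List.prefix_append v' t).isInfix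
  | cons y s' =>
    simp only [List.cons_append, List.tail_cons]
    exact (List.tail_suffix v).isInfix.trans ⟨s', t, by simp⟩

theorem dropLast_infix_dropLast {β : Type*} {v L : List β} (h : v <:+: L) :
    v.dropLast <:+: L.dropLast := by
  obtain ⟨s, t, rfl⟩ := h
  rcases List.eq_nil_or_concat t with rfl | ⟨t', y, rfl⟩
  · rcases List.eq_nil_or_concat v with rfl | ⟨v', y, rfl⟩
    · exact List.nil_infix
    · rw [List.concat_eq_append]
      have : (s ++ (v' ++ [y]) ++ []).dropLast = s ++ v' := by
        rw [List.append_nil, ← List.append_assoc, List.dropLast_concat]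
      rw [this, List.dropLast_concat]
      exact (List.suffix_append s v').isInfix
  · rw [List.concat_eq_append]
    have : (s ++ v ++ (t' ++ [y])).dropLast = s ++ v ++ t' := by
      rw [← List.append_assoc, List.dropLast_concat]
    rw [this]
    exact (List.dropLast_prefix v).isInfix.trans ⟨s, t', rfl⟩

theorem infix_letter_mul (u : FreeGroup α) (x : α × Bool) {v : List (α × Bool)}
    (h : v <:+: u.toWord) :
    ∃ v', v' <:+: v ∧ v' <:+: (FreeGroup.mk [x] * u).toWord ∧ v.length ≤ v'.length + 1 := by
  rw [toWord_letter_mul]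
  split_ifs with hx
  · refine ⟨v.tail, (List.tail_suffix v).isInfix, tail_infix_tail h, ?_⟩
    simp only [List.length_tail]
    omega
  · exact ⟨v, List.infix_rfl, List.infix_cons h, by omega⟩

theorem infix_mul_letter (u : FreeGroup α) (x : α × Bool) {v : List (α × Bool)}
    (h : v <:+: u.toWord) :
    ∃ v', v' <:+: v ∧ v' <:+: (u * FreeGroup.mk [x]).toWord ∧ v.length ≤ v'.length + 1 := by
  rw [toWord_mul_letter]
  split_ifs with hx
  · refine ⟨v.dropLast, (List.dropLast_prefix v).isInfix, dropLast_infix_dropLast h, ?_⟩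
    simp only [List.length_dropLast]
    omega
  · exact ⟨v, List.infix_rfl, h.trans (List.prefix_append _ _).isInfix, by omega⟩

theorem infix_mk_mul (a : List (α × Bool)) (u : FreeGroup α) {v : List (α × Bool)}
    (h : v <:+: u.toWord) :
    ∃ v', v' <:+: v ∧ v' <:+: (FreeGroup.mk a * u).toWord ∧ v.length ≤ v'.length + a.length := by
  induction a with
  | nil =>
    refine ⟨v, List.infix_rfl, ?_, by simp⟩
    have : (FreeGroup.mk ([] : List (α × Bool))) = 1 := rfl
    rw [this, one_mul]
    exact h
  | cons x a ih =>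
    obtain ⟨v1, h1, h2, h3⟩ := ih
    obtain ⟨v2, h4, h5, h6⟩ := infix_letter_mul (FreeGroup.mk a * u) x h2
    refine ⟨v2, h4.trans h1, ?_, ?_⟩
    · have : FreeGroup.mk (x :: a) = FreeGroup.mk [x] * FreeGroup.mk a := by
        rw [mul_mk]; rfl
      rw [this, mul_assoc]
      exact h5
    · simp only [List.length_cons]
      omega

theorem infix_mul_mk (b : List (α × Bool)) (u : FreeGroup α) {v : List (α × Bool)}
    (h : v <:+: u.toWord) :
    ∃ v', v' <:+: v ∧ v' <:+: (u * FreeGroup.mk b).toWord ∧ v.length ≤ v'.length + b.length := by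
  induction b generalizing u v with
  | nil =>
    refine ⟨v, List.infix_rfl, ?_, by simp⟩
    have : (FreeGroup.mk ([] : List (α × Bool))) = 1 := rfl
    rw [this, mul_one]
    exact h
  | cons x b ih =>
    obtain ⟨v1, h1, h2, h3⟩ := infix_mul_letter u x h
    obtain ⟨v2, h4, h5, h6⟩ := ih (u * FreeGroup.mk [x]) h2
    refine ⟨v2, h4.trans h1, ?_, ?_⟩
    · have : FreeGroup.mk (x :: b) = FreeGroup.mk [x] * FreeGroup.mk b := by
        rw [mul_mk]; rfl
      rw [this, ← mul_assoc]
      exact h5
    · simp only [List.length_cons]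
      omega

/-- U7b.  The reduced words of `w` and of `k⁻¹ * w * k'` have a long common factor. -/
theorem common_infix (k k' w : FreeGroup α) :
    ∃ v : List (α × Bool), v <:+: w.toWord ∧ v <:+: (k⁻¹ * w * k').toWord ∧
      w.norm ≤ v.length + k.norm + k'.norm := by
  obtain ⟨v1, h1, h2, h3⟩ := infix_mk_mul (k⁻¹).toWord w (v := w.toWord) List.infix_rfl
  rw [mk_toWord] at h2
  obtain ⟨v2, h4, h5, h6⟩ := infix_mul_mk k'.toWord (k⁻¹ * w) h2
  rw [mk_toWord] at h5
  refine ⟨v2, h4.trans h1, h5, ?_⟩
  have h7 : (k⁻¹).toWord.length = k.norm := by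
    have := norm_inv_eq (x := k)
    unfold FreeGroup.norm at this ⊢
    exact this
  unfold FreeGroup.norm at h7 ⊢
  omega

end Vale.Agent.Lib.P090
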