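import Vale.Agent.Lib.P090.RangeDefs

noncomputable section

namespace Vale.Agent.Lib.P090

open FreeGroup

variable {Z S Q : Type*} [DecidableEq S] [Group Q] {mv : Dir → Z → Z}
  {lab : Z → Dir → S × Bool} {gen : S → Fin 2} {Φ : FreeGroup S →* Q}

/-- The `Z`-coordinate of a point of `(Z × Q) ⊕ Q` (none for hubs). -/
def zU : (Z × Q) ⊕ Q → Option Z
  | Sum.inl u => some u.1
  | Sum.inr _ => none

/-- Walks from an optional point. -/
def walkO (mv : Dir → Z → Z) : Option Z → List Dir → Option Z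
  | some z, ω => some (walkEnd mv z ω)
  | none, _ => none

/-- Words read from an optional point. -/
def labO (mv : Dir → Z → Z) (lab : Z → Dir → S × Bool) : Option Z → List Dir → List (S × Bool)
  | some z, ω => walkLab mv lab z ω
  | none, _ => []

theorem labU_eq_labO (u : (Z × Q) ⊕ Q) (ω : List Dir) :
    labU mv lab u ω = labO mv lab (zU u) ω := by
  cases u <;> rfl

theorem walkO_nil (a : Option Z) : walkO mv a [] = a := by
  cases a <;> rfl

theorem labO_nil (a : Option Z) : labO mv lab a [] = [] := by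
  cases a <;> rfl

theorem walkO_append (a : Option Z) (ω ω' : List Dir) :
    walkO mv a (ω ++ ω') = walkO mv (walkO mv a ω) ω' := by
  cases a
  · rfl
  · simp [walkO, walkEnd_append]

theorem labO_append (a : Option Z) (ω ω' : List Dir) :
    labO mv lab a (ω ++ ω') = labO mv lab a ω ++ labO mv lab (walkO mv a ω) ω' := by
  cases a
  · rfl
  · simp [walkO, labO, walkLab_append]

theorem IsLab.walkO_invRev (h : IsLab mv lab gen) (a : Option Z) (ω : List Dir) :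
    walkO mv (walkO mv a ω) (invRev ω) = a := by
  cases a
  · rfl
  · simp [walkO, h.walkEnd_invRev]

theorem IsLab.labO_invRev (h : IsLab mv lab gen) (a : Option Z) (ω : List Dir) :
    labO mv lab (walkO mv a ω) (invRev ω) = invRev (labO mv lab a ω) := by
  cases a
  · rfl
  · simp [walkO, labO, h.walkLab_invRev]

/-- A point is liftable if its type difference has a lift of norm `< D`. -/
def IsLiftOf (Φ : FreeGroup S →* Q) (D : ℕ) (p : (Z × Q) × ((Z × Q) ⊕ Q)) (w : FreeGroup S) :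
    Prop :=
  w.norm < D ∧ Φ w = p.1.2⁻¹ * typ Prod.snd p.2

open Classical in
/-- The chosen lift of the type difference. -/
def liftOf (Φ : FreeGroup S →* Q) (D : ℕ) (p : (Z × Q) × ((Z × Q) ⊕ Q)) : FreeGroup S :=
  if h : ∃ w, IsLiftOf Φ D p w then h.choose else 1

theorem eq_of_map_eq (D : ℕ)
    (hinj : ∀ w : FreeGroup S, w.norm ≤ 2 * D + 2 → Φ w = 1 → w = 1) (a b : FreeGroup S)
    (ha : a.norm ≤ D + 1) (hb : b.norm ≤ D + 1) (hab : Φ a = Φ b) : a = b := by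
  have h1 : (a⁻¹ * b).norm ≤ 2 * D + 2 := by
    have := norm_mul_le a⁻¹ b
    rw [norm_inv_eq] at this
    omega
  have h2 : Φ (a⁻¹ * b) = 1 := by
    rw [_root_.map_mul, _root_.map_inv, hab, inv_mul_cancel]
  have h3 := hinj _ h1 h2
  exact (inv_mul_eq_one.mp h3)

theorem liftOf_spec {D : ℕ} {p : (Z × Q) × ((Z × Q) ⊕ Q)} (h : ∃ w, IsLiftOf Φ D p w) :
    IsLiftOf Φ D p (liftOf Φ D p) := by
  unfold liftOf
  rw [dif_pos h]
  exact h.choose_spec

theorem liftOf_eq (D : ℕ)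
    (hinj : ∀ w : FreeGroup S, w.norm ≤ 2 * D + 2 → Φ w = 1 → w = 1)
    {p : (Z × Q) × ((Z × Q) ⊕ Q)} {w : FreeGroup S} (h : IsLiftOf Φ D p w) :
    liftOf Φ D p = w := by
  have h' := liftOf_spec ⟨w, h⟩
  exact eq_of_map_eq D hinj _ _ (by have := h'.1; omega) (by have := h.1; omega)
    (h'.2.trans h.2.symm)

theorem exists_isLiftOf (hs : Function.Surjective Φ) {D : ℕ} {p : (Z × Q) × ((Z × Q) ⊕ Q)}
    (h : rho Φ p.1 (typ Prod.snd p.2) < D) : ∃ w, IsLiftOf Φ D p w := by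
  have hne : {n | ∃ w : FreeGroup S, w.norm = n ∧ Φ w = p.1.2⁻¹ * typ Prod.snd p.2}.Nonempty := by
    obtain ⟨w, hw⟩ := hs (p.1.2⁻¹ * typ Prod.snd p.2)
    exact ⟨w.norm, w, rfl, hw⟩
  obtain ⟨w, hw1, hw2⟩ := Nat.sInf_mem hne
  refine ⟨w, ?_, hw2⟩
  rw [hw1]
  exact h

/-- The invariant relation. -/
def JRel (mv : Dir → Z → Z) (lab : Z → Dir → S × Bool) (Φ : FreeGroup S →* Q) (D : ℕ)
    (p p' : (Z × Q) × ((Z × Q) ⊕ Q)) : Prop :=
  ∃ ω ω' : List Dir, p'.1.1 = walkEnd mv p.1.1 ω ∧ zU p'.2 = walkO mv (zU p.2) ω' ∧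
    liftOf Φ D p' = (FreeGroup.mk (walkLab mv lab p.1.1 ω))⁻¹ * liftOf Φ D p *
      FreeGroup.mk (labO mv lab (zU p.2) ω')

theorem JRel.refl (D : ℕ) (p : (Z × Q) × ((Z × Q) ⊕ Q)) : JRel mv lab Φ D p p := by
  refine ⟨[], [], rfl, (walkO_nil _).symm, ?_⟩
  rw [labO_nil]
  simp [walkLab, ← FreeGroup.one_eq_mk]

theorem JRel.symm (hlab : IsLab mv lab gen) {D : ℕ} {p p' : (Z × Q) × ((Z × Q) ⊕ Q)}
    (h : JRel mv lab Φ D p p') : JRel mv lab Φ D p' p := by
  obtain ⟨ω, ω', h1, h2, h3⟩ := h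
  refine ⟨invRev ω, invRev ω', ?_, ?_, ?_⟩
  · rw [h1, hlab.walkEnd_invRev]
  · rw [h2, hlab.walkO_invRev]
  · rw [h1, h2, hlab.walkLab_invRev, hlab.labO_invRev, h3, ← FreeGroup.inv_mk, ← FreeGroup.inv_mk]
    group

theorem JRel.trans {D : ℕ} {p p' p'' : (Z × Q) × ((Z × Q) ⊕ Q)}
    (h : JRel mv lab Φ D p p') (h' : JRel mv lab Φ D p' p'') : JRel mv lab Φ D p p'' := by
  obtain ⟨ω, ω', h1, h2, h3⟩ := h
  obtain ⟨τ, τ', k1, k2, k3⟩ := h'
  refine ⟨ω ++ τ, ω' ++ τ', ?_, ?_, ?_⟩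
  · rw [k1, h1, walkEnd_append]
  · rw [k2, h2, walkO_append]
  · rw [k3, h3, walkLab_append, labO_append, ← FreeGroup.mul_mk, ← FreeGroup.mul_mk, h1, h2]
    group

theorem JRel.of_rstep (hs : Function.Surjective Φ) (D : ℕ)
    (hinj : ∀ w : FreeGroup S, w.norm ≤ 2 * D + 2 → Φ w = 1 → w = 1)
    {p p' : (Z × Q) × ((Z × Q) ⊕ Q)} (h : rstep mv lab Φ D p p') : JRel mv lab Φ D p p' := by
  obtain ⟨r1, r2, hcase⟩ := h
  have l1 := liftOf_spec (exists_isLiftOf hs r1)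
  have l2 := liftOf_spec (exists_isLiftOf hs r2)
  rcases hcase with ⟨⟨x, hx⟩, hu⟩ | ⟨hy, u, x, hu, hu'⟩
  · refine ⟨[x], [], ?_, ?_, ?_⟩
    · rw [hx]; rfl
    · rw [hu, walkO_nil]
    · rw [labO_nil, ← FreeGroup.one_eq_mk, mul_one]
      have hn : (FreeGroup.mk [lab p.1.1 x]).norm ≤ 1 := by
        simpa using FreeGroup.norm_mk_le (L₁ := [lab p.1.1 x])
      apply eq_of_map_eq D hinj
      · have := l2.1; omega
      · have h4 := norm_mul_le (FreeGroup.mk (walkLab mv lab p.1.1 [x]))⁻¹ (liftOf Φ D p)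
        rw [norm_inv_eq] at h4
        have h5 : walkLab mv lab p.1.1 [x] = [lab p.1.1 x] := rfl
        rw [h5] at h4 ⊢
        have := l1.1
        omega
      · have h5 : walkLab mv lab p.1.1 [x] = [lab p.1.1 x] := rfl
        rw [l2.2, _root_.map_mul, _root_.map_inv, l1.2, hx, hu, h5]
        simp only [mvX, mul_inv_rev]
        group
  · refine ⟨[], [x], ?_, ?_, ?_⟩
    · rw [hy]; rfl
    · rw [hu, hu']; rfl
    · have h5 : walkLab mv lab p.1.1 [] = [] := rfl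
      rw [h5, ← FreeGroup.one_eq_mk, inv_one, one_mul]
      have h6 : labO mv lab (zU p.2) [x] = [lab u.1 x] := by rw [hu]; rfl
      rw [h6]
      have hn : (FreeGroup.mk [lab u.1 x]).norm ≤ 1 := by
        simpa using FreeGroup.norm_mk_le (L₁ := [lab u.1 x])
      apply eq_of_map_eq D hinj
      · have := l2.1; omega
      · have h4 := norm_mul_le (liftOf Φ D p) (FreeGroup.mk [lab u.1 x])
        have := l1.1
        omega
      · rw [l2.2, _root_.map_mul, l1.2, hy, hu, hu']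
        simp only [mvX, typ, Sum.elim_inl]
        group

/-- U9b.  Two pairs in the same range class are joined by walks whose words conjugate the lifts of
the type differences. -/
theorem IsLab.rcl_walks (hlab : IsLab mv lab gen) (hs : Function.Surjective Φ) (D : ℕ)
    (hinj : ∀ w : FreeGroup S, w.norm ≤ 2 * D + 2 → Φ w = 1 → w = 1)
    {y y' : Z × Q} {u u' : (Z × Q) ⊕ Q} (hcl : rcl mv lab Φ D y u = rcl mv lab Φ D y' u')
    (κ κ' : FreeGroup S) (hκ : κ.norm < D) (hκ' : κ'.norm < D)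
    (hΦ : Φ κ = y.2⁻¹ * typ Prod.snd u) (hΦ' : Φ κ' = y'.2⁻¹ * typ Prod.snd u') :
    ∃ ω ω' : List Dir, y'.1 = walkEnd mv y.1 ω ∧
      κ' = (FreeGroup.mk (walkLab mv lab y.1 ω))⁻¹ * κ * FreeGroup.mk (labU mv lab u ω') := by
  have hE : Relation.EqvGen (rstep mv lab Φ D) (y, u) (y', u') := Quot.eqvGen_exact hcl
  have hJ' : ∀ a b, Relation.EqvGen (rstep mv lab Φ D) a b → JRel mv lab Φ D a b := by
    intro a b hab
    induction hab with
    | rel a b h => exact JRel.of_rstep hs D hinj h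
    | refl a => exact JRel.refl D a
    | symm a b _ ih => exact JRel.symm hlab ih
    | trans a b c _ _ ih1 ih2 => exact JRel.trans ih1 ih2
  have hJ : JRel mv lab Φ D (y, u) (y', u') := hJ' _ _ hE
  obtain ⟨ω, ω', h1, -, h3⟩ := hJ
  have e1 : liftOf Φ D (y, u) = κ := liftOf_eq D hinj ⟨hκ, hΦ⟩
  have e2 : liftOf Φ D (y', u') = κ' := liftOf_eq D hinj ⟨hκ', hΦ'⟩
  refine ⟨ω, ω', h1, ?_⟩
  rw [labU_eq_labO, ← e1, ← e2]
  exact h3

end Vale.Agent.Lib.P090
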