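import Vale.Agent.Lib.P090.RangeBasic
import Vale.Agent.Lib.P090.RangeWalks
import Vale.Agent.Lib.P090.FreeInfix

noncomputable section

namespace Vale.Agent.Lib.P090

open FreeGroup

variable {Z S Q I : Type*} [DecidableEq S] [Group Q] {mv : Dir → Z → Z}
  {lab : Z → Dir → S × Bool} {gen : S → Fin 2} {Φ : FreeGroup S →* Q}

omit [DecidableEq S] [Group Q] in
/-- the component is constant along walks -/
theorem comp_walkEnd (comp : Z → I) (hcomp : ∀ x z, comp (mv x z) = comp z) (z : Z)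
    (ω : List Dir) : comp (walkEnd mv z ω) = comp z := by
  induction ω generalizing z with
  | nil => rfl
  | cons x ω ih =>
    show comp (walkEnd mv (mv x z) ω) = comp z
    rw [ih, hcomp]

/-- U9c.  The first coordinates of the pairs of a range class stay in a ball. -/
theorem IsLab.class_support (hlab : IsLab mv lab gen) (comp : Z → I)
    (hcomp : ∀ x z, comp (mv x z) = comp z) (hs : Function.Surjective Φ) (D L : ℕ)
    (hinj : ∀ w : FreeGroup S, w.norm ≤ 2 * D + 2 → Φ w = 1 → w = 1)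
    {y y' : Z × Q} {u u' : (Z × Q) ⊕ Q} (hy : rho Φ y (typ Prod.snd u) < D)
    (hy' : rho Φ y' (typ Prod.snd u') < D) (hcl : rcl mv lab Φ D y u = rcl mv lab Φ D y' u')
    (hSC : ∀ u₀ : Z × Q, u = Sum.inl u₀ → NoCommon mv lab comp L (comp y.1) (comp u₀.1)) :
    ∃ ω : FreeGroup (Fin 2), ω.norm < 2 * D + L ∧ y'.1 = walkEnd mv y.1 ω.toWord := by
  obtain ⟨κ, hκn, hκΦ⟩ := exists_lift (Φ := Φ) hs (y.2⁻¹ * typ Prod.snd u)
  obtain ⟨κ', hκn', hκΦ'⟩ := exists_lift (Φ := Φ) hs (y'.2⁻¹ * typ Prod.snd u')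
  have hκ : κ.norm < D := by rw [hκn]; exact hy
  have hκ' : κ'.norm < D := by rw [hκn']; exact hy'
  obtain ⟨ω, ω', hend, hconj⟩ := hlab.rcl_walks hs D hinj hcl κ κ' hκ hκ' hκΦ hκΦ'
  obtain ⟨w, hw⟩ : ∃ w : FreeGroup S, w = FreeGroup.mk (walkLab mv lab y.1 ω) := ⟨_, rfl⟩
  have hwWord : w.toWord = walkLab mv lab y.1 (reduce ω) := by
    rw [hw, toWord_mk, hlab.walkLab_reduce]
  have hU : FreeGroup.mk (labU mv lab u ω') = κ⁻¹ * w * κ' := by
    rw [hconj, ← hw]
    group
  have hΩword : (FreeGroup.mk ω : FreeGroup (Fin 2)).toWord = reduce ω := toWord_mk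
  have hnorm : (FreeGroup.mk ω : FreeGroup (Fin 2)).norm = w.norm := by
    unfold FreeGroup.norm
    rw [hΩword, hwWord, walkLab_length]
  refine ⟨FreeGroup.mk ω, ?_, ?_⟩
  swap
  · rw [hΩword, hlab.walkEnd_reduce]; exact hend
  rw [hnorm]
  by_contra hcon
  have hbig : 2 * D + L ≤ w.norm := not_lt.mp hcon
  obtain ⟨v, hv1, hv2, hvlen⟩ := common_infix κ κ' w
  have hvL : L + 1 ≤ v.length := by omega
  rw [← hU, toWord_mk] at hv2
  rw [hwWord] at hv1
  cases u with
  | inr z =>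
    have h0 : labU mv lab (Sum.inr z : (Z × Q) ⊕ Q) ω' = [] := rfl
    rw [h0] at hv2
    have h1 : reduce ([] : List (S × Bool)) = [] := rfl
    rw [h1] at hv2
    have h2 : v = [] := List.infix_nil.mp hv2
    rw [h2] at hvL
    simp at hvL
  | inl u₀ =>
    have h0 : labU mv lab (Sum.inl u₀ : (Z × Q) ⊕ Q) ω' = walkLab mv lab u₀.1 ω' := rfl
    rw [h0, hlab.walkLab_reduce] at hv2
    obtain ⟨ω₁, ω₂, ω₃, hsplit, hvw⟩ := walkLab_infix y.1 (reduce ω) v hv1
    obtain ⟨η₁, η₂, η₃, hsplit', hvw'⟩ := walkLab_infix u₀.1 (reduce ω') v hv2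
    have hdir : ω₂ = η₂ := hlab.dirs_eq _ _ ω₂ η₂ (by rw [← hvw, ← hvw'])
    subst hdir
    have hlen2 : ω₂.length = v.length := by rw [hvw, walkLab_length]
    have hred : IsReduced (reduce ω) := by
      rw [← hΩword]; exact isReduced_toWord
    have hred2 : IsReduced (ω₂.take L) := by
      rw [hsplit] at hred
      have h1 : List.IsChain (fun a b : Dir => a.1 = b.1 → a.2 = b.2) ((ω₁ ++ ω₂) ++ ω₃) := hred
      exact (h1.left_of_append.right_of_append).take L
    have hlenT : (ω₂.take L).length = L := by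
      rw [List.length_take]; omega
    have heq : walkLab mv lab (walkEnd mv y.1 ω₁) ω₂ = walkLab mv lab (walkEnd mv u₀.1 η₁) ω₂ := by
      rw [← hvw, ← hvw']
    have heq2 : walkLab mv lab (walkEnd mv y.1 ω₁) (ω₂.take L) =
        walkLab mv lab (walkEnd mv u₀.1 η₁) (ω₂.take L) := by
      rw [← List.take_append_drop L ω₂, walkLab_append, walkLab_append] at heq
      exact (List.append_inj heq (by rw [walkLab_length, walkLab_length])).1
    exact hSC u₀ rfl (walkEnd mv y.1 ω₁) (walkEnd mv u₀.1 η₁) (ω₂.take L)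
      (comp_walkEnd comp hcomp _ _) (comp_walkEnd comp hcomp _ _) hred2 hlenT heq2

end Vale.Agent.Lib.P090
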