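import Vale.Agent.Lib.P090.HairCoeff
import Vale.Agent.Lib.P090.HairTransfer
import Vale.Agent.Lib.P090.IsoCount
import Vale.Agent.Lib.P090.RangeSupport
import Vale.Agent.Lib.P090.Height
import Vale.Agent.Lib.P090.FinQuot
import Vale.Agent.Lib.P090.Label
import Vale.Agent.Lib.P090.Glue

/-!
# Failure of the bounded approximation property
-/

noncomputable section

namespace Vale.Agent.Lib.P090

open FreeGroup

/-- The hair space over the twisted product of the coloured groups with a finite quotient of the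
free group fails the coefficient property with constant `ℓ / 16`. -/
theorem hair_not_coeffProp (ℓ : ℕ) (hℓ : 8 ≤ ℓ) {Q : Type} [Group Q] [Finite Q]
    (Φ : FreeGroup Sym →* Q) (hs : Function.Surjective Φ)
    (hinj : ∀ w : FreeGroup Sym, w.norm ≤ 2 * ℓ ^ 2 + 2 → Φ w = 1 → w = 1) :
    ¬ CoeffProp (HairSpace (graphX zmv zlab Φ) (Prod.snd : ZZ × Q → Q) ℓ (ℓ ^ 2))
      ((ℓ : ℝ) / 16) := by
  classical
  intro h
  have : Fintype Q := Fintype.ofFinite Q
  set W : ℕ := ℓ ^ 2 with hWdef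
  have hℓ1 : 1 ≤ ℓ := by omega
  have hℓW : ℓ ≤ W := by rw [hWdef]; nlinarith
  have hℓR : (8 : ℝ) ≤ ℓ := by exact_mod_cast hℓ
  have hWR : (W : ℝ) = (ℓ : ℝ) ^ 2 := by rw [hWdef]; push_cast; ring
  set L0 : ℝ := (ℓ : ℝ) / 16 with hL0
  have hL0nn : 0 ≤ L0 := by positivity
  obtain ⟨F, c, hc⟩ := exists_hairCoeff (graphX zmv zlab Φ) (Prod.snd : ZZ × Q → Q) ℓ W hℓ1
    (L := L0) (δ := 1 / 100) hL0nn (by norm_num) h
  obtain ⟨FU, g, hg0, hmass, hvar⟩ := hc.transfer hℓ1 hℓW (by positivity) (by positivity)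
    (rho Φ) (fun y => rho_self y)
    (fun y y' z ha => zIsLab.rho_adj_left hs y y' z ha)
    (fun y u u' ha => zIsLab.rho_adj_right hs y u u' ha)
    (rcl zmv zlab Φ W)
    (fun y u u' ha h1 h2 => zIsLab.rcl_right W y u u' ha h1 h2)
    (fun y y' u ha h1 h2 => zIsLab.rcl_left W y y' u ha h1 h2)
  -- the indices of the components meeting `FU`
  let 𝓕 : Finset Idx := FU.toLeft.image fun u => u.1.1
  obtain ⟨i, L, hi, hNC⟩ := exists_good_index 𝓕 W
  -- the new component
  let emb : SLm i.1 × Q → ZZ × Q := fun y => (⟨i, y.1⟩, y.2)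
  let N : Dir → SLm i.1 × Q → SLm i.1 × Q := fun x y =>
    (y.1 * FreeGroup.lift (slGen i.1) (FreeGroup.mk [x]),
      y.2 * Φ (FreeGroup.mk [zlab ⟨i, y.1⟩ x]))
  have hembN : ∀ x y, emb (N x y) = mvX zmv zlab Φ x (emb y) := fun x y => rfl
  have hemb_inj : Function.Injective emb := by
    intro a b hab
    have h1 : (⟨i, a.1⟩ : ZZ) = ⟨i, b.1⟩ := congrArg Prod.fst hab
    have h2 : (emb a).2 = (emb b).2 := congrArg Prod.snd hab
    have h3 : a.1 = b.1 := by
      have := Sigma.mk.inj_iff.mp h1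
      exact eq_of_heq this.2
    exact Prod.ext h3 h2
  have hN : ∀ (x : Dir) (y : SLm i.1 × Q), N (x.1, !x.2) (N x y) = y := by
    intro x y
    apply hemb_inj
    rw [hembN, hembN]
    exact zIsLab.mvX_inv x (emb y)
  have hne : Nonempty (SLm i.1 × Q) := ⟨(1, 1)⟩
  set Lam : ℝ := (L0 + 1 / 100) * ℓ + 1 / 100 with hLam
  have key := count_contra (Y := SLm i.1 × Q) N hN FU (fun y => g (emb y))
    (fun y => rcl zmv zlab Φ W (emb y)) (Lam / W)
    (2 * (L0 + 1 / 100) / ℓ + (2 * Lam + 1) / W)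
    (fun y => hmass (emb y))
    (by
      intro σ hσ y x
      rcases adj_or_eq (mv := zmv) (lab := zlab) (Φ := Φ) x (emb y) with he | ha
      · have : emb (N x y) = emb y := by rw [hembN, he]
        simp only [this, sub_self, Finset.sum_const_zero]
        positivity
      · have := hvar σ hσ (emb y) (mvX zmv zlab Φ x (emb y)) ha
        simpa only [hembN] using this)
    (by
      intro k
      by_cases hk : ∃ y₀ : SLm i.1 × Q, ∃ u₀ ∈ FU, rcl zmv zlab Φ W (emb y₀) u₀ = k ∧
          g (emb y₀) u₀ ≠ 0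
      · obtain ⟨y₀, u₀, hu₀, hk₀, hg₀⟩ := hk
        have hr₀ : rho Φ (emb y₀) (typ Prod.snd u₀) < W := by
          by_contra hcon
          exact hg₀ (hg0 _ _ (not_lt.mp hcon))
        obtain ⟨ht, hht⟩ := zIsLab.exists_height (⟨i, y₀.1⟩ : ZZ) (2 * W + L) (by
          intro ω ω' hω hω' he
          rw [walkEnd_zmv, walkEnd_zmv, mk_toWord, mk_toWord] at he
          have he2 := eq_of_heq (Sigma.mk.inj_iff.mp he).2
          have he3 : FreeGroup.lift (slGen i.1) ω = FreeGroup.lift (slGen i.1) ω' :=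
            mul_left_cancel he2
          have he4 : FreeGroup.lift (slGen i.1) (ω⁻¹ * ω') = 1 := by
            rw [_root_.map_mul, _root_.map_inv, he3, inv_mul_cancel]
          have he5 : (ω⁻¹ * ω').norm ≤ 2 * (2 * W + L) + 2 := by
            have := norm_mul_le ω⁻¹ ω'
            rw [norm_inv_eq] at this
            omega
          have := hi _ he5 he4
          exact (inv_mul_eq_one.mp this))
        refine ⟨fun y => ht ⟨i, y.1⟩, ?_⟩
        rintro y ⟨u, hu, hku, hgu⟩
        have hr : rho Φ (emb y) (typ Prod.snd u) < W := by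
          by_contra hcon
          exact hgu (hg0 _ _ (not_lt.mp hcon))
        obtain ⟨ω, hω, hyω⟩ := zIsLab.class_support (fun z : ZZ => z.1) (fun x z => rfl) hs W L
          hinj hr₀ hr (hk₀.trans hku.symm) (by
            intro v hv
            apply hNC
            refine Finset.mem_image.mpr ⟨v, ?_, rfl⟩
            rw [Finset.mem_toLeft, ← hv]
            exact hu₀)
        have hyω' : (⟨i, y.1⟩ : ZZ) = walkEnd zmv ⟨i, y₀.1⟩ ω.toWord := hyω
        have := hht ω hω.le
        rw [← hyω'] at this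
        exact this
      · refine ⟨fun _ => 0, ?_⟩
        rintro y ⟨u, hu, hku, hgu⟩
        exact absurd ⟨y, u, hu, hku, hgu⟩ hk)
  -- numerics
  have hℓpos : (0 : ℝ) < ℓ := by linarith
  have hWpos : (0 : ℝ) < W := by rw [hWR]; positivity
  have e1 : Lam / W ≤ 1 / 16 + 1 / 400 := by
    rw [div_le_iff₀ hWpos, hWR, hLam, hL0]
    nlinarith
  have e2 : 2 * (L0 + 1 / 100) / ℓ ≤ 1 / 8 + 1 / 400 := by
    rw [div_le_iff₀ hℓpos, hL0]
    nlinarith
  have e3 : (2 * Lam + 1) / W ≤ 2 * (1 / 16 + 1 / 400) + 1 / 64 := by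
    have : (2 * Lam + 1) / W = 2 * (Lam / W) + 1 / W := by ring
    rw [this]
    have : 1 / (W : ℝ) ≤ 1 / 64 := by
      apply one_div_le_one_div_of_le (by norm_num)
      rw [hWR]; nlinarith
    linarith
  linarith

/-- For every `ℓ ≥ 8` there is a countable metric space with all non-zero distances in
`[1, ℓ ^ 2 + 1]` which fails the coefficient property with constant `ℓ / 16`. -/
theorem exists_hair (ℓ : ℕ) (hℓ : 8 ≤ ℓ) :
    ∃ (M : Type) (_ : MetricSpace M), Nonempty M ∧ Countable M ∧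
      (∀ x y : M, x ≠ y → 1 ≤ dist x y) ∧ (∀ x y : M, dist x y ≤ (ℓ : ℝ) ^ 2 + 1) ∧
      ¬ CoeffProp M ((ℓ : ℝ) / 16) := by
  obtain ⟨Q, _, _, Φ, hs, hinj⟩ := exists_finite_quotient Sym (2 * ℓ ^ 2 + 2)
  refine ⟨HairSpace (graphX zmv zlab Φ) (Prod.snd : ZZ × Q → Q) ℓ (ℓ ^ 2), inferInstance,
    ⟨(Sum.inr 1 : (ZZ × Q) × Fin ℓ ⊕ Q)⟩, ?_, ?_, ?_, hair_not_coeffProp ℓ hℓ Φ hs hinj⟩
  · have h1 : ∀ m : ℕ, Countable (SLm m → Bsym) := fun m => by
      have : Finite (SLm m → Bsym) := inferInstance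
      infer_instance
    have h2 : Countable Idx := inferInstance
    have h3 : Countable ZZ := inferInstance
    exact (inferInstance : Countable ((ZZ × Q) × Fin ℓ ⊕ Q))
  · intro x y hxy
    exact one_le_truncDist _ _ hxy
  · intro x y
    have := truncDist_le (hairGraph (graphX zmv zlab Φ) (Prod.snd : ZZ × Q → Q) ℓ) (ℓ ^ 2) x y
    rw [truncSpace_dist]
    push_cast at this
    exact this

/-- There is a countable uniformly discrete metric space whose Lipschitz-free space fails the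
bounded approximation property. -/
theorem bap_fails :
    ∃ (M : Type) (_ : MetricSpace M), Countable M ∧ (∀ x y : M, x ≠ y → 1 ≤ dist x y) ∧
      ∀ (o : M) (lam : ℝ), ¬ HasBAP lam (LipFree M o) := by
  have hex := fun n : ℕ => exists_hair (n + 8) (by omega)
  choose M hM hne hcount hsep hbdd hfail using hex
  obtain ⟨G, hG, hGsep, hGcount, hGc⟩ := exists_glue M hne hsep (fun n => ⟨_, hbdd n⟩)
  refine ⟨G, hG, hGcount hcount, hGsep, ?_⟩
  intro o lam h
  have h1 : CoeffProp G lam := CoeffProp.of_hasBAP o h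
  obtain ⟨n, hn⟩ := exists_nat_ge (16 * lam)
  have h2 : CoeffProp (M n) lam := hGc lam h1 n
  refine hfail n (h2.mono ?_)
  push_cast
  linarith

end Vale.Agent.Lib.P090
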