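import Vale.Agent.Lib.P090.Criterion

/-!
# Bounded uniformly discrete spaces: the square-root bound
-/

noncomputable section

namespace Vale.Agent.Lib.P090

variable {M : Type*} [MetricSpace M] {o : M}

/-- Elementary inequality used below. -/
theorem aux_quarter (m : ℝ) : m * (1 - m) ≤ 1 / 4 := by nlinarith [sq_nonneg (m - 1 / 2)]

theorem aux_min_lt {x : ℝ} (h : min 1 x < 1) : min 1 x = x := by
  rcases le_total 1 x with h' | h'
  · rw [min_eq_left h'] at h; exact absurd h (lt_irrefl _)
  · exact min_eq_right h'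

/-- One-sided main estimate. -/
theorem bounded_estimate (a b q : ℝ) (ha : 0 < a) (hq : 0 < q) (hb : b = a * q ^ 2 / 2)
    (p : M → M) (hp : ∀ y z, dist y (p y) ≤ dist y (p z))
    (hdiam : ∀ x y : M, dist x y ≤ b)
    (f : Lip0 M o) (y z : M) (hyz : a ≤ dist y z)
    (hle : min 1 (dist y (p y) / (a * q)) ≤ min 1 (dist z (p z) / (a * q))) :
    |(1 - min 1 (dist y (p y) / (a * q))) * f (p y) - (1 - min 1 (dist z (p z) / (a * q))) * f (p z)|
      ≤ (1 + q) * ‖f‖ * dist y z := by
  set s := a * q with hs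
  have hspos : 0 < s := mul_pos ha hq
  set ρy := dist y (p y) with hρy
  set ρz := dist z (p z) with hρz
  set d := dist y z with hd
  set ty := min 1 (ρy / s) with hty
  set tz := min 1 (ρz / s) with htz
  have hρy0 : 0 ≤ ρy := dist_nonneg
  have hρz0 : 0 ≤ ρz := dist_nonneg
  have hd0 : 0 ≤ d := dist_nonneg
  have hN : 0 ≤ ‖f‖ := norm_nonneg f
  have hty0 : 0 ≤ ty := le_min zero_le_one (div_nonneg hρy0 hspos.le)
  have htz1 : tz ≤ 1 := min_le_left _ _
  -- `ρ` is 1-Lipschitz
  have hρ : ρz ≤ ρy + d := by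
    calc ρz ≤ dist z (p y) := hp z y
      _ ≤ dist z y + dist y (p y) := dist_triangle _ _ _
      _ = ρy + d := by rw [dist_comm z y]; ring
  -- increment of `t`
  have hinc : tz - ty ≤ d / s := by
    rcases le_total 1 (ρy / s) with h | h
    · have : ty = 1 := min_eq_left h
      have hds : 0 ≤ d / s := div_nonneg hd0 hspos.le
      linarith
    · have h1 : ty = ρy / s := min_eq_right h
      have h2 : tz ≤ ρz / s := min_le_right _ _
      have h3 : ρz / s ≤ (ρy + d) / s := by gcongr
      rw [add_div] at h3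
      linarith
  -- the jump term
  have hjump : (1 - tz) * (ρy + d + ρz) ≤ s / 2 + d := by
    rcases eq_or_lt_of_le htz1 with h | h
    · rw [h]
      have : 0 ≤ s / 2 + d := by positivity
      simpa using this
    · have h1 : tz = ρz / s := aux_min_lt h
      have h2 : ty = ρy / s := aux_min_lt (lt_of_le_of_lt hle h)
      have hρz' : ρz = s * tz := by rw [h1]; field_simp
      have hρy' : ρy = s * ty := by rw [h2]; field_simp
      have hρy'' : ρy ≤ s * tz := by rw [hρy']; exact mul_le_mul_of_nonneg_left hle hspos.le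
      have htz0 : 0 ≤ tz := le_trans hty0 hle
      have h7 : (1 - tz) * (ρy + d + ρz) ≤ (1 - tz) * (s * tz + d + s * tz) := by
        apply mul_le_mul_of_nonneg_left _ (by linarith)
        linarith
      have h8 : (1 - tz) * (s * tz + d + s * tz) = 2 * s * (tz * (1 - tz)) + (1 - tz) * d := by ring
      have h9 : 2 * s * (tz * (1 - tz)) ≤ 2 * s * (1 / 4) :=
        mul_le_mul_of_nonneg_left (aux_quarter tz) (by positivity)
      have h10 : (1 - tz) * d ≤ 1 * d := mul_le_mul_of_nonneg_right (by linarith) hd0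
      linarith
  -- function values
  have hAB : |f (p y) - f (p z)| ≤ ‖f‖ * (ρy + d + ρz) := by
    refine (f.abs_sub_le _ _).trans (mul_le_mul_of_nonneg_left ?_ hN)
    calc dist (p y) (p z) ≤ dist (p y) y + dist y z + dist z (p z) := dist_triangle4 _ _ _ _
      _ = ρy + d + ρz := by rw [dist_comm (p y) y]
  have hA : |f (p y)| ≤ ‖f‖ * b :=
    (f.abs_apply_le _).trans (mul_le_mul_of_nonneg_left (hdiam _ _) hN)
  have hdecomp : (1 - ty) * f (p y) - (1 - tz) * f (p z)
      = (1 - tz) * (f (p y) - f (p z)) + (tz - ty) * f (p y) := by ring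
  have hb0 : 0 ≤ b := le_trans dist_nonneg (hdiam y z)
  have hbs : b / s = q / 2 := by
    rw [hb, hs]; field_simp
  calc |(1 - ty) * f (p y) - (1 - tz) * f (p z)|
      = |(1 - tz) * (f (p y) - f (p z)) + (tz - ty) * f (p y)| := by rw [hdecomp]
    _ ≤ |(1 - tz) * (f (p y) - f (p z))| + |(tz - ty) * f (p y)| := abs_add_le _ _
    _ = (1 - tz) * |f (p y) - f (p z)| + (tz - ty) * |f (p y)| := by
        rw [abs_mul, abs_mul, abs_of_nonneg (by linarith : 0 ≤ 1 - tz),
          abs_of_nonneg (by linarith : 0 ≤ tz - ty)]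
    _ ≤ (1 - tz) * (‖f‖ * (ρy + d + ρz)) + (d / s) * (‖f‖ * b) := by
        apply add_le_add
        · exact mul_le_mul_of_nonneg_left hAB (by linarith)
        · exact mul_le_mul hinc hA (abs_nonneg _) (div_nonneg hd0 hspos.le)
    _ = ‖f‖ * ((1 - tz) * (ρy + d + ρz)) + ‖f‖ * d * (b / s) := by ring
    _ ≤ ‖f‖ * (s / 2 + d) + ‖f‖ * d * (b / s) := by
        gcongr
    _ = ‖f‖ * (a * (q / 2) + d) + ‖f‖ * d * (q / 2) := by rw [hbs, hs]; ring
    _ ≤ ‖f‖ * (d * (q / 2) + d) + ‖f‖ * d * (q / 2) := by
        gcongr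
    _ = (1 + q) * ‖f‖ * d := by ring

/-- **Square-root bound.** If all non-zero distances of `M` lie in `[a, b]`, then the
Lipschitz-free space of `M` has the `(1 + √(2 b / a))`-bounded approximation property. -/
theorem hasBAP_of_bounded (a b : ℝ) (ha : 0 < a) (hsep : ∀ x y : M, x ≠ y → a ≤ dist x y)
    (hdiam : ∀ x y : M, dist x y ≤ b) :
    HasBAP (1 + Real.sqrt (2 * b / a)) (LipFree M o) := by
  classical
  set q := Real.sqrt (2 * b / a) with hq
  have hq0 : 0 ≤ q := Real.sqrt_nonneg _
  refine hasBAP_of_weighted (by positivity) (fun E => ?_)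
  -- nearest point map onto `insert o E`
  have hne : (insert o E).Nonempty := Finset.insert_nonempty _ _
  have hex : ∀ y : M, ∃ x ∈ insert o E, ∀ x' ∈ insert o E, dist y x ≤ dist y x' :=
    fun y => Finset.exists_min_image (insert o E) (fun x => dist y x) hne
  choose p hpmem hpmin using hex
  have hp : ∀ y z, dist y (p y) ≤ dist y (p z) := fun y z => hpmin y _ (hpmem z)
  have hpfix : ∀ x ∈ insert o E, p x = x := fun x hx => by
    have h1 := hpmin x x hx
    rw [dist_self] at h1
    exact (dist_le_zero.mp h1).symm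
  refine ⟨p, fun y => 1 - min 1 (dist y (p y) / (a * q)), ?_, ?_, ?_⟩
  · exact (Finset.finite_toSet (insert o E)).subset (by
      rintro _ ⟨y, rfl⟩; exact hpmem y)
  · intro x hx
    have h1 := hpfix x (Finset.mem_insert_of_mem hx)
    refine ⟨h1, ?_⟩
    simp only
    rw [h1, dist_self, zero_div, min_eq_right zero_le_one, sub_zero]
  · intro f y z
    rcases eq_or_ne y z with rfl | hyz
    · simp
    · have hd : a ≤ dist y z := hsep y z hyz
      have hba : a ≤ b := hd.trans (hdiam y z)
      have hbpos : 0 < b := lt_of_lt_of_le ha hba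
      have hqpos : 0 < q := Real.sqrt_pos.mpr (by positivity)
      have hqsq : q ^ 2 = 2 * b / a := Real.sq_sqrt (by positivity)
      have hb : b = a * q ^ 2 / 2 := by rw [hqsq]; field_simp
      rcases le_total (min 1 (dist y (p y) / (a * q))) (min 1 (dist z (p z) / (a * q))) with h | h
      · exact bounded_estimate a b q ha hqpos hb p hp hdiam f y z hd h
      · have := bounded_estimate a b q ha hqpos hb p hp hdiam f z y (by rwa [dist_comm]) h
        rw [abs_sub_comm, dist_comm y z]
        exact this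

end Vale.Agent.Lib.P090
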