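import Vale.Agent.Lib.P090.Defs

/-!
# A criterion for the bounded approximation property of Lipschitz-free spaces
-/

noncomputable section

set_option maxSynthPendingDepth 3

namespace Vale.Agent.Lib.P090

section abstract

variable {X : Type*} [NormedAddCommGroup X] [NormedSpace ℝ X] {ι : Type*}

theorem exists_finset_fix (g : ι → X) {v : X} (hv : v ∈ Submodule.span ℝ (Set.range g)) :
    ∃ E : Finset ι, ∀ T : X →L[ℝ] X, (∀ i ∈ E, T (g i) = g i) → T v = v := by
  classical
  induction hv using Submodule.span_induction with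
  | mem x hx =>
    obtain ⟨i, rfl⟩ := hx
    exact ⟨{i}, fun T h => h i (by simp)⟩
  | zero => exact ⟨∅, fun T _ => map_zero T⟩
  | add x y _ _ hx hy =>
    obtain ⟨E1, h1⟩ := hx
    obtain ⟨E2, h2⟩ := hy
    refine ⟨E1 ∪ E2, fun T h => ?_⟩
    rw [map_add, h1 T (fun i hi => h i (Finset.mem_union_left _ hi)),
      h2 T (fun i hi => h i (Finset.mem_union_right _ hi))]
  | smul c x _ hx =>
    obtain ⟨E1, h1⟩ := hx
    exact ⟨E1, fun T h => by rw [map_smul, h1 T h]⟩

theorem hasBAP_of_dense_span (g : ι → X)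
    (hd : Dense (Submodule.span ℝ (Set.range g) : Set X)) {L : ℝ} (hL : 0 ≤ L)
    (h : ∀ E : Finset ι, ∃ T : X →L[ℝ] X,
      FiniteDimensional ℝ (LinearMap.range (T : X →ₗ[ℝ] X)) ∧ ‖T‖ ≤ L ∧
        ∀ i ∈ E, T (g i) = g i) : HasBAP L X := by
  classical
  intro C hC ε hε
  set η := ε / (2 * (L + 1)) with hη
  have hηpos : 0 < η := by positivity
  obtain ⟨t, htC, htfin, hcover⟩ := hC.finite_cover_balls hηpos
  have hv : ∀ u : X, ∃ v ∈ (Submodule.span ℝ (Set.range g) : Set X), dist u v < η :=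
    fun u => hd.exists_dist_lt u hηpos
  choose v hvspan hvdist using hv
  choose E hE using fun u => exists_finset_fix g (hvspan u)
  obtain ⟨T, hTfin, hTnorm, hTfix⟩ := h (htfin.toFinset.biUnion E)
  refine ⟨T, hTfin, hTnorm, fun u hu => ?_⟩
  obtain ⟨c, hc, huc⟩ : ∃ c ∈ t, u ∈ Metric.ball c η := by simpa using hcover hu
  have hTv : T (v c) = v c := hE c T (fun i hi => hTfix i (by
    simp only [Finset.mem_biUnion, Set.Finite.mem_toFinset]
    exact ⟨c, hc, hi⟩))
  have h1 : ‖u - v c‖ < 2 * η := by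
    have h2 : dist u (v c) ≤ dist u c + dist c (v c) := dist_triangle _ _ _
    have h3 := hvdist c
    have h4 : dist u c < η := huc
    rw [← dist_eq_norm]
    linarith
  calc ‖T u - u‖ = ‖T (u - v c) - (u - v c)‖ := by
        rw [map_sub, hTv]; congr 1; abel
    _ ≤ ‖T (u - v c)‖ + ‖u - v c‖ := norm_sub_le _ _
    _ ≤ L * ‖u - v c‖ + ‖u - v c‖ := by
        gcongr
        exact (T.le_opNorm _).trans (by gcongr)
    _ = (L + 1) * ‖u - v c‖ := by ring
    _ < (L + 1) * (2 * η) := by gcongr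
    _ = ε := by rw [hη]; field_simp

end abstract

section free

variable {M : Type*} [PseudoMetricSpace M] {o : M}

@[simp] theorem delta_apply (x : M) (f : Lip0 M o) : delta M o x f = f x := rfl

theorem delta_mem (x : M) : delta M o x ∈ LipFree M o :=
  Submodule.le_topologicalClosure _ (Submodule.subset_span ⟨x, rfl⟩)

/-- The evaluation functional as an element of the Lipschitz-free space. -/
def deltaF (x : M) : LipFree M o := ⟨delta M o x, delta_mem x⟩

theorem dense_span_deltaF :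
    Dense (Submodule.span ℝ (Set.range (deltaF : M → LipFree M o)) : Set (LipFree M o)) := by
  rw [Metric.dense_iff]
  intro u r hr
  have hu : (u : Lip0 M o →L[ℝ] ℝ) ∈
      closure (Submodule.span ℝ (Set.range (delta M o)) : Set (Lip0 M o →L[ℝ] ℝ)) := u.2
  obtain ⟨v, hv, hdist⟩ := Metric.mem_closure_iff.mp hu r hr
  have hmap : Submodule.map (LipFree M o).subtype
      (Submodule.span ℝ (Set.range (deltaF : M → LipFree M o))) =
      Submodule.span ℝ (Set.range (delta M o)) := by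
    rw [Submodule.map_span, ← Set.range_comp]
    rfl
  have hv' : v ∈ Submodule.map (LipFree M o).subtype
      (Submodule.span ℝ (Set.range (deltaF : M → LipFree M o))) := by
    rw [hmap]; exact hv
  obtain ⟨v', hv's, rfl⟩ := hv'
  refine ⟨v', ?_, hv's⟩
  rw [Metric.mem_ball, dist_comm]
  exact hdist

/-- The weighted composition operator `f ↦ (y ↦ w y * f (r y))` on `Lip0 M o`. -/
def weightedOp (r : M → M) (w : M → ℝ) (L : ℝ) (hL : 0 ≤ L)
    (hb : ∀ (f : Lip0 M o) (y z : M), |w y * f (r y) - w z * f (r z)| ≤ L * ‖f‖ * dist y z)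
    (h0 : ∀ f : Lip0 M o, w o * f (r o) = 0) : Lip0 M o →L[ℝ] Lip0 M o :=
  LinearMap.mkContinuous
    { toFun := fun f => Lip0.ofBound (fun y => w y * f (r y)) (L * ‖f‖) (hb f) (h0 f)
      map_add' := fun f g => by
        apply DFunLike.ext; intro x
        simp [mul_add]
      map_smul' := fun c f => by
        apply DFunLike.ext; intro x
        simp; ring }
    L
    (fun f => Lip0.norm_le_of_bound _ (mul_nonneg hL (norm_nonneg f)) (hb f))

theorem weightedOp_apply (r : M → M) (w : M → ℝ) (L : ℝ) (hL : 0 ≤ L)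
    (hb : ∀ (f : Lip0 M o) (y z : M), |w y * f (r y) - w z * f (r z)| ≤ L * ‖f‖ * dist y z)
    (h0 : ∀ f : Lip0 M o, w o * f (r o) = 0) (f : Lip0 M o) (y : M) :
    weightedOp r w L hL hb h0 f y = w y * f (r y) := rfl

theorem norm_weightedOp_le (r : M → M) (w : M → ℝ) (L : ℝ) (hL : 0 ≤ L)
    (hb : ∀ (f : Lip0 M o) (y z : M), |w y * f (r y) - w z * f (r z)| ≤ L * ‖f‖ * dist y z)
    (h0 : ∀ f : Lip0 M o, w o * f (r o) = 0) : ‖weightedOp r w L hL hb h0‖ ≤ L :=
  LinearMap.mkContinuous_norm_le _ hL _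

theorem exists_operator (r : M → M) (w : M → ℝ) (L : ℝ) (hL : 0 ≤ L)
    (hfin : (Set.range r).Finite)
    (hb : ∀ (f : Lip0 M o) (y z : M), |w y * f (r y) - w z * f (r z)| ≤ L * ‖f‖ * dist y z)
    (h0 : ∀ f : Lip0 M o, w o * f (r o) = 0) :
    ∃ T : LipFree M o →L[ℝ] LipFree M o,
      FiniteDimensional ℝ (LinearMap.range (T : LipFree M o →ₗ[ℝ] LipFree M o)) ∧ ‖T‖ ≤ L ∧
        ∀ y, T (deltaF y) = w y • deltaF (r y) := by
  classical
  set S := weightedOp r w L hL hb h0 with hS
  -- the adjoint of `S`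
  set A : (Lip0 M o →L[ℝ] ℝ) →L[ℝ] (Lip0 M o →L[ℝ] ℝ) :=
    (ContinuousLinearMap.compL ℝ (Lip0 M o) (Lip0 M o) ℝ).flip S with hA
  have hAapp : ∀ φ : Lip0 M o →L[ℝ] ℝ, A φ = φ.comp S := fun φ => rfl
  have hAnorm : ∀ φ : Lip0 M o →L[ℝ] ℝ, ‖A φ‖ ≤ L * ‖φ‖ := fun φ => by
    rw [hAapp]
    calc ‖φ.comp S‖ ≤ ‖φ‖ * ‖S‖ := ContinuousLinearMap.opNorm_comp_le _ _
      _ ≤ ‖φ‖ * L := by gcongr; exact norm_weightedOp_le r w L hL hb h0
      _ = L * ‖φ‖ := mul_comm _ _
  have hAdelta : ∀ y, A (delta M o y) = w y • delta M o (r y) := fun y => by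
    ext f
    simp [hAapp, hS, weightedOp_apply]
  -- the finite-dimensional target
  set W : Submodule ℝ (Lip0 M o →L[ℝ] ℝ) := Submodule.span ℝ (delta M o '' Set.range r) with hW
  have hWfin : FiniteDimensional ℝ W :=
    FiniteDimensional.span_of_finite ℝ (hfin.image _)
  have hWclosed : IsClosed (W : Set (Lip0 M o →L[ℝ] ℝ)) := Submodule.closed_of_finiteDimensional W
  have hWle : W ≤ LipFree M o := by
    refine le_trans (Submodule.span_mono ?_) (Submodule.le_topologicalClosure _)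
    rintro _ ⟨x, -, rfl⟩
    exact ⟨x, rfl⟩
  have hmapsW : ∀ u ∈ LipFree M o, A u ∈ W := by
    have hle : LipFree M o ≤ W.comap (A : (Lip0 M o →L[ℝ] ℝ) →ₗ[ℝ] (Lip0 M o →L[ℝ] ℝ)) := by
      refine Submodule.topologicalClosure_minimal _ ?_ ?_
      · rw [Submodule.span_le]
        rintro _ ⟨y, rfl⟩
        change A (delta M o y) ∈ W
        rw [hAdelta]
        exact W.smul_mem _ (Submodule.subset_span ⟨r y, ⟨y, rfl⟩, rfl⟩)
      · exact hWclosed.preimage A.continuous
    exact fun u hu => hle hu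
  set T : LipFree M o →L[ℝ] LipFree M o :=
    (A.comp (LipFree M o).subtypeL).codRestrict (LipFree M o) (fun u => hWle (hmapsW u u.2)) with hT
  have hTcoe : ∀ u : LipFree M o, ((T u : LipFree M o) : Lip0 M o →L[ℝ] ℝ) = A u := fun u => rfl
  refine ⟨T, ?_, ?_, ?_⟩
  · -- finite rank
    let J : LinearMap.range (T : LipFree M o →ₗ[ℝ] LipFree M o) →ₗ[ℝ] W :=
      LinearMap.codRestrict W
        ((LipFree M o).subtype.comp (LinearMap.range (T : LipFree M o →ₗ[ℝ] LipFree M o)).subtype)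
        (by
          rintro ⟨_, ⟨u, rfl⟩⟩
          exact hmapsW u u.2)
    have hJ : Function.Injective J := by
      intro a b hab
      have := congrArg (fun z : W => (z : Lip0 M o →L[ℝ] ℝ)) hab
      exact Subtype.ext (Subtype.ext this)
    exact FiniteDimensional.of_injective J hJ
  · refine ContinuousLinearMap.opNorm_le_bound _ hL (fun u => ?_)
    have : ‖T u‖ = ‖A u‖ := rfl
    rw [this]
    exact hAnorm u
  · intro y
    apply Subtype.ext
    rw [hTcoe]
    exact hAdelta y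

/-- **Criterion.** If for every finite set `E` there are a finite-range map `r : M → M` and a
weight `w : M → ℝ` with `r = id`, `w = 1` on `E` such that all functions `y ↦ w y * f (r y)` are
`L * ‖f‖`-Lipschitz, then the Lipschitz-free space has the `L`-bounded approximation property. -/
theorem hasBAP_of_weighted {L : ℝ} (hL : 0 ≤ L)
    (h : ∀ E : Finset M, ∃ (r : M → M) (w : M → ℝ), (Set.range r).Finite ∧
      (∀ x ∈ E, r x = x ∧ w x = 1) ∧
      ∀ (f : Lip0 M o) (y z : M), |w y * f (r y) - w z * f (r z)| ≤ L * ‖f‖ * dist y z) :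
    HasBAP L (LipFree M o) := by
  classical
  refine hasBAP_of_dense_span (deltaF : M → LipFree M o) dense_span_deltaF hL (fun E => ?_)
  obtain ⟨r, w, hfin, hfix, hb⟩ := h (insert o E)
  have h0 : ∀ f : Lip0 M o, w o * f (r o) = 0 := fun f => by
    rw [(hfix o (Finset.mem_insert_self _ _)).1, Lip0.map_base, mul_zero]
  obtain ⟨T, hT1, hT2, hT3⟩ := exists_operator r w L hL hfin hb h0
  refine ⟨T, hT1, hT2, fun x hx => ?_⟩
  have := hfix x (Finset.mem_insert_of_mem hx)
  rw [hT3, this.1, this.2, one_smul]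

/-- Special case of the criterion: finite-range `L`-Lipschitz self-maps fixing finite sets. -/
theorem hasBAP_of_maps {L : ℝ} (hL : 0 ≤ L)
    (h : ∀ E : Finset M, ∃ r : M → M, (Set.range r).Finite ∧ (∀ x ∈ E, r x = x) ∧
      ∀ y z : M, dist (r y) (r z) ≤ L * dist y z) :
    HasBAP L (LipFree M o) := by
  refine hasBAP_of_weighted hL (fun E => ?_)
  obtain ⟨r, hfin, hfix, hlip⟩ := h E
  refine ⟨r, fun _ => 1, hfin, fun x hx => ⟨hfix x hx, rfl⟩, fun f y z => ?_⟩
  rw [one_mul, one_mul]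
  calc |f (r y) - f (r z)| ≤ ‖f‖ * dist (r y) (r z) := f.abs_sub_le _ _
    _ ≤ ‖f‖ * (L * dist y z) := by gcongr; exact hlip y z
    _ = L * ‖f‖ * dist y z := by ring

end free

end Vale.Agent.Lib.P090
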