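import Vale.Agent.Lib.P090.HubDefs
import Vale.Agent.Lib.P090.Criterion

noncomputable section

set_option maxSynthPendingDepth 3

namespace Vale.Agent.Lib.P090

section general

variable {M : Type*} [MetricSpace M] {o : M}

theorem norm_deltaF_sub_le (v w : M) :
    ‖(deltaF v : LipFree M o) - deltaF w‖ ≤ dist v w := by
  have : ‖(deltaF v : LipFree M o) - deltaF w‖ = ‖delta M o v - delta M o w‖ := rfl
  rw [this]
  refine ContinuousLinearMap.opNorm_le_bound _ dist_nonneg (fun f => ?_)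
  rw [_root_.sub_apply, delta_apply, delta_apply, Real.norm_eq_abs, mul_comm]
  exact f.abs_sub_le v w

theorem deltaF_base : (deltaF o : LipFree M o) = 0 := by
  apply Subtype.ext
  ext f
  exact f.map_base

theorem norm_deltaF_le (v : M) : ‖(deltaF v : LipFree M o)‖ ≤ dist v o := by
  have := norm_deltaF_sub_le (o := o) v o
  rwa [deltaF_base, sub_zero] at this

/-- evaluation of an element of the free space -/
theorem apply_le_norm (x : LipFree M o) (f : Lip0 M o) (hf : ‖f‖ ≤ 1) :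
    (x : Lip0 M o →L[ℝ] ℝ) f ≤ ‖x‖ := by
  have h1 : |(x : Lip0 M o →L[ℝ] ℝ) f| ≤ ‖(x : Lip0 M o →L[ℝ] ℝ)‖ * ‖f‖ :=
    (x : Lip0 M o →L[ℝ] ℝ).le_opNorm f
  have h2 : ‖(x : Lip0 M o →L[ℝ] ℝ)‖ = ‖x‖ := rfl
  calc (x : Lip0 M o →L[ℝ] ℝ) f ≤ |(x : Lip0 M o →L[ℝ] ℝ) f| := le_abs_self _
    _ ≤ ‖x‖ * ‖f‖ := by rw [← h2]; exact h1
    _ ≤ ‖x‖ * 1 := by gcongr
    _ = ‖x‖ := mul_one _

/-- the test function attached to a `1`-Lipschitz function -/
def testFun (o : M) (ψ : M → ℝ) (hψ : ∀ x y, |ψ x - ψ y| ≤ dist x y) : Lip0 M o :=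
  Lip0.ofBound (fun x => ψ x - ψ o) 1 (fun x y => by
    have : ψ x - ψ o - (ψ y - ψ o) = ψ x - ψ y := by ring
    rw [this, one_mul]; exact hψ x y) (sub_self _)

theorem norm_testFun_le (ψ : M → ℝ) (hψ : ∀ x y, |ψ x - ψ y| ≤ dist x y) :
    ‖testFun o ψ hψ‖ ≤ 1 :=
  Lip0.norm_le_of_bound _ zero_le_one (fun x y => by
    have : testFun o ψ hψ x - testFun o ψ hψ y = ψ x - ψ y := by
      simp [testFun]
    rw [this, one_mul]; exact hψ x y)

theorem testFun_apply (ψ : M → ℝ) (hψ : ∀ x y, |ψ x - ψ y| ≤ dist x y) (x : M) :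
    testFun o ψ hψ x = ψ x - ψ o := rfl

end general

section perturb

variable {X : Type*} [NormedAddCommGroup X] [NormedSpace ℝ X] {α : Type*}

/-- A finite dimensional subspace can be pushed into the span of a family with dense span, with
explicit finitely supported coefficients depending linearly on the vector. -/
theorem exists_perturb (g : α → X) (hd : Dense (Submodule.span ℝ (Set.range g) : Set X))
    (R : Submodule ℝ X) [FiniteDimensional ℝ R] {δ : ℝ} (hδ : 0 < δ) :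
    ∃ (F : Finset α) (k : R →ₗ[ℝ] (α → ℝ)), (∀ r u, u ∉ F → k r u = 0) ∧
      ∀ r : R, ‖∑ u ∈ F, k r u • g u - (r : X)‖ ≤ δ * ‖r‖ := by
  classical
  let b := Module.finBasis ℝ R
  have hcoord : ∀ i, ∃ Ci : ℝ, 0 ≤ Ci ∧ ∀ r : R, |b.repr r i| ≤ Ci * ‖r‖ := fun i =>
    ⟨‖LinearMap.toContinuousLinearMap (b.coord i)‖, norm_nonneg _, fun r => by
      have := (LinearMap.toContinuousLinearMap (b.coord i)).le_opNorm r
      simpa using this⟩
  choose Cc hCc0 hCc using hcoord
  set Ctot : ℝ := ∑ i, Cc i + 1 with hCtot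
  have hCtotpos : 0 < Ctot := by
    have : 0 ≤ ∑ i, Cc i := Finset.sum_nonneg fun i _ => hCc0 i
    linarith
  have happrox : ∀ i, ∃ a : α →₀ ℝ,
      ‖(a.sum fun u t => t • g u) - (b i : X)‖ < δ / Ctot := fun i => by
    obtain ⟨x, hx, hdist⟩ := hd.exists_dist_lt (b i : X) (div_pos hδ hCtotpos)
    obtain ⟨a, ha⟩ := (Finsupp.mem_span_range_iff_exists_finsupp).1 hx
    refine ⟨a, ?_⟩
    rw [ha, ← dist_eq_norm, dist_comm]
    exact hdist
  choose a ha using happrox
  set F : Finset α := Finset.univ.biUnion fun i => (a i).support with hF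
  let k : R →ₗ[ℝ] (α → ℝ) :=
    { toFun := fun r u => ∑ i, b.repr r i * a i u
      map_add' := fun r r' => by
        ext u
        simp [add_mul, Finset.sum_add_distrib]
      map_smul' := fun t r => by
        ext u
        simp [Finset.mul_sum, mul_assoc] }
  have hk : ∀ r u, k r u = ∑ i, b.repr r i * a i u := fun r u => rfl
  have hsum : ∀ i, (a i).sum (fun u t => t • g u) = ∑ u ∈ F, a i u • g u := fun i => by
    rw [Finsupp.sum]
    refine Finset.sum_subset ?_ ?_
    · intro u hu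
      rw [hF, Finset.mem_biUnion]
      exact ⟨i, Finset.mem_univ _, hu⟩
    · intro u _ hu
      rw [Finsupp.notMem_support_iff.1 hu, zero_smul]
  refine ⟨F, k, ?_, ?_⟩
  · intro r u hu
    rw [hk]
    refine Finset.sum_eq_zero fun i _ => ?_
    have : u ∉ (a i).support := fun hmem => hu (by
      rw [hF, Finset.mem_biUnion]; exact ⟨i, Finset.mem_univ _, hmem⟩)
    rw [Finsupp.notMem_support_iff.1 this, mul_zero]
  · intro r
    have h1 : ∑ u ∈ F, k r u • g u = ∑ i, b.repr r i • (a i).sum (fun u t => t • g u) := by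
      simp_rw [hsum, hk, Finset.sum_smul, Finset.smul_sum, mul_smul]
      exact Finset.sum_comm
    have h2 : (r : X) = ∑ i, b.repr r i • (b i : X) := by
      have h3 := congrArg (fun z : R => (z : X)) (b.sum_repr r)
      simp only [Submodule.coe_sum, Submodule.coe_smul] at h3
      exact h3.symm
    rw [h1, h2, ← Finset.sum_sub_distrib]
    calc ‖∑ i, (b.repr r i • (a i).sum (fun u t => t • g u) - b.repr r i • (b i : X))‖
        ≤ ∑ i, ‖b.repr r i • (a i).sum (fun u t => t • g u) - b.repr r i • (b i : X)‖ :=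
          norm_sum_le _ _
      _ ≤ ∑ i, (Cc i * ‖r‖) * (δ / Ctot) := by
          refine Finset.sum_le_sum fun i _ => ?_
          rw [← smul_sub, norm_smul, Real.norm_eq_abs]
          exact mul_le_mul (hCc i r) (ha i).le (norm_nonneg _)
            (mul_nonneg (hCc0 i) (norm_nonneg _))
      _ = (∑ i, Cc i) / Ctot * (δ * ‖r‖) := by
          rw [← Finset.sum_mul, ← Finset.sum_mul]; ring
      _ ≤ 1 * (δ * ‖r‖) := by
          refine mul_le_mul_of_nonneg_right ?_ (by positivity)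
          rw [div_le_one hCtotpos]
          linarith
      _ = δ * ‖r‖ := one_mul _

end perturb

/-- **Coefficients.**  From the `L`-bounded approximation property: finitely supported signed
measures `c v` of total mass one, depending on `v` in an `(1 + δ) L`-Lipschitz way (tested
against `1`-Lipschitz functions), with `c a` close to the point mass at `a` for `a ∈ A`. -/
theorem exists_coeff {M : Type*} [MetricSpace M] (o : M) {L : ℝ} (hL : 0 ≤ L)
    (h : HasBAP L (LipFree M o)) (A : Finset M) {δ : ℝ} (hδ : 0 < δ) :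
    ∃ (F : Finset M) (c : M → M → ℝ), (∀ v u, u ∉ F → c v u = 0) ∧ A ⊆ F ∧
      (∀ v, ∑ u ∈ F, c v u = 1) ∧
      ∀ ψ : M → ℝ, (∀ x y, |ψ x - ψ y| ≤ dist x y) →
        (∀ v w, ∑ u ∈ F, (c v u - c w u) * ψ u ≤ (1 + δ) * L * dist v w) ∧
        (∀ a ∈ A, ∑ u ∈ F, c a u * ψ u - ψ a ≤ δ * (L * dist a o + 1)) := by
  classical
  have hC : IsCompact ((fun a => (deltaF a : LipFree M o)) '' (A : Set M)) :=
    (A.finite_toSet.image _).isCompact
  obtain ⟨T, hfin, hnorm, happ⟩ := h _ hC δ hδ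
  obtain ⟨F₀, k, hk0, hk⟩ := exists_perturb (deltaF : M → LipFree M o) dense_span_deltaF
    (LinearMap.range (T : LipFree M o →ₗ[ℝ] LipFree M o)) hδ
  let tr : LipFree M o →ₗ[ℝ] LinearMap.range (T : LipFree M o →ₗ[ℝ] LipFree M o) :=
    (T : LipFree M o →ₗ[ℝ] LipFree M o).rangeRestrict
  have htr : ∀ x, ((tr x : LinearMap.range (T : LipFree M o →ₗ[ℝ] LipFree M o)) :
      LipFree M o) = T x := fun x => rfl
  have htrn : ∀ x, ‖tr x‖ = ‖T x‖ := fun x => rfl
  set F : Finset M := insert o (F₀ ∪ A) with hF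
  have hoF : o ∈ F := Finset.mem_insert_self _ _
  have hF₀F : F₀ ⊆ F := fun u hu => Finset.mem_insert_of_mem (Finset.mem_union_left _ hu)
  -- the perturbed operator
  let τ : LipFree M o → LipFree M o := fun x => ∑ u ∈ F, k (tr x) u • deltaF u
  have hτ : ∀ x, τ x = ∑ u ∈ F₀, k (tr x) u • deltaF u := fun x => by
    symm
    refine Finset.sum_subset hF₀F fun u _ hu => ?_
    rw [hk0 _ u hu, zero_smul]
  have hτT : ∀ x, ‖τ x - T x‖ ≤ δ * ‖T x‖ := fun x => by
    rw [hτ, ← htr]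
    exact hk (tr x)
  have hτsub : ∀ x x', τ (x - x') = τ x - τ x' := fun x x' => by
    simp only [τ, map_sub, Pi.sub_apply, sub_smul, Finset.sum_sub_distrib]
  have hτapp : ∀ x (f : Lip0 M o), ((τ x : LipFree M o) : Lip0 M o →L[ℝ] ℝ) f =
      ∑ u ∈ F, k (tr x) u * f u := fun x f => by
    simp only [τ, Submodule.coe_sum, Submodule.coe_smul, FunLike.coe_sum,
      Finset.sum_apply, FunLike.coe_smul, Pi.smul_apply, smul_eq_mul]
    rfl
  let c₀ : M → M → ℝ := fun v u => k (tr (deltaF v)) u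
  let c : M → M → ℝ := fun v u => if u = o then 1 - ∑ u' ∈ F.erase o, c₀ v u' else c₀ v u
  have hmass : ∀ v, ∑ u ∈ F, c v u = 1 := fun v => by
    rw [← Finset.add_sum_erase F _ hoF]
    have h1 : c v o = 1 - ∑ u' ∈ F.erase o, c₀ v u' := if_pos rfl
    have h2 : ∑ u ∈ F.erase o, c v u = ∑ u ∈ F.erase o, c₀ v u :=
      Finset.sum_congr rfl fun u hu => if_neg (Finset.ne_of_mem_erase hu)
    rw [h1, h2]; ring
  have hkey : ∀ (ψ : M → ℝ) (hψ : ∀ x y, |ψ x - ψ y| ≤ dist x y) (v : M),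
      ∑ u ∈ F, c v u * ψ u =
        ((τ (deltaF v) : LipFree M o) : Lip0 M o →L[ℝ] ℝ) (testFun o ψ hψ) + ψ o := by
    intro ψ hψ v
    rw [hτapp]
    have h1 : ∑ u ∈ F, c v u * ψ u = ∑ u ∈ F, c v u * (ψ u - ψ o) + ψ o := by
      have : ∑ u ∈ F, c v u * (ψ u - ψ o) = ∑ u ∈ F, c v u * ψ u - (∑ u ∈ F, c v u) * ψ o := by
        rw [Finset.sum_mul, ← Finset.sum_sub_distrib]
        exact Finset.sum_congr rfl fun u _ => by ring
      rw [this, hmass]; ring
    rw [h1]
    congr 1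
    refine Finset.sum_congr rfl fun u _ => ?_
    rw [testFun_apply]
    by_cases hu : u = o
    · subst hu; simp
    · have : c v u = c₀ v u := if_neg hu
      rw [this]
  refine ⟨F, c, ?_, ?_, hmass, ?_⟩
  · intro v u hu
    have huo : u ≠ o := fun e => hu (e ▸ hoF)
    have : c v u = c₀ v u := if_neg huo
    rw [this]
    exact hk0 _ u fun hmem => hu (hF₀F hmem)
  · exact fun u hu => Finset.mem_insert_of_mem (Finset.mem_union_right _ hu)
  · intro ψ hψ
    constructor
    · intro v w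
      have h1 : ∑ u ∈ F, (c v u - c w u) * ψ u =
          ∑ u ∈ F, c v u * ψ u - ∑ u ∈ F, c w u * ψ u := by
        rw [← Finset.sum_sub_distrib]
        exact Finset.sum_congr rfl fun u _ => by ring
      have h2 : ((τ (deltaF v) : LipFree M o) : Lip0 M o →L[ℝ] ℝ) (testFun o ψ hψ) -
          ((τ (deltaF w) : LipFree M o) : Lip0 M o →L[ℝ] ℝ) (testFun o ψ hψ) =
          ((τ (deltaF v - deltaF w) : LipFree M o) : Lip0 M o →L[ℝ] ℝ) (testFun o ψ hψ) := by
        rw [hτsub]; rfl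
      rw [h1, hkey ψ hψ v, hkey ψ hψ w, add_sub_add_right_eq_sub, h2]
      set x : LipFree M o := deltaF v - deltaF w with hx
      have h3 : ‖τ x‖ ≤ (1 + δ) * ‖T x‖ := by
        calc ‖τ x‖ = ‖(τ x - T x) + T x‖ := by rw [sub_add_cancel]
          _ ≤ ‖τ x - T x‖ + ‖T x‖ := norm_add_le _ _
          _ ≤ δ * ‖T x‖ + ‖T x‖ := by gcongr; exact hτT x
          _ = (1 + δ) * ‖T x‖ := by ring
      have h4 : ‖T x‖ ≤ L * dist v w := by
        calc ‖T x‖ ≤ ‖T‖ * ‖x‖ := T.le_opNorm x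
          _ ≤ L * dist v w := mul_le_mul hnorm (norm_deltaF_sub_le v w) (norm_nonneg _) hL
      calc ((τ x : LipFree M o) : Lip0 M o →L[ℝ] ℝ) (testFun o ψ hψ) ≤ ‖τ x‖ :=
            apply_le_norm _ _ (norm_testFun_le ψ hψ)
        _ ≤ (1 + δ) * ‖T x‖ := h3
        _ ≤ (1 + δ) * (L * dist v w) := by gcongr
        _ = (1 + δ) * L * dist v w := by ring
    · intro a ha
      rw [hkey ψ hψ a]
      have h1 : ((τ (deltaF a) : LipFree M o) : Lip0 M o →L[ℝ] ℝ) (testFun o ψ hψ) + ψ o - ψ a =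
          ((τ (deltaF a) - deltaF a : LipFree M o) : Lip0 M o →L[ℝ] ℝ) (testFun o ψ hψ) := by
        have : ((τ (deltaF a) - deltaF a : LipFree M o) : Lip0 M o →L[ℝ] ℝ) (testFun o ψ hψ) =
            ((τ (deltaF a) : LipFree M o) : Lip0 M o →L[ℝ] ℝ) (testFun o ψ hψ) -
              testFun o ψ hψ a := rfl
        rw [this, testFun_apply]; ring
      rw [h1]
      have h2 : ‖T (deltaF a) - deltaF a‖ < δ := happ _ ⟨a, ha, rfl⟩
      have h3 : ‖T (deltaF a)‖ ≤ L * dist a o := by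
        calc ‖T (deltaF a)‖ ≤ ‖T‖ * ‖(deltaF a : LipFree M o)‖ := T.le_opNorm _
          _ ≤ L * dist a o := mul_le_mul hnorm (norm_deltaF_le a) (norm_nonneg _) hL
      calc ((τ (deltaF a) - deltaF a : LipFree M o) : Lip0 M o →L[ℝ] ℝ) (testFun o ψ hψ)
          ≤ ‖τ (deltaF a) - deltaF a‖ := apply_le_norm _ _ (norm_testFun_le ψ hψ)
        _ = ‖(τ (deltaF a) - T (deltaF a)) + (T (deltaF a) - deltaF a)‖ := by
            rw [sub_add_sub_cancel]
        _ ≤ ‖τ (deltaF a) - T (deltaF a)‖ + ‖T (deltaF a) - deltaF a‖ := norm_add_le _ _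
        _ ≤ δ * ‖T (deltaF a)‖ + δ := add_le_add (hτT _) h2.le
        _ ≤ δ * (L * dist a o) + δ := by gcongr
        _ = δ * (L * dist a o + 1) := by ring

theorem graphSpace_dist {V : Type*} (G : SimpleGraph V) (x y : GraphSpace G) :
    dist x y = graphDist G x y := rfl

theorem graphDist_adj {V : Type*} (G : SimpleGraph V) {x y : V} (h : G.Adj x y) :
    graphDist G x y = 1 := by
  unfold graphDist
  rw [if_neg h.ne, if_pos h]

theorem GraphTest.lipschitz {V : Type*} {G : SimpleGraph V} {ψ : V → ℝ} (h : GraphTest G ψ)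
    (x y : V) : |ψ x - ψ y| ≤ graphDist G x y := by
  unfold graphDist
  by_cases hxy : x = y
  · subst hxy; simp
  · rw [if_neg hxy]
    by_cases ha : G.Adj x y
    · rw [if_pos ha]; exact h.2 x y ha
    · rw [if_neg ha, abs_le]
      have h1 := h.1 x
      have h2 := h.1 y
      constructor <;> linarith [h1.1, h1.2, h2.1, h2.2]

theorem exists_hubCoeff {V₀ K : Type*} [Finite K] (G₀ : SimpleGraph V₀) (cls : V₀ → K)
    (o : GraphSpace (hubGraph G₀ cls)) {η θ : ℝ} (hη : 0 ≤ η) (hθ : η < θ)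
    (h : HasBAP (1 + η) (LipFree (GraphSpace (hubGraph G₀ cls)) o)) :
    ∃ F c, HubCoeff G₀ cls θ F c := by
  classical
  have : Fintype K := Fintype.ofFinite K
  set δ : ℝ := (θ - η) / (4 + 3 * η) with hδdef
  have hden : 0 < 4 + 3 * η := by linarith
  have hδ : 0 < δ := div_pos (by linarith) hden
  have hδeq : δ * (4 + 3 * η) = θ - η := by
    rw [hδdef]; field_simp
  let A : Finset (GraphSpace (hubGraph G₀ cls)) :=
    (Finset.univ : Finset (K × Fin 3)).image (fun a => (Sum.inr a : V₀ ⊕ K × Fin 3))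
  obtain ⟨F, c, hsupp, hAF, hmass, htest⟩ :=
    exists_coeff o (L := 1 + η) (by linarith) h A hδ
  refine ⟨F, c, ⟨hsupp, ?_, hmass, ?_, ?_⟩⟩
  · intro a
    exact hAF (Finset.mem_image.2 ⟨a, Finset.mem_univ _, rfl⟩)
  · intro ψ hψ v w hvw
    let v' : GraphSpace (hubGraph G₀ cls) := v
    let w' : GraphSpace (hubGraph G₀ cls) := w
    have h1 := (htest ψ (fun x y => hψ.lipschitz x y)).1 v' w'
    have h2 : dist v' w' = 1 := graphDist_adj _ hvw
    rw [h2, mul_one] at h1
    have h7 : ∑ u ∈ F, (c v' u - c w' u) * ψ u ≤ 1 + θ := by nlinarith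
    exact h7
  · intro ψ hψ a v hva
    have hadj : (hubGraph G₀ cls).Adj (Sum.inl v) (Sum.inr a) := hva
    let v' : GraphSpace (hubGraph G₀ cls) := (Sum.inl v : V₀ ⊕ K × Fin 3)
    let a' : GraphSpace (hubGraph G₀ cls) := (Sum.inr a : V₀ ⊕ K × Fin 3)
    have h1 := (htest ψ (fun x y => hψ.lipschitz x y)).1 v' a'
    have h2 : dist v' a' = 1 := graphDist_adj _ hadj
    rw [h2, mul_one] at h1
    have h3 := (htest ψ (fun x y => hψ.lipschitz x y)).2 a'
      (Finset.mem_image.2 ⟨a, Finset.mem_univ _, rfl⟩)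
    have h4 : dist a' o ≤ 2 := (graphDist_nonneg_le _ _ _).2
    have h5 : ∑ u ∈ F, (c v' u - c a' u) * ψ u =
        ∑ u ∈ F, c v' u * ψ u - ∑ u ∈ F, c a' u * ψ u := by
      rw [← Finset.sum_sub_distrib]
      exact Finset.sum_congr rfl fun u _ => by ring
    rw [h5] at h1
    have h6 : δ * ((1 + η) * dist a' o + 1) ≤ δ * ((1 + η) * 2 + 1) := by
      gcongr
    have h7 : ∑ u ∈ F, c v' u * ψ u - ψ a' ≤ 1 + θ := by nlinarith
    exact h7

end Vale.Agent.Lib.P090
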