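import Vale.Agent.Lib.P090.Coeff

/-!
# The coefficient property

`CoeffProp M L` is the combinatorial consequence of the `L`-bounded approximation property of the
Lipschitz-free space of `M` given by `exists_coeff`; it does not mention a base point and passes to
`1`-Lipschitz retracts.
-/

noncomputable section

namespace Vale.Agent.Lib.P090

/-- Finitely supported signed measures `c v` of mass one, depending on `v` in an
`(L + δ)`-Lipschitz way (tested against `1`-Lipschitz functions), and `δ`-close to the point mass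
at `v` for `v` in the finite set `A`. -/
def CoeffProp (M : Type*) [MetricSpace M] (L : ℝ) : Prop :=
  ∀ (A : Finset M) (δ : ℝ), 0 < δ → ∃ (F : Finset M) (c : M → M → ℝ),
    (∀ v u, u ∉ F → c v u = 0) ∧ (∀ v, ∑ u ∈ F, c v u = 1) ∧
    ∀ ψ : M → ℝ, (∀ x y, |ψ x - ψ y| ≤ dist x y) →
      (∀ v w, ∑ u ∈ F, (c v u - c w u) * ψ u ≤ (L + δ) * dist v w) ∧
      (∀ a ∈ A, ∑ u ∈ F, c a u * ψ u - ψ a ≤ δ)

theorem CoeffProp.of_hasBAP {M : Type*} [MetricSpace M] (o : M) {L : ℝ}
    (h : HasBAP L (LipFree M o)) : CoeffProp M L := by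
  classical
  have hL : 0 ≤ L := by
    obtain ⟨T, -, hT, -⟩ := h ∅ isCompact_empty 1 one_pos
    exact (norm_nonneg T).trans hT
  intro A δ hδ
  set B : ℝ := ∑ a ∈ A, dist a o with hB
  have hB0 : 0 ≤ B := Finset.sum_nonneg fun a _ => dist_nonneg
  have hBa : ∀ a ∈ A, dist a o ≤ B := fun a ha =>
    Finset.single_le_sum (f := fun a => dist a o) (fun a _ => dist_nonneg) ha
  set den : ℝ := L * B + L + 1 with hden
  have hdenpos : 0 < den := by positivity
  set δ' : ℝ := δ / den with hδ'
  have hδ'pos : 0 < δ' := div_pos hδ hdenpos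
  have hδ'eq : δ' * den = δ := by rw [hδ']; field_simp
  obtain ⟨F, c, hsupp, -, hmass, htest⟩ := exists_coeff o hL h A hδ'pos
  refine ⟨F, c, hsupp, hmass, fun ψ hψ => ⟨fun v w => ?_, fun a ha => ?_⟩⟩
  · refine ((htest ψ hψ).1 v w).trans ?_
    apply mul_le_mul_of_nonneg_right _ dist_nonneg
    have : δ' * L ≤ δ' * den := by
      apply mul_le_mul_of_nonneg_left _ hδ'pos.le
      rw [hden]
      nlinarith
    nlinarith
  · refine ((htest ψ hψ).2 a ha).trans ?_
    rw [← hδ'eq]
    apply mul_le_mul_of_nonneg_left _ hδ'pos.le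
    rw [hden]
    have := hBa a ha
    nlinarith

theorem CoeffProp.mono {M : Type*} [MetricSpace M] {L L' : ℝ} (hL : L ≤ L')
    (h : CoeffProp M L) : CoeffProp M L' := by
  intro A δ hδ
  obtain ⟨F, c, hsupp, hmass, htest⟩ := h A δ hδ
  refine ⟨F, c, hsupp, hmass, fun ψ hψ => ⟨fun v w => ?_, (htest ψ hψ).2⟩⟩
  refine ((htest ψ hψ).1 v w).trans ?_
  apply mul_le_mul_of_nonneg_right _ dist_nonneg
  linarith

end Vale.Agent.Lib.P090
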