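import Vale.Agent.Lib.P090.CoeffProp

noncomputable section

namespace Vale.Agent.Lib.P090

/-- U2b.  The coefficient property passes to `1`-Lipschitz retracts. -/
theorem CoeffProp.retract {M N : Type*} [MetricSpace M] [MetricSpace N] (i : N → M) (r : M → N)
    (hi : ∀ x y, dist (i x) (i y) = dist x y) (hr : ∀ x y, dist (r x) (r y) ≤ dist x y)
    (hri : ∀ x, r (i x) = x) {L : ℝ} (h : CoeffProp M L) : CoeffProp N L := by
  classical
  intro A δ hδ
  obtain ⟨F, c, hc0, hc1, hψ⟩ := h (A.image i) δ hδ
  have key : ∀ (d : M → ℝ) (g : N → ℝ),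
      ∑ u ∈ F.image r, (∑ w ∈ F.filter (fun w => r w = u), d w) * g u
        = ∑ w ∈ F, d w * g (r w) := by
    intro d g
    rw [← Finset.sum_fiberwise_of_maps_to (s := F) (t := F.image r) (g := r)
      (fun x hx => Finset.mem_image_of_mem r hx) (fun w => d w * g (r w))]
    refine Finset.sum_congr rfl fun u _ => ?_
    rw [Finset.sum_mul]
    refine Finset.sum_congr rfl fun w hw => ?_
    rw [(Finset.mem_filter.mp hw).2]
  refine ⟨F.image r, fun v u => ∑ w ∈ F.filter (fun w => r w = u), c (i v) w, ?_, ?_, ?_⟩
  · intro v u hu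
    have : F.filter (fun w => r w = u) = ∅ := by
      rw [Finset.filter_eq_empty_iff]
      intro w hw hwu
      exact hu (hwu ▸ Finset.mem_image_of_mem r hw)
    simp only [this, Finset.sum_empty]
  · intro v
    have := key (fun w => c (i v) w) (fun _ => 1)
    simp only [mul_one] at this
    rw [this, hc1]
  · intro ψ hψl
    have hl : ∀ x y, |(ψ ∘ r) x - (ψ ∘ r) y| ≤ dist x y := fun x y =>
      (hψl (r x) (r y)).trans (hr x y)
    obtain ⟨h1, h2⟩ := hψ (ψ ∘ r) hl
    constructor
    · intro v w
      have e := key (fun z => c (i v) z - c (i w) z) ψ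
      simp only [Finset.sum_sub_distrib] at e
      have := h1 (i v) (i w)
      rw [hi] at this
      simp only [Function.comp] at this
      calc _ = _ := e
        _ ≤ _ := by
          simpa [Finset.sum_sub_distrib, sub_mul] using this
    · intro a ha
      have e := key (fun z => c (i a) z) ψ
      have := h2 (i a) (Finset.mem_image_of_mem i ha)
      simp only [Function.comp, hri] at this
      rw [e]
      exact this

end Vale.Agent.Lib.P090
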