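import Mathlib

/-!
# Lipschitz-free spaces and the bounded approximation property (definitions)

`Lip0 M o` is the Banach space of real Lipschitz functions on the pointed metric space `(M, o)`
vanishing at `o`, normed by the best Lipschitz constant.  `delta x` is the evaluation functional,
`LipFree M o` is the closed linear span of the evaluation functionals in the dual of `Lip0 M o`.
`HasBAP lam X` is the `lam`-bounded approximation property.
-/

noncomputable section

namespace Vale.Agent.Lib.P090

open scoped NNReal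

/-- Real Lipschitz functions on `M` vanishing at the base point `o`. -/
structure Lip0 (M : Type*) [PseudoMetricSpace M] (o : M) where
  /-- the underlying function -/
  toFun : M → ℝ
  /-- it is Lipschitz -/
  lipschitz' : ∃ K : ℝ≥0, LipschitzWith K toFun
  /-- it vanishes at the base point -/
  map_base' : toFun o = 0

namespace Lip0

variable {M : Type*} [PseudoMetricSpace M] {o : M}

instance instFunLike : FunLike (Lip0 M o) M ℝ where
  coe := toFun
  coe_injective := by
    intro f g h
    cases f; cases g; congr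

theorem map_base (f : Lip0 M o) : f o = 0 := f.map_base'

theorem exists_bound (f : Lip0 M o) : ∃ K : ℝ, 0 ≤ K ∧ ∀ x y, |f x - f y| ≤ K * dist x y := by
  obtain ⟨K, hK⟩ := f.lipschitz'
  exact ⟨K, K.2, fun x y => by
    have := hK.dist_le_mul x y
    rwa [Real.dist_eq] at this⟩

/-- Constructor from an explicit Lipschitz bound. -/
def ofBound (g : M → ℝ) (K : ℝ) (hg : ∀ x y, |g x - g y| ≤ K * dist x y) (h0 : g o = 0) :
    Lip0 M o where
  toFun := g
  lipschitz' := ⟨Real.toNNReal K, LipschitzWith.of_dist_le_mul fun x y => by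
    rw [Real.dist_eq]
    exact (hg x y).trans (mul_le_mul_of_nonneg_right (Real.le_coe_toNNReal K) dist_nonneg)⟩
  map_base' := h0

@[simp] theorem ofBound_apply (g : M → ℝ) (K : ℝ) (hg : ∀ x y, |g x - g y| ≤ K * dist x y)
    (h0 : g o = 0) (x : M) : ofBound g K hg h0 x = g x := rfl

instance instZero : Zero (Lip0 M o) :=
  ⟨⟨fun _ => 0, ⟨0, LipschitzWith.const 0⟩, rfl⟩⟩

instance instAdd : Add (Lip0 M o) :=
  ⟨fun f g => ⟨fun x => f x + g x, by
    obtain ⟨K, hK⟩ := f.lipschitz'
    obtain ⟨K', hK'⟩ := g.lipschitz'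
    exact ⟨K + K', hK.add hK'⟩, by rw [map_base, map_base, add_zero]⟩⟩

instance instSMul : SMul ℝ (Lip0 M o) :=
  ⟨fun c f => ⟨fun x => c * f x, by
    obtain ⟨K, hK⟩ := f.lipschitz'
    refine ⟨‖c‖₊ * K, LipschitzWith.of_dist_le_mul fun x y => ?_⟩
    have h := hK.dist_le_mul x y
    rw [Real.dist_eq] at h ⊢
    rw [← mul_sub, abs_mul, NNReal.coe_mul, coe_nnnorm, Real.norm_eq_abs, mul_assoc]
    exact mul_le_mul_of_nonneg_left h (abs_nonneg c), by rw [map_base, mul_zero]⟩⟩

instance instNeg : Neg (Lip0 M o) := ⟨fun f => (-1 : ℝ) • f⟩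

instance instSub : Sub (Lip0 M o) := ⟨fun f g => f + -g⟩

instance instSMulNat : SMul ℕ (Lip0 M o) := ⟨fun n f => (n : ℝ) • f⟩

instance instSMulInt : SMul ℤ (Lip0 M o) := ⟨fun n f => (n : ℝ) • f⟩

@[simp] theorem zero_apply (x : M) : (0 : Lip0 M o) x = 0 := rfl
@[simp] theorem add_apply (f g : Lip0 M o) (x : M) : (f + g) x = f x + g x := rfl
@[simp] theorem smul_apply (c : ℝ) (f : Lip0 M o) (x : M) : (c • f) x = c * f x := rfl
@[simp] theorem neg_apply (f : Lip0 M o) (x : M) : (-f) x = -f x := by
  change (-1 : ℝ) * f x = -f x; ring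
@[simp] theorem sub_apply (f g : Lip0 M o) (x : M) : (f - g) x = f x - g x := by
  change f x + (-g) x = f x - g x; rw [neg_apply]; ring

instance instAddCommGroup : AddCommGroup (Lip0 M o) :=
  DFunLike.coe_injective.addCommGroup _ (by ext; simp) (by intros; ext; simp)
    (by intros; ext; simp) (by intros; ext; simp)
    (by intro f n; ext x; change (n : ℝ) * f x = _; simp)
    (by intro f n; ext x; change (n : ℝ) * f x = _; simp)

/-- Coercion to functions as an additive monoid homomorphism. -/
def coeHom : Lip0 M o →+ (M → ℝ) where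
  toFun := fun f => f
  map_zero' := by ext; simp
  map_add' := by intros; ext; simp

instance instModule : Module ℝ (Lip0 M o) :=
  Function.Injective.module ℝ coeHom DFunLike.coe_injective (by intros; ext; simp [coeHom])

/-- The norm of `f` is its best Lipschitz constant. -/
instance instNorm : Norm (Lip0 M o) :=
  ⟨fun f => sInf {K : ℝ | 0 ≤ K ∧ ∀ x y, |f x - f y| ≤ K * dist x y}⟩

theorem norm_def (f : Lip0 M o) :
    ‖f‖ = sInf {K : ℝ | 0 ≤ K ∧ ∀ x y, |f x - f y| ≤ K * dist x y} := rfl

theorem norm_nonneg' (f : Lip0 M o) : 0 ≤ ‖f‖ :=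
  le_csInf f.exists_bound fun _ hK => hK.1

theorem norm_le_of_bound (f : Lip0 M o) {K : ℝ} (hK : 0 ≤ K)
    (h : ∀ x y, |f x - f y| ≤ K * dist x y) : ‖f‖ ≤ K :=
  csInf_le ⟨0, fun _ hK => hK.1⟩ ⟨hK, h⟩

theorem abs_sub_le (f : Lip0 M o) (x y : M) : |f x - f y| ≤ ‖f‖ * dist x y := by
  rcases eq_or_lt_of_le (dist_nonneg : 0 ≤ dist x y) with h | h
  · obtain ⟨K, -, hK⟩ := f.exists_bound
    have := hK x y
    rw [← h] at this ⊢
    simpa using this
  · rw [← div_le_iff₀ h]
    exact le_csInf f.exists_bound fun K hK => by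
      rw [div_le_iff₀ h]; exact hK.2 x y

theorem abs_apply_le (f : Lip0 M o) (x : M) : |f x| ≤ ‖f‖ * dist x o := by
  simpa [map_base] using f.abs_sub_le x o

instance instNormedAddCommGroup : NormedAddCommGroup (Lip0 M o) :=
  AddGroupNorm.toNormedAddCommGroup
    { toFun := fun f => ‖f‖
      map_zero' := le_antisymm
        (norm_le_of_bound 0 le_rfl (by intro x y; simp)) (norm_nonneg' 0)
      add_le' := fun f g => norm_le_of_bound _ (add_nonneg (norm_nonneg' f) (norm_nonneg' g)) (by
        intro x y
        have : (f + g) x - (f + g) y = (f x - f y) + (g x - g y) := by simp; ring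
        rw [this, add_mul]
        exact (abs_add_le _ _).trans (add_le_add (f.abs_sub_le x y) (g.abs_sub_le x y)))
      neg' := fun f => by
        have key : ∀ g : Lip0 M o, ‖-g‖ ≤ ‖g‖ := fun g =>
          norm_le_of_bound _ (norm_nonneg' g) (by
            intro x y
            have : (-g) x - (-g) y = -(g x - g y) := by simp; ring
            rw [this, abs_neg]
            exact g.abs_sub_le x y)
        refine le_antisymm (key f) ?_
        have := key (-f)
        rwa [neg_neg] at this
      eq_zero_of_map_eq_zero' := fun f hf => by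
        apply DFunLike.ext
        intro x
        have h := f.abs_apply_le x
        have hf' : ‖f‖ = 0 := hf
        rw [hf', zero_mul] at h
        simpa using abs_nonpos_iff.mp h }

instance instNormedSpace : NormedSpace ℝ (Lip0 M o) where
  norm_smul_le c f := norm_le_of_bound _ (mul_nonneg (norm_nonneg c) (norm_nonneg' f)) (by
    intro x y
    rw [smul_apply, smul_apply, ← mul_sub, abs_mul, Real.norm_eq_abs, mul_assoc]
    exact mul_le_mul_of_nonneg_left (f.abs_sub_le x y) (abs_nonneg c))

end Lip0

variable (M : Type*) [PseudoMetricSpace M] (o : M)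

/-- The evaluation functional `delta x : f ↦ f x` on `Lip0 M o`. -/
def delta (x : M) : Lip0 M o →L[ℝ] ℝ :=
  LinearMap.mkContinuous
    { toFun := fun f => f x
      map_add' := fun f g => Lip0.add_apply f g x
      map_smul' := fun c f => Lip0.smul_apply c f x }
    (dist x o)
    (fun f => by
      rw [Real.norm_eq_abs, mul_comm]
      exact f.abs_apply_le x)

/-- The Lipschitz-free space of `(M, o)`: the closed linear span of the evaluation functionals
in the dual Banach space of `Lip0 M o`. -/
def LipFree : Submodule ℝ (Lip0 M o →L[ℝ] ℝ) :=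
  (Submodule.span ℝ (Set.range (delta M o))).topologicalClosure

/-- The `lam`-bounded approximation property of a real normed space `X`: for every compact set
`C` and every `ε > 0` there is a bounded finite-rank operator `T` on `X` with `‖T‖ ≤ lam` and
`‖T u - u‖ < ε` for all `u ∈ C`. -/
def HasBAP (lam : ℝ) (X : Type*) [NormedAddCommGroup X] [NormedSpace ℝ X] : Prop :=
  ∀ C : Set X, IsCompact C → ∀ ε : ℝ, 0 < ε →
    ∃ T : X →L[ℝ] X, FiniteDimensional ℝ (LinearMap.range (T : X →ₗ[ℝ] X)) ∧ ‖T‖ ≤ lam ∧
      ∀ u ∈ C, ‖T u - u‖ < ε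

end Vale.Agent.Lib.P090
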