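import Mathlib

namespace Vale.Agent.Lib.P090

/-- The four directions (the letters of the free group on two generators). -/
abbrev Dir : Type := Fin 2 × Bool

end Vale.Agent.Lib.P090
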