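import Vale.Agent.Lib.P090.GGDefs

noncomputable section

namespace Vale.Agent.Lib.P090

theorem zabs_intCast {N : ℕ} [NeZero N] (m : ℤ) (h : m.natAbs ≤ N) :
    zabs ((m : ℤ) : ZMod N) = min m.natAbs (N - m.natAbs) := by
  unfold zabs
  have hN : 0 < N := NeZero.pos N
  by_cases h1 : -(N : ℤ) < m * 2 ∧ m * 2 ≤ N
  · have e : ((m : ℤ) : ZMod N).valMinAbs = m := (ZMod.valMinAbs_spec _ _).2 ⟨rfl, h1⟩
    rw [e]
    omega
  · by_cases h2 : 0 ≤ m
    · have e : ((m : ℤ) : ZMod N).valMinAbs = m - N :=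
        (ZMod.valMinAbs_spec _ _).2 ⟨by simp, by constructor <;> omega⟩
      rw [e]
      omega
    · have e : ((m : ℤ) : ZMod N).valMinAbs = m + N :=
        (ZMod.valMinAbs_spec _ _).2 ⟨by simp, by constructor <;> omega⟩
      rw [e]
      omega

theorem norm_one_add_le_two {N : ℕ} [NeZero N] (t : ZMod N) :
    ‖(1 : ℂ) + ZMod.stdAddChar t‖ ≤ 2 := by
  have h1 : ‖(ZMod.stdAddChar t : ℂ)‖ = 1 := by
    rw [ZMod.stdAddChar_apply]
    exact Circle.norm_coe _
  calc ‖(1 : ℂ) + ZMod.stdAddChar t‖ ≤ ‖(1 : ℂ)‖ + ‖(ZMod.stdAddChar t : ℂ)‖ := norm_add_le _ _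
    _ = 2 := by
      rw [h1]
      norm_num

theorem two_zabs_le {N : ℕ} [NeZero N] (t : ZMod N) : 2 * zabs t ≤ N := by
  have := ZMod.natAbs_valMinAbs_le t
  unfold zabs
  omega

theorem norm_one_add_le_sqrt_two {N : ℕ} [NeZero N] (t : ZMod N) (h : N ≤ 4 * zabs t) :
    ‖(1 : ℂ) + ZMod.stdAddChar t‖ ≤ Real.sqrt 2 := by
  have hN : (0 : ℝ) < N := by exact_mod_cast NeZero.pos N
  have ht : (ZMod.stdAddChar t : ℂ)
      = Complex.exp (((2 * Real.pi * (t.valMinAbs : ℝ) / N : ℝ) : ℂ) * Complex.I) := by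
    conv_lhs => rw [← ZMod.coe_valMinAbs t]
    rw [ZMod.stdAddChar_coe]
    congr 1
    push_cast
    ring
  have h2 := two_zabs_le t
  have habs : |(t.valMinAbs : ℝ)| = (zabs t : ℝ) := by
    unfold zabs
    rw [Nat.cast_natAbs]
    push_cast
    rfl
  have hcos : Real.cos (2 * Real.pi * (t.valMinAbs : ℝ) / N) ≤ 0 := by
    rw [← Real.cos_abs]
    have e : |2 * Real.pi * (t.valMinAbs : ℝ) / N| = 2 * Real.pi * (zabs t : ℝ) / N := by
      rw [abs_div, abs_mul, abs_mul, habs, abs_of_pos hN, abs_of_pos Real.pi_pos]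
      norm_num
    rw [e]
    have h' : (N : ℝ) ≤ 4 * (zabs t : ℝ) := by exact_mod_cast h
    have h2' : 2 * (zabs t : ℝ) ≤ N := by exact_mod_cast h2
    have hpi := Real.pi_pos
    apply Real.cos_nonpos_of_pi_div_two_le_of_le
    · rw [le_div_iff₀ hN]
      nlinarith
    · rw [div_le_iff₀ hN]
      nlinarith
  rw [ht]
  apply Real.le_sqrt_of_sq_le
  rw [Complex.sq_norm, Complex.normSq_apply]
  simp only [Complex.add_re, Complex.one_re, Complex.add_im, Complex.one_im,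
    Complex.exp_ofReal_mul_I_re, Complex.exp_ofReal_mul_I_im, zero_add]
  nlinarith [Real.sin_sq_add_cos_sq (2 * Real.pi * (t.valMinAbs : ℝ) / N)]

theorem ggGam_le {N : ℕ} (a b : ZMod N) : ggGam a b ≤ 8 / 7 := by
  unfold ggGam
  split_ifs <;> norm_num

theorem ggGam_nonneg {N : ℕ} (a b : ZMod N) : 0 ≤ ggGam a b := by
  unfold ggGam
  split_ifs <;> norm_num

theorem zabs_sub_two {N : ℕ} [NeZero N] (u v : ZMod N) (hu : 4 * zabs u < N) (hv : 4 * zabs v < N) :
    zabs (u - 2 * v) = min (u.valMinAbs - 2 * v.valMinAbs).natAbs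
      (N - (u.valMinAbs - 2 * v.valMinAbs).natAbs) := by
  have e : u - 2 * v = ((u.valMinAbs - 2 * v.valMinAbs : ℤ) : ZMod N) := by
    simp
  unfold zabs at hu hv
  rw [e, zabs_intCast _ (by omega)]

theorem zabs_add_two {N : ℕ} [NeZero N] (u v : ZMod N) (hu : 4 * zabs u < N) (hv : 4 * zabs v < N) :
    zabs (u + 2 * v) = min (u.valMinAbs + 2 * v.valMinAbs).natAbs
      (N - (u.valMinAbs + 2 * v.valMinAbs).natAbs) := by
  have e : u + 2 * v = ((u.valMinAbs + 2 * v.valMinAbs : ℤ) : ZMod N) := by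
    simp
  unfold zabs at hu hv
  rw [e, zabs_intCast _ (by omega)]

theorem brA {N : ℕ} [NeZero N] (u v : ZMod N) (hu : 4 * zabs u < N) (hv : 4 * zabs v < N)
    (huv : zabs u < zabs v) : ggGam u (u - 2 * v) + ggGam u (u + 2 * v) ≤ 7 / 4 := by
  have e1 := zabs_sub_two u v hu hv
  have e2 := zabs_add_two u v hu hv
  unfold ggGam
  generalize zabs (u - 2 * v) = z1 at *
  generalize zabs (u + 2 * v) = z2 at *
  unfold zabs at *
  generalize u.valMinAbs = a at *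
  generalize v.valMinAbs = b at *
  have l1 : a.natAbs < z1 := by omega
  have l2 : a.natAbs < z2 := by omega
  rw [if_neg (by omega), if_pos l1, if_neg (by omega), if_pos l2]
  norm_num

theorem brB {N : ℕ} [NeZero N] (u v : ZMod N) (hu : 4 * zabs u < N) (hv : 4 * zabs v < N) :
    ggGam u (u - 2 * v) + ggGam u (u + 2 * v) ≤ 15 / 7 := by
  have e1 := zabs_sub_two u v hu hv
  have e2 := zabs_add_two u v hu hv
  have g1 := ggGam_le u (u - 2 * v)
  have g2 := ggGam_le u (u + 2 * v)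
  have key : ggGam u (u - 2 * v) ≤ 1 ∨ ggGam u (u + 2 * v) ≤ 1 := by
    unfold ggGam
    generalize zabs (u - 2 * v) = z1 at *
    generalize zabs (u + 2 * v) = z2 at *
    unfold zabs at *
    generalize u.valMinAbs = a at *
    generalize v.valMinAbs = b at *
    have l : a.natAbs ≤ z1 ∨ a.natAbs ≤ z2 := by omega
    rcases l with l | l
    · left
      rw [if_neg (by omega)]
      split_ifs <;> norm_num
    · right
      rw [if_neg (by omega)]
      split_ifs <;> norm_num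
  rcases key with k | k <;> linarith

theorem brC {N : ℕ} [NeZero N] (u v : ZMod N) (hu : 4 * zabs u < N) (hv : 4 * zabs v < N)
    (huv : zabs u = zabs v) (h0 : 0 < zabs u) :
    ggGam u (u - 2 * v) + ggGam u (u + 2 * v) ≤ 15 / 8 := by
  have e1 := zabs_sub_two u v hu hv
  have e2 := zabs_add_two u v hu hv
  unfold ggGam
  generalize zabs (u - 2 * v) = z1 at *
  generalize zabs (u + 2 * v) = z2 at *
  unfold zabs at *
  generalize u.valMinAbs = a at *
  generalize v.valMinAbs = b at *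
  have l : (a.natAbs = z1 ∧ a.natAbs < z2) ∨ (a.natAbs < z1 ∧ a.natAbs = z2) := by omega
  rcases l with ⟨l1, l2⟩ | ⟨l1, l2⟩
  · rw [if_neg (by omega), if_neg (by omega), if_neg (by omega), if_pos l2]
    norm_num
  · rw [if_neg (by omega), if_pos l1, if_neg (by omega), if_neg (by omega)]
    norm_num

theorem gg_bracket (N : ℕ) [NeZero N] (w : ZMod N × ZMod N) (hw : w ≠ 0) :
    ‖(1 : ℂ) + ZMod.stdAddChar w.1‖ / 2 *
        (ggGam w.2 (w.2 - 2 * w.1) + ggGam w.2 (w.2 + 2 * w.1)) +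
      ‖(1 : ℂ) + ZMod.stdAddChar w.2‖ / 2 *
        (ggGam w.1 (w.1 - 2 * w.2) + ggGam w.1 (w.1 + 2 * w.2)) ≤ 63 / 16 := by
  have r1 := norm_one_add_le_two w.1
  have r2 := norm_one_add_le_two w.2
  have p1 := norm_nonneg ((1 : ℂ) + ZMod.stdAddChar w.1)
  have p2 := norm_nonneg ((1 : ℂ) + ZMod.stdAddChar w.2)
  have a1 := ggGam_le w.2 (w.2 - 2 * w.1)
  have a2 := ggGam_le w.2 (w.2 + 2 * w.1)
  have a3 := ggGam_le w.1 (w.1 - 2 * w.2)
  have a4 := ggGam_le w.1 (w.1 + 2 * w.2)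
  have b1 := ggGam_nonneg w.2 (w.2 - 2 * w.1)
  have b2 := ggGam_nonneg w.2 (w.2 + 2 * w.1)
  have b3 := ggGam_nonneg w.1 (w.1 - 2 * w.2)
  have b4 := ggGam_nonneg w.1 (w.1 + 2 * w.2)
  have hs2 : Real.sqrt 2 ≤ 185 / 128 := by
    rw [Real.sqrt_le_left (by norm_num)]
    norm_num
  have hA : ‖(1 : ℂ) + ZMod.stdAddChar w.1‖ / 2 *
      (ggGam w.2 (w.2 - 2 * w.1) + ggGam w.2 (w.2 + 2 * w.1))
      ≤ ‖(1 : ℂ) + ZMod.stdAddChar w.1‖ / 2 * (16 / 7) :=
    mul_le_mul_of_nonneg_left (by linarith) (by linarith)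
  have hB : ‖(1 : ℂ) + ZMod.stdAddChar w.2‖ / 2 *
      (ggGam w.1 (w.1 - 2 * w.2) + ggGam w.1 (w.1 + 2 * w.2))
      ≤ ‖(1 : ℂ) + ZMod.stdAddChar w.2‖ / 2 * (16 / 7) :=
    mul_le_mul_of_nonneg_left (by linarith) (by linarith)
  have hA' : ‖(1 : ℂ) + ZMod.stdAddChar w.1‖ / 2 *
      (ggGam w.2 (w.2 - 2 * w.1) + ggGam w.2 (w.2 + 2 * w.1))
      ≤ 1 * (ggGam w.2 (w.2 - 2 * w.1) + ggGam w.2 (w.2 + 2 * w.1)) :=
    mul_le_mul_of_nonneg_right (by linarith) (by linarith)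
  have hB' : ‖(1 : ℂ) + ZMod.stdAddChar w.2‖ / 2 *
      (ggGam w.1 (w.1 - 2 * w.2) + ggGam w.1 (w.1 + 2 * w.2))
      ≤ 1 * (ggGam w.1 (w.1 - 2 * w.2) + ggGam w.1 (w.1 + 2 * w.2)) :=
    mul_le_mul_of_nonneg_right (by linarith) (by linarith)
  by_cases hx : N ≤ 4 * zabs w.1
  · have s1 := (norm_one_add_le_sqrt_two w.1 hx).trans hs2
    linarith
  by_cases hy : N ≤ 4 * zabs w.2
  · have s2 := (norm_one_add_le_sqrt_two w.2 hy).trans hs2
    linarith
  push Not at hx hy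
  rcases lt_trichotomy (zabs w.1) (zabs w.2) with h | h | h
  · have k1 := brA w.1 w.2 hx hy h
    have k2 := brB w.2 w.1 hy hx
    linarith
  · have h0 : 0 < zabs w.1 := by
      rcases Nat.eq_zero_or_pos (zabs w.1) with h0 | h0
      · exfalso
        apply hw
        have h0' : zabs w.2 = 0 := by omega
        unfold zabs at h0 h0'
        rw [Int.natAbs_eq_zero, ZMod.valMinAbs_eq_zero] at h0 h0'
        exact Prod.ext h0 h0'
      · exact h0
    have k1 := brC w.1 w.2 hx hy h h0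
    have k2 := brC w.2 w.1 hy hx h.symm (by omega)
    linarith
  · have k1 := brA w.2 w.1 hy hx h
    have k2 := brB w.1 w.2 hx hy
    linarith

end Vale.Agent.Lib.P090
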