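import Vale.Agent.Lib.P090.GGGap

noncomputable section

namespace Vale.Agent.Lib.P090

theorem ggNeZero (q : Nat.Primes) : NeZero (q : ℕ) := ⟨q.2.ne_zero⟩

attribute [local instance] ggNeZero

theorem ggS_injective (i : Fin 4) : Function.Injective (ggS i) := by
  rintro ⟨p, z⟩ ⟨q, u⟩ h
  unfold ggS at h
  simp only [Sigma.mk.injEq] at h
  obtain ⟨h1, h2⟩ := h
  subst h1
  have h3 := eq_of_heq h2
  rw [(ggMap_bijective (p : ℕ) i).1 h3]

theorem gg_sqrt_sub_sq_le {a b : ℝ} (ha : 0 ≤ a) (hb : 0 ≤ b) :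
    (Real.sqrt a - Real.sqrt b) ^ 2 ≤ |a - b| := by
  have hsa := Real.sq_sqrt ha
  have hsb := Real.sq_sqrt hb
  have h1 := Real.sqrt_nonneg a
  have h2 := Real.sqrt_nonneg b
  rcases le_total b a with h | h
  · rw [abs_of_nonneg (by linarith)]
    have h3 := Real.sqrt_le_sqrt h
    nlinarith
  · rw [abs_of_nonpos (by linarith)]
    have h3 := Real.sqrt_le_sqrt h
    nlinarith

theorem gg_col_card (q : Nat.Primes) (c : Ordering) :
    2 * (Finset.univ.filter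
      (fun u : ZMod (q : ℕ) × ZMod (q : ℕ) => compare u.1.val u.2.val = c)).card ≤ (q : ℕ) ^ 2 := by
  have hcard : (Finset.univ : Finset (ZMod (q : ℕ) × ZMod (q : ℕ))).card = (q : ℕ) ^ 2 := by
    rw [Finset.card_univ, Fintype.card_prod, ZMod.card, sq]
  set L := Finset.univ.filter
    (fun u : ZMod (q : ℕ) × ZMod (q : ℕ) => compare u.1.val u.2.val = Ordering.lt) with hL
  set R := Finset.univ.filter
    (fun u : ZMod (q : ℕ) × ZMod (q : ℕ) => compare u.1.val u.2.val = Ordering.gt) with hR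
  have hLR : L.card = R.card := by
    apply Finset.card_bij (fun u _ => Prod.swap u)
    · intro u hu
      simp only [hL, hR, Finset.mem_filter, Finset.mem_univ, true_and, compare_lt_iff_lt,
        compare_gt_iff_gt, Prod.fst_swap, Prod.snd_swap] at hu ⊢
      exact hu
    · intro u _ v _ h
      exact Prod.swap_injective h
    · intro u hu
      refine ⟨Prod.swap u, ?_, Prod.swap_swap u⟩
      simp only [hL, hR, Finset.mem_filter, Finset.mem_univ, true_and, compare_lt_iff_lt,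
        compare_gt_iff_gt, Prod.fst_swap, Prod.snd_swap] at hu ⊢
      exact hu
  have hdisj : Disjoint L R := by
    rw [Finset.disjoint_left]
    intro u hu hu'
    simp only [hL, hR, Finset.mem_filter, Finset.mem_univ, true_and] at hu hu'
    rw [hu] at hu'
    exact absurd hu' (by decide)
  have hsum : L.card + R.card ≤ (q : ℕ) ^ 2 := by
    rw [← Finset.card_union_of_disjoint hdisj, ← hcard]
    exact Finset.card_le_card (Finset.subset_univ _)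
  cases c with
  | lt =>
    change 2 * L.card ≤ _
    omega
  | gt =>
    change 2 * R.card ≤ _
    omega
  | eq =>
    have h1 : (Finset.univ.filter
        (fun u : ZMod (q : ℕ) × ZMod (q : ℕ) => compare u.1.val u.2.val = Ordering.eq)).card
        ≤ (Finset.univ : Finset (ZMod (q : ℕ))).card := by
      apply Finset.card_le_card_of_injOn (fun u => u.1)
      · intro u _
        exact Finset.mem_coe.mpr (Finset.mem_univ _)
      · intro u hu v hv h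
        simp only [Finset.coe_filter, Finset.mem_univ, true_and, Set.mem_ofPred_eq,
          compare_eq_iff_eq] at hu hv
        have hu' := ZMod.val_injective _ hu
        have hv' := ZMod.val_injective _ hv
        have h' : u.1 = v.1 := h
        exact Prod.ext h' (by rw [← hu', ← hv', h'])
    rw [Finset.card_univ, ZMod.card] at h1
    have h2 : 2 ≤ (q : ℕ) := q.2.two_le
    nlinarith

theorem gg_per_q (P q : Nat.Primes) (hPq : P ≠ q) (y : GGPt → GGPt → ℝ)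
    (h0 : ∀ p u, 0 ≤ y p u) (hcol : ∀ p u, ggCol u ≠ ggCol p → y p u = 0) :
    1 / 16 * ∑ z : ZMod (P : ℕ) × ZMod (P : ℕ), ∑ u : ZMod (q : ℕ) × ZMod (q : ℕ),
        y ⟨P, z⟩ ⟨q, u⟩ ≤
      ∑ i : Fin 4, ∑ z : ZMod (P : ℕ) × ZMod (P : ℕ), ∑ u : ZMod (q : ℕ) × ZMod (q : ℕ),
        |y (ggS i ⟨P, z⟩) (ggS i ⟨q, u⟩) - y ⟨P, z⟩ ⟨q, u⟩| := by
  classical
  have hcop : Nat.Coprime (P : ℕ) (q : ℕ) :=
    (Nat.coprime_primes P.2 q.2).mpr (fun h => hPq (Subtype.ext h))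
  set Φ : (ZMod (P : ℕ) × ZMod (P : ℕ)) × (ZMod (q : ℕ) × ZMod (q : ℕ)) → ℝ :=
    fun w => Real.sqrt (y ⟨P, w.1⟩ ⟨q, w.2⟩) with hΦ
  have hgap := gg_gap_prod (P : ℕ) (q : ℕ) hcop Φ
  have hΦsq : ∀ w, Φ w ^ 2 = y ⟨P, w.1⟩ ⟨q, w.2⟩ := fun w => Real.sq_sqrt (h0 _ _)
  have hPq0 : (0 : ℝ) < ((P : ℕ) : ℝ) * ((q : ℕ) : ℝ) := by
    have h1 : (0 : ℝ) < ((P : ℕ) : ℝ) := by exact_mod_cast P.2.pos
    have h2 : (0 : ℝ) < ((q : ℕ) : ℝ) := by exact_mod_cast q.2.pos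
    positivity
  -- the support
  set S := Finset.univ.filter
    (fun w : (ZMod (P : ℕ) × ZMod (P : ℕ)) × (ZMod (q : ℕ) × ZMod (q : ℕ)) =>
      ggCol ⟨q, w.2⟩ = ggCol ⟨P, w.1⟩) with hS
  have hScard : 2 * S.card ≤ ((P : ℕ) * (q : ℕ)) ^ 2 := by
    have h1 : S.card = ∑ z : ZMod (P : ℕ) × ZMod (P : ℕ),
        (Finset.univ.filter (fun u : ZMod (q : ℕ) × ZMod (q : ℕ) =>
          compare u.1.val u.2.val = ggCol ⟨P, z⟩)).card := by
      rw [hS, Finset.card_filter, Fintype.sum_prod_type]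
      refine Finset.sum_congr rfl fun z _ => ?_
      rw [Finset.card_filter]
      rfl
    rw [h1, Finset.mul_sum]
    calc ∑ z : ZMod (P : ℕ) × ZMod (P : ℕ), 2 * (Finset.univ.filter
          (fun u : ZMod (q : ℕ) × ZMod (q : ℕ) => compare u.1.val u.2.val = ggCol ⟨P, z⟩)).card
        ≤ ∑ _z : ZMod (P : ℕ) × ZMod (P : ℕ), (q : ℕ) ^ 2 :=
          Finset.sum_le_sum fun z _ => gg_col_card q _
      _ = ((P : ℕ) * (q : ℕ)) ^ 2 := by
          rw [Finset.sum_const, Finset.card_univ, Fintype.card_prod, ZMod.card, smul_eq_mul]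
          ring
  have hsupp : ∑ w, Φ w = ∑ w ∈ S, Φ w := by
    symm
    apply Finset.sum_subset (Finset.subset_univ _)
    intro w _ hw
    have : ggCol ⟨q, w.2⟩ ≠ ggCol ⟨P, w.1⟩ := by
      intro h
      exact hw (by simp [hS, h])
    simp only [hΦ]
    rw [hcol _ _ this, Real.sqrt_zero]
  have hCS : (∑ w, Φ w) ^ 2 ≤ (S.card : ℝ) * ∑ w, Φ w ^ 2 := by
    rw [hsupp]
    refine sq_sum_le_card_mul_sum_sq.trans ?_
    refine mul_le_mul_of_nonneg_left ?_ (Nat.cast_nonneg _)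
    exact Finset.sum_le_sum_of_subset_of_nonneg (Finset.subset_univ _)
      (fun w _ _ => sq_nonneg _)
  have hsumnn : 0 ≤ ∑ w, Φ w ^ 2 := Finset.sum_nonneg fun w _ => sq_nonneg _
  have hScard' : (S.card : ℝ) ≤ (((P : ℕ) : ℝ) * ((q : ℕ) : ℝ)) ^ 2 / 2 := by
    have : ((2 * S.card : ℕ) : ℝ) ≤ ((((P : ℕ) * (q : ℕ)) ^ 2 : ℕ) : ℝ) := by
      exact_mod_cast hScard
    push_cast at this
    linarith
  have hhalf : (∑ w, Φ w) ^ 2 / (((P : ℕ) : ℝ) * ((q : ℕ) : ℝ)) ^ 2 ≤ (∑ w, Φ w ^ 2) / 2 := by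
    rw [div_le_iff₀ (by positivity)]
    calc (∑ w, Φ w) ^ 2 ≤ (S.card : ℝ) * ∑ w, Φ w ^ 2 := hCS
      _ ≤ ((((P : ℕ) : ℝ) * ((q : ℕ) : ℝ)) ^ 2 / 2) * ∑ w, Φ w ^ 2 :=
          mul_le_mul_of_nonneg_right hScard' hsumnn
      _ = _ := by ring
  have hleft : 1 / 16 * ∑ w, Φ w ^ 2 ≤
      ∑ i : Fin 4, ∑ w : (ZMod (P : ℕ) × ZMod (P : ℕ)) × (ZMod (q : ℕ) × ZMod (q : ℕ)),
        (Φ (ggMap (P : ℕ) i w.1, ggMap (q : ℕ) i w.2) - Φ w) ^ 2 := by
    refine le_trans ?_ hgap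
    linarith
  have hl : ∑ w, Φ w ^ 2 = ∑ z : ZMod (P : ℕ) × ZMod (P : ℕ),
      ∑ u : ZMod (q : ℕ) × ZMod (q : ℕ), y ⟨P, z⟩ ⟨q, u⟩ := by
    simp_rw [hΦsq]
    rw [Fintype.sum_prod_type]
  rw [← hl]
  refine hleft.trans ?_
  refine Finset.sum_le_sum fun i _ => ?_
  rw [Fintype.sum_prod_type]
  refine Finset.sum_le_sum fun z _ => Finset.sum_le_sum fun u _ => ?_
  exact gg_sqrt_sub_sq_le (h0 _ _) (h0 _ _)

theorem gg_no_almost_equivariant {θ : ℝ} (hθ : θ < 1 / 3843) (E : Finset GGPt)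
    (y : GGPt → GGPt → ℝ) (h0 : ∀ p u, 0 ≤ y p u) (hE : ∀ p u, u ∉ E → y p u = 0)
    (hcol : ∀ p u, ggCol u ≠ ggCol p → y p u = 0) (hmass : ∀ p, 1 - 3 * θ ≤ ∑ u ∈ E, y p u)
    (hvar : ∀ i p (S : Finset GGPt), ∑ u ∈ S, |y (ggS i p) (ggS i u) - y p u| ≤ 60 * θ) :
    False := by
  classical
  set Q : Finset Nat.Primes := E.image Sigma.fst with hQ
  -- a prime outside `Q`
  obtain ⟨P, hP⟩ : ∃ P : Nat.Primes, P ∉ Q := Infinite.exists_notMem_finset Q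
  set T : Finset GGPt := Q.sigma (fun q => (Finset.univ : Finset (ZMod (q : ℕ) × ZMod (q : ℕ))))
    with hT
  have hET : E ⊆ T := by
    intro u hu
    rw [hT, Finset.mem_sigma]
    exact ⟨Finset.mem_image_of_mem _ hu, Finset.mem_univ _⟩
  have hper : ∀ q ∈ Q, 1 / 16 * ∑ z : ZMod (P : ℕ) × ZMod (P : ℕ),
      ∑ u : ZMod (q : ℕ) × ZMod (q : ℕ), y ⟨P, z⟩ ⟨q, u⟩ ≤
      ∑ i : Fin 4, ∑ z : ZMod (P : ℕ) × ZMod (P : ℕ), ∑ u : ZMod (q : ℕ) × ZMod (q : ℕ),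
        |y (ggS i ⟨P, z⟩) (ggS i ⟨q, u⟩) - y ⟨P, z⟩ ⟨q, u⟩| := by
    intro q hq
    exact gg_per_q P q (fun h => hP (h ▸ hq)) y h0 hcol
  have hsum := Finset.sum_le_sum hper
  -- left side
  have hcardP : ((Finset.univ : Finset (ZMod (P : ℕ) × ZMod (P : ℕ))).card : ℝ) =
      ((P : ℕ) : ℝ) ^ 2 := by
    rw [Finset.card_univ, Fintype.card_prod, ZMod.card]
    push_cast
    ring
  have hL : ((P : ℕ) : ℝ) ^ 2 * (1 - 3 * θ) ≤ ∑ q ∈ Q, ∑ z : ZMod (P : ℕ) × ZMod (P : ℕ),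
      ∑ u : ZMod (q : ℕ) × ZMod (q : ℕ), y ⟨P, z⟩ ⟨q, u⟩ := by
    rw [Finset.sum_comm]
    calc ((P : ℕ) : ℝ) ^ 2 * (1 - 3 * θ)
        = ∑ _z : ZMod (P : ℕ) × ZMod (P : ℕ), (1 - 3 * θ) := by
          rw [Finset.sum_const, nsmul_eq_mul, hcardP]
      _ ≤ _ := by
          refine Finset.sum_le_sum fun z _ => ?_
          refine (hmass ⟨P, z⟩).trans ?_
          rw [← Finset.sum_sigma Q (fun q => Finset.univ) (fun u => y ⟨P, z⟩ u)]
          exact Finset.sum_le_sum_of_subset_of_nonneg hET (fun u _ _ => h0 _ _)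
  have hR : ∑ q ∈ Q, ∑ i : Fin 4, ∑ z : ZMod (P : ℕ) × ZMod (P : ℕ),
      ∑ u : ZMod (q : ℕ) × ZMod (q : ℕ),
        |y (ggS i ⟨P, z⟩) (ggS i ⟨q, u⟩) - y ⟨P, z⟩ ⟨q, u⟩| ≤ 4 * (((P : ℕ) : ℝ) ^ 2 * (60 * θ)) := by
    rw [Finset.sum_comm]
    calc _ ≤ ∑ _i : Fin 4, (((P : ℕ) : ℝ) ^ 2 * (60 * θ)) := by
          refine Finset.sum_le_sum fun i _ => ?_
          rw [Finset.sum_comm]
          calc _ ≤ ∑ _z : ZMod (P : ℕ) × ZMod (P : ℕ), (60 * θ) := by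
                refine Finset.sum_le_sum fun z _ => ?_
                rw [← Finset.sum_sigma Q (fun q => Finset.univ)
                  (fun u => |y (ggS i ⟨P, z⟩) (ggS i u) - y ⟨P, z⟩ u|)]
                exact hvar i ⟨P, z⟩ _
            _ = _ := by rw [Finset.sum_const, nsmul_eq_mul, hcardP]
      _ = _ := by
          rw [Finset.sum_const, Finset.card_univ, Fintype.card_fin, nsmul_eq_mul]
          norm_num
  rw [← Finset.mul_sum] at hsum
  have hPpos : (0 : ℝ) < ((P : ℕ) : ℝ) ^ 2 := by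
    have : (0 : ℝ) < ((P : ℕ) : ℝ) := by exact_mod_cast P.2.pos
    positivity
  have hfin : ((P : ℕ) : ℝ) ^ 2 * (1 - 3 * θ) ≤ ((P : ℕ) : ℝ) ^ 2 * (3840 * θ) := by
    linarith
  have := le_of_mul_le_mul_left hfin hPpos
  linarith

end Vale.Agent.Lib.P090
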