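import Vale.Agent.Lib.P090.TwoDist

noncomputable section

namespace Vale.Agent.Lib.P090

/-- the quadratic form of the four maps -/
def ggQ (N : ℕ) [NeZero N] (f : ZMod N × ZMod N → ℝ) : ℝ :=
  ∑ i : Fin 4, ∑ z : ZMod N × ZMod N, (f (ggMap N i z) - f z) ^ 2

/-- the inequality on the Fourier side -/
def ggH (N : ℕ) [NeZero N] (κ : ℝ) : Prop :=
  ∀ G : ZMod N × ZMod N → ℝ, (∀ w, 0 ≤ G w) → G 0 = 0 →
    ∑ w : ZMod N × ZMod N,
      G w * (G (w.1, w.2 - 2 * w.1) * ‖(1 : ℂ) + ZMod.stdAddChar w.1‖ +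
        G (w.1 - 2 * w.2, w.2) * ‖(1 : ℂ) + ZMod.stdAddChar w.2‖) ≤ κ / 2 * ∑ w, G w ^ 2

/-- absolute value of the representative of least absolute value -/
def zabs {N : ℕ} (t : ZMod N) : ℕ := t.valMinAbs.natAbs

/-- the weights -/
def ggGam {N : ℕ} (a b : ZMod N) : ℝ :=
  if zabs b < zabs a then 8 / 7 else if zabs a < zabs b then 7 / 8 else 1

end Vale.Agent.Lib.P090
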