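import Vale.Agent.Lib.P090.GGDefs

noncomputable section

namespace Vale.Agent.Lib.P090

open ComplexConjugate

/-- the finite Fourier transform on the plane over `ZMod N` -/
def ggT (N : ℕ) [NeZero N] (g : ZMod N × ZMod N → ℝ) (w : ZMod N × ZMod N) : ℂ :=
  ∑ z : ZMod N × ZMod N, (g z : ℂ) * ZMod.stdAddChar (-(w.1 * z.1 + w.2 * z.2))

theorem ggMap_bijective (N : ℕ) [NeZero N] (i : Fin 4) : Function.Bijective (ggMap N i) := by
  rw [← Finite.injective_iff_bijective]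
  intro z z' h
  fin_cases i
  · simp only [ggMap, Prod.mk.injEq] at h
    obtain ⟨h1, h2⟩ := h
    rw [h2] at h1
    exact Prod.ext (add_right_cancel h1) h2
  · simp only [ggMap, Prod.mk.injEq] at h
    obtain ⟨h1, h2⟩ := h
    rw [h2] at h1
    exact Prod.ext (add_right_cancel (add_right_cancel h1)) h2
  · simp only [ggMap, Prod.mk.injEq] at h
    obtain ⟨h1, h2⟩ := h
    rw [h1] at h2
    exact Prod.ext h1 (add_right_cancel h2)
  · simp only [ggMap, Prod.mk.injEq] at h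
    obtain ⟨h1, h2⟩ := h
    rw [h1] at h2
    exact Prod.ext h1 (add_right_cancel (add_right_cancel h2))

theorem gg_orth (N : ℕ) [NeZero N] (a b : ZMod N) :
    ∑ w : ZMod N × ZMod N, (ZMod.stdAddChar (w.1 * a + w.2 * b) : ℂ) =
      if a = 0 ∧ b = 0 then (N : ℂ) ^ 2 else 0 := by
  rw [Fintype.sum_prod_type]
  simp only [AddChar.map_add_eq_mul]
  simp_rw [← Finset.mul_sum]
  rw [← Finset.sum_mul, AddChar.sum_mulShift a (ZMod.isPrimitive_stdAddChar N),
    AddChar.sum_mulShift b (ZMod.isPrimitive_stdAddChar N), ZMod.card]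
  by_cases ha : a = 0
  · by_cases hb : b = 0
    · simp [ha, hb, sq]
    · simp [ha, hb]
  · simp [ha]

theorem gg_parseval (N : ℕ) [NeZero N] (f h : ZMod N × ZMod N → ℝ) :
    ∑ w, conj (ggT N f w) * ggT N h w = (N : ℂ) ^ 2 * ∑ z, (f z : ℂ) * (h z : ℂ) := by
  have h1 : ∀ w, conj (ggT N f w) * ggT N h w =
      ∑ z, ∑ z', (f z : ℂ) * (h z' : ℂ) *
        ZMod.stdAddChar (w.1 * (z.1 - z'.1) + w.2 * (z.2 - z'.2)) := by
    intro w
    unfold ggT
    rw [map_sum, Finset.sum_mul_sum]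
    refine Finset.sum_congr rfl fun z _ => Finset.sum_congr rfl fun z' _ => ?_
    rw [map_mul, Complex.conj_ofReal, ← AddChar.map_neg_eq_conj, neg_neg]
    have : w.1 * (z.1 - z'.1) + w.2 * (z.2 - z'.2) =
        (w.1 * z.1 + w.2 * z.2) + (-(w.1 * z'.1 + w.2 * z'.2)) := by ring
    rw [this, AddChar.map_add_eq_mul _ (w.1 * z.1 + w.2 * z.2) (-(w.1 * z'.1 + w.2 * z'.2))]
    ring
  simp_rw [h1]
  rw [Finset.sum_comm]
  have h2 : ∀ z : ZMod N × ZMod N, ∑ w : ZMod N × ZMod N, ∑ z' : ZMod N × ZMod N,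
      (f z : ℂ) * (h z' : ℂ) * ZMod.stdAddChar (w.1 * (z.1 - z'.1) + w.2 * (z.2 - z'.2)) =
      (N : ℂ) ^ 2 * ((f z : ℂ) * (h z : ℂ)) := by
    intro z
    rw [Finset.sum_comm]
    simp_rw [← Finset.mul_sum, gg_orth]
    rw [Finset.sum_eq_single z]
    · simp
      ring
    · intro z' _ hz'
      have : ¬ (z.1 - z'.1 = 0 ∧ z.2 - z'.2 = 0) := by
        rintro ⟨ha, hb⟩
        exact hz' (Prod.ext (sub_eq_zero.mp ha).symm (sub_eq_zero.mp hb).symm)
      rw [if_neg this, mul_zero]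
    · intro hz
      exact absurd (Finset.mem_univ z) hz
  simp_rw [h2]
  rw [← Finset.mul_sum]

theorem ggT_map0 (N : ℕ) [NeZero N] (f : ZMod N × ZMod N → ℝ) (w : ZMod N × ZMod N) :
    ggT N (fun z => f (ggMap N 0 z)) w = ggT N f (w.1, w.2 - 2 * w.1) := by
  unfold ggT
  apply Fintype.sum_bijective (ggMap N 0) (ggMap_bijective N 0)
  intro z
  simp only [ggMap]
  congr 2
  ring

theorem ggT_map1 (N : ℕ) [NeZero N] (f : ZMod N × ZMod N → ℝ) (w : ZMod N × ZMod N) :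
    ggT N (fun z => f (ggMap N 1 z)) w =
      ggT N f (w.1, w.2 - 2 * w.1) * ZMod.stdAddChar w.1 := by
  unfold ggT
  rw [Finset.sum_mul]
  apply Fintype.sum_bijective (ggMap N 1) (ggMap_bijective N 1)
  intro z
  simp only [ggMap]
  rw [mul_assoc, ← AddChar.map_add_eq_mul]
  congr 2
  ring

theorem ggT_map2 (N : ℕ) [NeZero N] (f : ZMod N × ZMod N → ℝ) (w : ZMod N × ZMod N) :
    ggT N (fun z => f (ggMap N 2 z)) w = ggT N f (w.1 - 2 * w.2, w.2) := by
  unfold ggT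
  apply Fintype.sum_bijective (ggMap N 2) (ggMap_bijective N 2)
  intro z
  simp only [ggMap]
  congr 2
  ring

theorem ggT_map3 (N : ℕ) [NeZero N] (f : ZMod N × ZMod N → ℝ) (w : ZMod N × ZMod N) :
    ggT N (fun z => f (ggMap N 3 z)) w =
      ggT N f (w.1 - 2 * w.2, w.2) * ZMod.stdAddChar w.2 := by
  unfold ggT
  rw [Finset.sum_mul]
  apply Fintype.sum_bijective (ggMap N 3) (ggMap_bijective N 3)
  intro z
  simp only [ggMap]
  rw [mul_assoc, ← AddChar.map_add_eq_mul]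
  congr 2
  ring

theorem gg_norm_sq (N : ℕ) [NeZero N] (f : ZMod N × ZMod N → ℝ) :
    ∑ w, ‖ggT N f w‖ ^ 2 = (N : ℝ) ^ 2 * ∑ z, f z ^ 2 := by
  have h := gg_parseval N f f
  simp_rw [Complex.conj_mul'] at h
  have h2 : ((∑ w, ‖ggT N f w‖ ^ 2 : ℝ) : ℂ) = (((N : ℝ) ^ 2 * ∑ z, f z ^ 2 : ℝ) : ℂ) := by
    push_cast
    rw [h]
    congr 1
    refine Finset.sum_congr rfl fun z _ => ?_
    ring
  exact_mod_cast h2

theorem gg_cross (N : ℕ) [NeZero N] (κ : ℝ) (h : ggH N κ) (f : ZMod N × ZMod N → ℝ)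
    (hf : ∑ z, f z = 0) :
    ∑ i : Fin 4, ∑ z, f z * f (ggMap N i z) ≤ κ / 2 * ∑ z, f z ^ 2 := by
  set F := ggT N f with hF
  have hN : (0 : ℝ) < (N : ℝ) ^ 2 := by
    have : (0 : ℝ) < (N : ℝ) := by exact_mod_cast Nat.pos_of_ne_zero (NeZero.ne N)
    positivity
  have hF0 : F 0 = 0 := by
    rw [hF]
    unfold ggT
    simp only [Prod.fst_zero, Prod.snd_zero, zero_mul, add_zero, neg_zero,
      AddChar.map_zero_eq_one, mul_one]
    exact_mod_cast hf
  -- the cross term on the Fourier side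
  have h1 : (((N : ℝ) ^ 2 * ∑ i : Fin 4, ∑ z, f z * f (ggMap N i z) : ℝ) : ℂ) =
      ∑ w, conj (F w) * (F (w.1, w.2 - 2 * w.1) * (1 + ZMod.stdAddChar w.1) +
        F (w.1 - 2 * w.2, w.2) * (1 + ZMod.stdAddChar w.2)) := by
    have e0 := gg_parseval N f (fun z => f (ggMap N 0 z))
    have e1 := gg_parseval N f (fun z => f (ggMap N 1 z))
    have e2 := gg_parseval N f (fun z => f (ggMap N 2 z))
    have e3 := gg_parseval N f (fun z => f (ggMap N 3 z))
    simp_rw [ggT_map0] at e0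
    simp_rw [ggT_map1] at e1
    simp_rw [ggT_map2] at e2
    simp_rw [ggT_map3] at e3
    rw [Fin.sum_univ_four]
    push_cast
    rw [mul_add, mul_add, mul_add, ← e0, ← e1, ← e2, ← e3, ← Finset.sum_add_distrib,
      ← Finset.sum_add_distrib, ← Finset.sum_add_distrib]
    refine Finset.sum_congr rfl fun w _ => ?_
    ring
  have h2 : (N : ℝ) ^ 2 * ∑ i : Fin 4, ∑ z, f z * f (ggMap N i z) ≤
      ∑ w, ‖F w‖ * (‖F (w.1, w.2 - 2 * w.1)‖ * ‖(1 : ℂ) + ZMod.stdAddChar w.1‖ +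
        ‖F (w.1 - 2 * w.2, w.2)‖ * ‖(1 : ℂ) + ZMod.stdAddChar w.2‖) := by
    calc (N : ℝ) ^ 2 * ∑ i : Fin 4, ∑ z, f z * f (ggMap N i z)
        ≤ ‖(((N : ℝ) ^ 2 * ∑ i : Fin 4, ∑ z, f z * f (ggMap N i z) : ℝ) : ℂ)‖ := by
          rw [Complex.norm_real]
          exact le_abs_self _
      _ ≤ ∑ w, ‖conj (F w) * (F (w.1, w.2 - 2 * w.1) * (1 + ZMod.stdAddChar w.1) +
            F (w.1 - 2 * w.2, w.2) * (1 + ZMod.stdAddChar w.2))‖ := by
          rw [h1]
          exact norm_sum_le _ _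
      _ ≤ _ := by
          refine Finset.sum_le_sum fun w _ => ?_
          rw [norm_mul, RCLike.norm_conj]
          refine mul_le_mul_of_nonneg_left ?_ (norm_nonneg _)
          refine (norm_add_le _ _).trans ?_
          rw [norm_mul, norm_mul]
  have h3 := h (fun w => ‖F w‖) (fun w => norm_nonneg _) (by simp [hF0])
  have h4 := gg_norm_sq N f
  rw [← hF] at h4
  rw [h4] at h3
  have h5 : (N : ℝ) ^ 2 * ∑ i : Fin 4, ∑ z, f z * f (ggMap N i z) ≤
      (N : ℝ) ^ 2 * (κ / 2 * ∑ z, f z ^ 2) := by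
    calc _ ≤ _ := h2
      _ ≤ _ := h3
      _ = _ := by ring
  exact le_of_mul_le_mul_left h5 hN

theorem gg_fourier (N : ℕ) [NeZero N] (κ : ℝ) (h : ggH N κ) (f : ZMod N × ZMod N → ℝ)
    (hf : ∑ z, f z = 0) : (8 - κ) * ∑ z, f z ^ 2 ≤ ggQ N f := by
  have h1 := gg_cross N κ h f hf
  have h2 : ∀ i : Fin 4, ∑ z, (f (ggMap N i z) - f z) ^ 2 =
      2 * ∑ z, f z ^ 2 - 2 * ∑ z, f z * f (ggMap N i z) := by
    intro i
    have hb : ∑ z, f (ggMap N i z) ^ 2 = ∑ z, f z ^ 2 :=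
      Fintype.sum_bijective (ggMap N i) (ggMap_bijective N i) _ _ (fun z => rfl)
    have : ∀ z, (f (ggMap N i z) - f z) ^ 2 =
        f (ggMap N i z) ^ 2 + f z ^ 2 - 2 * (f z * f (ggMap N i z)) := by
      intro z
      ring
    simp_rw [this]
    rw [Finset.sum_sub_distrib, Finset.sum_add_distrib, hb, ← Finset.mul_sum]
    ring
  unfold ggQ
  simp_rw [h2]
  have h3 : ∑ i : Fin 4, 2 * ∑ z, f z * f (ggMap N i z) =
      2 * ∑ i : Fin 4, ∑ z, f z * f (ggMap N i z) := by rw [Finset.mul_sum]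
  rw [Finset.sum_sub_distrib, h3]
  simp only [Finset.sum_const, Finset.card_univ, Fintype.card_fin, nsmul_eq_mul]
  push_cast
  linarith

end Vale.Agent.Lib.P090
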