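import Vale.Agent.Lib.P090.GGBracket

noncomputable section

namespace Vale.Agent.Lib.P090

open Finset

theorem ggGam_pos {N : ℕ} (a b : ZMod N) : 0 < ggGam a b := by
  unfold ggGam
  split_ifs <;> norm_num

theorem ggGam_inv {N : ℕ} (a b : ZMod N) : ggGam b a = (ggGam a b)⁻¹ := by
  unfold ggGam
  rcases lt_trichotomy (zabs a) (zabs b) with h | h | h
  · rw [if_pos h, if_neg (by omega), if_pos h]
    norm_num
  · rw [if_neg (by omega), if_neg (by omega), if_neg (by omega), if_neg (by omega)]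
    norm_num
  · rw [if_neg (by omega), if_pos h, if_pos h]
    norm_num

theorem weighted_amgm (g x y : ℝ) (hg : 0 < g) : x * y ≤ (g * x ^ 2 + g⁻¹ * y ^ 2) / 2 := by
  have h1 : 0 ≤ (g * x - y) ^ 2 / g := by positivity
  have e : (g * x - y) ^ 2 / g = g * x ^ 2 - 2 * (x * y) + g⁻¹ * y ^ 2 := by
    field_simp
    ring
  linarith

/-- the shear in the second coordinate -/
def shear2 (N : ℕ) : ZMod N × ZMod N ≃ ZMod N × ZMod N where
  toFun w := (w.1, w.2 - 2 * w.1)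
  invFun v := (v.1, v.2 + 2 * v.1)
  left_inv w := by simp
  right_inv v := by simp

/-- the shear in the first coordinate -/
def shear1 (N : ℕ) : ZMod N × ZMod N ≃ ZMod N × ZMod N where
  toFun w := (w.1 - 2 * w.2, w.2)
  invFun v := (v.1 + 2 * v.2, v.2)
  left_inv w := by simp
  right_inv v := by simp

theorem gg_part2 (N : ℕ) [NeZero N] (G : ZMod N × ZMod N → ℝ) (R : ZMod N → ℝ)
    (hR : ∀ t, 0 ≤ R t) :
    ∑ w : ZMod N × ZMod N, G w * (G (w.1, w.2 - 2 * w.1) * R w.1) ≤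
      ∑ w : ZMod N × ZMod N, R w.1 / 2 *
        (ggGam w.2 (w.2 - 2 * w.1) + ggGam w.2 (w.2 + 2 * w.1)) * G w ^ 2 := by
  have step : ∀ w : ZMod N × ZMod N, G w * (G (w.1, w.2 - 2 * w.1) * R w.1) ≤
      R w.1 / 2 * ggGam w.2 (w.2 - 2 * w.1) * G w ^ 2 +
        R w.1 / 2 * ggGam (w.2 - 2 * w.1) w.2 * G (w.1, w.2 - 2 * w.1) ^ 2 := by
    intro w
    have h := weighted_amgm (ggGam w.2 (w.2 - 2 * w.1)) (G w) (G (w.1, w.2 - 2 * w.1))
      (ggGam_pos _ _)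
    rw [← ggGam_inv] at h
    have h2 := mul_le_mul_of_nonneg_left h (hR w.1)
    calc G w * (G (w.1, w.2 - 2 * w.1) * R w.1) = R w.1 * (G w * G (w.1, w.2 - 2 * w.1)) := by ring
      _ ≤ _ := h2
      _ = _ := by ring
  have re : ∑ w : ZMod N × ZMod N,
      R w.1 / 2 * ggGam (w.2 - 2 * w.1) w.2 * G (w.1, w.2 - 2 * w.1) ^ 2
      = ∑ v : ZMod N × ZMod N, R v.1 / 2 * ggGam v.2 (v.2 + 2 * v.1) * G v ^ 2 := by
    refine Eq.trans ?_ (Equiv.sum_comp (shear2 N)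
      (fun v => R v.1 / 2 * ggGam v.2 (v.2 + 2 * v.1) * G v ^ 2))
    refine sum_congr rfl (fun w _ => ?_)
    simp [shear2]
  calc ∑ w : ZMod N × ZMod N, G w * (G (w.1, w.2 - 2 * w.1) * R w.1)
      ≤ ∑ w : ZMod N × ZMod N, (R w.1 / 2 * ggGam w.2 (w.2 - 2 * w.1) * G w ^ 2 +
        R w.1 / 2 * ggGam (w.2 - 2 * w.1) w.2 * G (w.1, w.2 - 2 * w.1) ^ 2) :=
        sum_le_sum (fun w _ => step w)
    _ = _ := by
      rw [sum_add_distrib, re, ← sum_add_distrib]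
      refine sum_congr rfl (fun w _ => ?_)
      ring

theorem gg_part1 (N : ℕ) [NeZero N] (G : ZMod N × ZMod N → ℝ) (R : ZMod N → ℝ)
    (hR : ∀ t, 0 ≤ R t) :
    ∑ w : ZMod N × ZMod N, G w * (G (w.1 - 2 * w.2, w.2) * R w.2) ≤
      ∑ w : ZMod N × ZMod N, R w.2 / 2 *
        (ggGam w.1 (w.1 - 2 * w.2) + ggGam w.1 (w.1 + 2 * w.2)) * G w ^ 2 := by
  have step : ∀ w : ZMod N × ZMod N, G w * (G (w.1 - 2 * w.2, w.2) * R w.2) ≤
      R w.2 / 2 * ggGam w.1 (w.1 - 2 * w.2) * G w ^ 2 +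
        R w.2 / 2 * ggGam (w.1 - 2 * w.2) w.1 * G (w.1 - 2 * w.2, w.2) ^ 2 := by
    intro w
    have h := weighted_amgm (ggGam w.1 (w.1 - 2 * w.2)) (G w) (G (w.1 - 2 * w.2, w.2))
      (ggGam_pos _ _)
    rw [← ggGam_inv] at h
    have h2 := mul_le_mul_of_nonneg_left h (hR w.2)
    calc G w * (G (w.1 - 2 * w.2, w.2) * R w.2) = R w.2 * (G w * G (w.1 - 2 * w.2, w.2)) := by ring
      _ ≤ _ := h2
      _ = _ := by ring
  have re : ∑ w : ZMod N × ZMod N,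
      R w.2 / 2 * ggGam (w.1 - 2 * w.2) w.1 * G (w.1 - 2 * w.2, w.2) ^ 2
      = ∑ v : ZMod N × ZMod N, R v.2 / 2 * ggGam v.1 (v.1 + 2 * v.2) * G v ^ 2 := by
    refine Eq.trans ?_ (Equiv.sum_comp (shear1 N)
      (fun v => R v.2 / 2 * ggGam v.1 (v.1 + 2 * v.2) * G v ^ 2))
    refine sum_congr rfl (fun w _ => ?_)
    simp [shear1]
  calc ∑ w : ZMod N × ZMod N, G w * (G (w.1 - 2 * w.2, w.2) * R w.2)
      ≤ ∑ w : ZMod N × ZMod N, (R w.2 / 2 * ggGam w.1 (w.1 - 2 * w.2) * G w ^ 2 +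
        R w.2 / 2 * ggGam (w.1 - 2 * w.2) w.1 * G (w.1 - 2 * w.2, w.2) ^ 2) :=
        sum_le_sum (fun w _ => step w)
    _ = _ := by
      rw [sum_add_distrib, re, ← sum_add_distrib]
      refine sum_congr rfl (fun w _ => ?_)
      ring

theorem gg_H (N : ℕ) [NeZero N] : ggH N (63 / 8) := by
  intro G _ hG0
  have P2 := gg_part2 N G (fun t => ‖(1 : ℂ) + ZMod.stdAddChar t‖) (fun t => norm_nonneg _)
  have P1 := gg_part1 N G (fun t => ‖(1 : ℂ) + ZMod.stdAddChar t‖) (fun t => norm_nonneg _)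
  calc ∑ w : ZMod N × ZMod N,
      G w * (G (w.1, w.2 - 2 * w.1) * ‖(1 : ℂ) + ZMod.stdAddChar w.1‖ +
        G (w.1 - 2 * w.2, w.2) * ‖(1 : ℂ) + ZMod.stdAddChar w.2‖)
      = ∑ w : ZMod N × ZMod N, G w * (G (w.1, w.2 - 2 * w.1) * ‖(1 : ℂ) + ZMod.stdAddChar w.1‖) +
        ∑ w : ZMod N × ZMod N,
          G w * (G (w.1 - 2 * w.2, w.2) * ‖(1 : ℂ) + ZMod.stdAddChar w.2‖) := by
        rw [← sum_add_distrib]
        refine sum_congr rfl (fun w _ => ?_)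
        ring
    _ ≤ _ := add_le_add P2 P1
    _ = ∑ w : ZMod N × ZMod N, (‖(1 : ℂ) + ZMod.stdAddChar w.1‖ / 2 *
        (ggGam w.2 (w.2 - 2 * w.1) + ggGam w.2 (w.2 + 2 * w.1)) +
      ‖(1 : ℂ) + ZMod.stdAddChar w.2‖ / 2 *
        (ggGam w.1 (w.1 - 2 * w.2) + ggGam w.1 (w.1 + 2 * w.2))) * G w ^ 2 := by
        rw [← sum_add_distrib]
        refine sum_congr rfl (fun w _ => ?_)
        ring
    _ ≤ ∑ w : ZMod N × ZMod N, 63 / 16 * G w ^ 2 := by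
        refine sum_le_sum (fun w _ => ?_)
        by_cases hw : w = 0
        · rw [hw, hG0]
          simp
        · exact mul_le_mul_of_nonneg_right (gg_bracket N w hw) (sq_nonneg _)
    _ = 63 / 8 / 2 * ∑ w, G w ^ 2 := by
        rw [← mul_sum]
        norm_num

end Vale.Agent.Lib.P090
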