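import Vale.Agent.Lib.P090.GGFourier
import Vale.Agent.Lib.P090.GGWeights

noncomputable section

namespace Vale.Agent.Lib.P090

theorem gg_gap (N : ℕ) [NeZero N] (f : ZMod N × ZMod N → ℝ) (hf : ∑ z, f z = 0) :
    1 / 8 * ∑ z, f z ^ 2 ≤ ggQ N f := by
  have := gg_fourier N (63 / 8) (gg_H N) f hf
  norm_num at this ⊢
  linarith

/-- the Chinese remainder bijection between the plane over `ZMod (p * q)` and the product of the
planes over `ZMod p` and `ZMod q` -/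
def ggCRT (p q : ℕ) (hpq : Nat.Coprime p q) :
    ZMod (p * q) × ZMod (p * q) ≃ (ZMod p × ZMod p) × (ZMod q × ZMod q) :=
  ((ZMod.chineseRemainder hpq).toEquiv.prodCongr (ZMod.chineseRemainder hpq).toEquiv).trans
    (Equiv.prodProdProdComm _ _ _ _)

theorem ggCRT_apply (p q : ℕ) (hpq : Nat.Coprime p q) (z : ZMod (p * q) × ZMod (p * q)) :
    ggCRT p q hpq z = (((ZMod.chineseRemainder hpq z.1).1, (ZMod.chineseRemainder hpq z.2).1),
      ((ZMod.chineseRemainder hpq z.1).2, (ZMod.chineseRemainder hpq z.2).2)) := rfl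

theorem ggCRT_ggMap (p q : ℕ) (hpq : Nat.Coprime p q) (i : Fin 4)
    (z : ZMod (p * q) × ZMod (p * q)) :
    ggCRT p q hpq (ggMap (p * q) i z) =
      (ggMap p i (ggCRT p q hpq z).1, ggMap q i (ggCRT p q hpq z).2) := by
  fin_cases i <;>
    simp [ggCRT_apply, ggMap, map_add, map_mul, map_one, map_ofNat]

theorem gg_gap_prod (p q : ℕ) [NeZero p] [NeZero q] (hpq : Nat.Coprime p q)
    (Φ : (ZMod p × ZMod p) × (ZMod q × ZMod q) → ℝ) :
    1 / 8 * (∑ w, Φ w ^ 2 - (∑ w, Φ w) ^ 2 / ((p : ℝ) * q) ^ 2) ≤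
      ∑ i : Fin 4, ∑ w : (ZMod p × ZMod p) × (ZMod q × ZMod q),
        (Φ (ggMap p i w.1, ggMap q i w.2) - Φ w) ^ 2 := by
  have : NeZero (p * q) := ⟨Nat.mul_ne_zero (NeZero.ne p) (NeZero.ne q)⟩
  set E := ggCRT p q hpq with hE
  set n2 : ℝ := ((p : ℝ) * q) ^ 2 with hn2
  have hn2pos : 0 < n2 := by
    have hp : (0 : ℝ) < p := Nat.cast_pos.mpr (Nat.pos_of_ne_zero (NeZero.ne p))
    have hq : (0 : ℝ) < q := Nat.cast_pos.mpr (Nat.pos_of_ne_zero (NeZero.ne q))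
    positivity
  set S : ℝ := ∑ w, Φ w with hS
  set m : ℝ := S / n2 with hm
  have hcard : ((Fintype.card (ZMod (p * q) × ZMod (p * q)) : ℕ) : ℝ) = n2 := by
    rw [Fintype.card_prod, ZMod.card]
    push_cast
    ring
  have hsumE : ∑ z, Φ (E z) = S := Equiv.sum_comp E Φ
  have hsumE2 : ∑ z, Φ (E z) ^ 2 = ∑ w, Φ w ^ 2 := Equiv.sum_comp E (fun w => Φ w ^ 2)
  have hconst : ∀ c : ℝ, ∑ _z : ZMod (p * q) × ZMod (p * q), c = n2 * c := by
    intro c
    rw [Finset.sum_const, Finset.card_univ, nsmul_eq_mul, hcard]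
  have hmn : n2 * m = S := by
    rw [hm]; field_simp
  have hf0 : ∑ z, (fun z => Φ (E z) - m) z = 0 := by
    simp only [Finset.sum_sub_distrib, hsumE, hconst, hmn, sub_self]
  have key := gg_gap (p * q) (fun z => Φ (E z) - m) hf0
  have hleft : ∑ z, (fun z => Φ (E z) - m) z ^ 2 = ∑ w, Φ w ^ 2 - S ^ 2 / n2 := by
    have h1 : ∀ z, (fun z => Φ (E z) - m) z ^ 2 = Φ (E z) ^ 2 - 2 * m * Φ (E z) + m ^ 2 := by
      intro z; ring
    simp only [h1, Finset.sum_add_distrib, Finset.sum_sub_distrib, ← Finset.mul_sum, hsumE,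
      hsumE2, hconst]
    rw [hm]; field_simp; ring
  have hright : ggQ (p * q) (fun z => Φ (E z) - m) =
      ∑ i : Fin 4, ∑ w : (ZMod p × ZMod p) × (ZMod q × ZMod q),
        (Φ (ggMap p i w.1, ggMap q i w.2) - Φ w) ^ 2 := by
    unfold ggQ
    refine Finset.sum_congr rfl fun i _ => ?_
    rw [← Equiv.sum_comp E (fun w => (Φ (ggMap p i w.1, ggMap q i w.2) - Φ w) ^ 2)]
    refine Finset.sum_congr rfl fun z _ => ?_
    simp only [hE]
    rw [ggCRT_ggMap]
    ring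
  rw [hleft, hright] at key
  exact key

end Vale.Agent.Lib.P090
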