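import Vale.Agent.Lib.P090.HubTransfer

noncomputable section

namespace Vale.Agent.Lib.P090

section layers

variable {X ι J : Type*}

/-- the embedding of `X` as a layer -/
def layEmb (l : Option (ι × Bool)) : X ↪ X × Option (ι × Bool) :=
  ⟨fun x => (x, l), fun _ _ h => (Prod.ext_iff.1 h).1⟩

lemma layEmb_apply (l : Option (ι × Bool)) (x : X) : layEmb l x = (x, l) := rfl

lemma layerCls_eq_inl {col : X → J} {u : X × Option (ι × Bool)} {j : J}
    (h : layerCls col u = Sum.inl j) : u.2 = none ∧ col u.1 = j := by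
  rcases u with ⟨x, _ | e⟩
  · exact ⟨rfl, Sum.inl_injective h⟩
  · cases h

lemma layerCls_eq_inr {col : X → J} {u : X × Option (ι × Bool)} {e : ι × Bool}
    (h : layerCls col u = Sum.inr e) : u.2 = some e := by
  rcases u with ⟨x, _ | e'⟩
  · cases h
  · exact congrArg some (Sum.inr_injective h)

lemma adj_none_false (s : ι → X → X) (x x' : X) (i : ι) :
    (layerGraph s).Adj (x, none) (x', some (i, false)) ↔ x' = x := by
  simp [layerGraph, SimpleGraph.fromRel_adj]

lemma adj_false_true (s : ι → X → X) (x x' : X) (i : ι) :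
    (layerGraph s).Adj (x, some (i, false)) (x', some (i, true)) ↔ x' = x := by
  simp [layerGraph, SimpleGraph.fromRel_adj]

lemma adj_true_none (s : ι → X → X) (x x' : X) (i : ι) :
    (layerGraph s).Adj (x, some (i, true)) (x', none) ↔ x' = s i x := by
  simp [layerGraph, SimpleGraph.fromRel_adj]

end layers

section main

variable {X ι J : Type*} {s : ι → X → X} {col : X → J} {θ : ℝ}
  {F : Finset ((X × Option (ι × Bool)) ⊕ (J ⊕ ι × Bool) × Fin 3)}
  {c : ((X × Option (ι × Bool)) ⊕ (J ⊕ ι × Bool) × Fin 3) →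
    ((X × Option (ι × Bool)) ⊕ (J ⊕ ι × Bool) × Fin 3) → ℝ}

open Classical in
/-- the restriction of the coefficients to the colour class in the base layer -/
def gFun (col : X → J) (c : ((X × Option (ι × Bool)) ⊕ (J ⊕ ι × Bool) × Fin 3) →
    ((X × Option (ι × Bool)) ⊕ (J ⊕ ι × Bool) × Fin 3) → ℝ) (p u : X) : ℝ :=
  if col u = col p then c (Sum.inl (p, none)) (Sum.inl (u, none)) else 0

open Classical in
lemma sum_base (p : X) (S : Finset X) :
    ∑ w ∈ (S.filter (fun u => col u = col p)).map (layEmb none),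
      c (Sum.inl (p, none)) (Sum.inl w) = ∑ u ∈ S, gFun col c p u := by
  rw [Finset.sum_map, Finset.sum_filter]
  rfl

open Classical in
lemma sum_base_image (hs : ∀ i, Function.Injective (s i)) (i : ι) (p : X) (S : Finset X) :
    ∑ w ∈ ((S.image (s i)).filter (fun u => col u = col (s i p))).map (layEmb none),
      c (Sum.inl (s i p, none)) (Sum.inl w) = ∑ u ∈ S, gFun col c (s i p) (s i u) := by
  rw [sum_base, Finset.sum_image (fun a _ b _ hab => hs i hab)]

open Classical in
lemma HubCoeff.step01 (h : HubCoeff (layerGraph s) (layerCls (ι := ι) col) θ F c)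
    (i : ι) (p : X) (S : Finset X) :
    ∑ w ∈ (S.filter (fun u => col u = col p)).map (layEmb none),
      c (Sum.inl (p, none)) (Sum.inl w) ≤
    ∑ w ∈ S.map (layEmb (some (i, false))), c (Sum.inl (p, some (i, false))) (Sum.inl w)
      + 10 * θ := by
  apply h.transfer (v := (p, none)) (w := (p, some (i, false)))
  · exact (adj_none_false s p p i).2 rfl
  · intro e; cases e
  · intro u hu
    obtain ⟨x, hx, rfl⟩ := Finset.mem_map.1 hu
    exact congrArg Sum.inl (Finset.mem_filter.1 hx).2
  · intro u hu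
    obtain ⟨x, _, rfl⟩ := Finset.mem_map.1 hu
    rfl
  · intro b hb u _ hu hadj
    obtain ⟨x, hx, rfl⟩ := Finset.mem_map.1 hb
    rcases u with ⟨x', l⟩
    have hl : l = some (i, false) := layerCls_eq_inr hu
    subst hl
    have := (adj_none_false s x x' i).1 hadj
    subst this
    exact Finset.mem_map.2 ⟨_, (Finset.mem_filter.1 hx).1, rfl⟩

open Classical in
lemma HubCoeff.step10 (h : HubCoeff (layerGraph s) (layerCls (ι := ι) col) θ F c)
    (i : ι) (p : X) (S : Finset X) :
    ∑ w ∈ S.map (layEmb (some (i, false))), c (Sum.inl (p, some (i, false))) (Sum.inl w) ≤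
    ∑ w ∈ (S.filter (fun u => col u = col p)).map (layEmb none),
      c (Sum.inl (p, none)) (Sum.inl w) + 10 * θ := by
  apply h.transfer (v := (p, some (i, false))) (w := (p, none))
  · exact ((adj_none_false s p p i).2 rfl).symm
  · intro e; cases e
  · intro u hu
    obtain ⟨x, _, rfl⟩ := Finset.mem_map.1 hu
    rfl
  · intro u hu
    obtain ⟨x, hx, rfl⟩ := Finset.mem_map.1 hu
    exact congrArg Sum.inl (Finset.mem_filter.1 hx).2
  · intro b hb u _ hu hadj
    obtain ⟨x, hx, rfl⟩ := Finset.mem_map.1 hb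
    rcases u with ⟨x', l⟩
    obtain ⟨hl, hc⟩ := layerCls_eq_inl hu
    simp only at hl hc
    subst hl
    have := (adj_none_false s x' x i).1 hadj.symm
    subst this
    exact Finset.mem_map.2 ⟨_, Finset.mem_filter.2 ⟨hx, hc⟩, rfl⟩

lemma HubCoeff.step12 (h : HubCoeff (layerGraph s) (layerCls (ι := ι) col) θ F c)
    (i : ι) (p : X) (S : Finset X) :
    ∑ w ∈ S.map (layEmb (some (i, false))), c (Sum.inl (p, some (i, false))) (Sum.inl w) ≤
    ∑ w ∈ S.map (layEmb (some (i, true))), c (Sum.inl (p, some (i, true))) (Sum.inl w)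
      + 10 * θ := by
  apply h.transfer (v := (p, some (i, false))) (w := (p, some (i, true)))
  · exact (adj_false_true s p p i).2 rfl
  · intro e; cases e
  · intro u hu
    obtain ⟨x, _, rfl⟩ := Finset.mem_map.1 hu
    rfl
  · intro u hu
    obtain ⟨x, _, rfl⟩ := Finset.mem_map.1 hu
    rfl
  · intro b hb u _ hu hadj
    obtain ⟨x, hx, rfl⟩ := Finset.mem_map.1 hb
    rcases u with ⟨x', l⟩
    have hl : l = some (i, true) := layerCls_eq_inr hu
    subst hl
    have := (adj_false_true s x x' i).1 hadj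
    subst this
    exact Finset.mem_map.2 ⟨_, hx, rfl⟩

lemma HubCoeff.step21 (h : HubCoeff (layerGraph s) (layerCls (ι := ι) col) θ F c)
    (i : ι) (p : X) (S : Finset X) :
    ∑ w ∈ S.map (layEmb (some (i, true))), c (Sum.inl (p, some (i, true))) (Sum.inl w) ≤
    ∑ w ∈ S.map (layEmb (some (i, false))), c (Sum.inl (p, some (i, false))) (Sum.inl w)
      + 10 * θ := by
  apply h.transfer (v := (p, some (i, true))) (w := (p, some (i, false)))
  · exact ((adj_false_true s p p i).2 rfl).symm
  · intro e; cases e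
  · intro u hu
    obtain ⟨x, _, rfl⟩ := Finset.mem_map.1 hu
    rfl
  · intro u hu
    obtain ⟨x, _, rfl⟩ := Finset.mem_map.1 hu
    rfl
  · intro b hb u _ hu hadj
    obtain ⟨x, hx, rfl⟩ := Finset.mem_map.1 hb
    rcases u with ⟨x', l⟩
    have hl : l = some (i, false) := layerCls_eq_inr hu
    subst hl
    have := (adj_false_true s x' x i).1 hadj.symm
    subst this
    exact Finset.mem_map.2 ⟨_, hx, rfl⟩

open Classical in
lemma HubCoeff.step23 (h : HubCoeff (layerGraph s) (layerCls (ι := ι) col) θ F c)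
    (i : ι) (p : X) (S : Finset X) :
    ∑ w ∈ S.map (layEmb (some (i, true))), c (Sum.inl (p, some (i, true))) (Sum.inl w) ≤
    ∑ w ∈ ((S.image (s i)).filter (fun u => col u = col (s i p))).map (layEmb none),
      c (Sum.inl (s i p, none)) (Sum.inl w) + 10 * θ := by
  apply h.transfer (v := (p, some (i, true))) (w := (s i p, none))
  · exact (adj_true_none s p (s i p) i).2 rfl
  · intro e; cases e
  · intro u hu
    obtain ⟨x, _, rfl⟩ := Finset.mem_map.1 hu
    rfl
  · intro u hu
    obtain ⟨x, hx, rfl⟩ := Finset.mem_map.1 hu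
    exact congrArg Sum.inl (Finset.mem_filter.1 hx).2
  · intro b hb u _ hu hadj
    obtain ⟨x, hx, rfl⟩ := Finset.mem_map.1 hb
    rcases u with ⟨x', l⟩
    obtain ⟨hl, hc⟩ := layerCls_eq_inl hu
    simp only at hl hc
    subst hl
    have := (adj_true_none s x x' i).1 hadj
    subst this
    exact Finset.mem_map.2
      ⟨_, Finset.mem_filter.2 ⟨Finset.mem_image_of_mem _ hx, hc⟩, rfl⟩

open Classical in
lemma HubCoeff.step32 (h : HubCoeff (layerGraph s) (layerCls (ι := ι) col) θ F c)
    (hs : ∀ i, Function.Injective (s i)) (i : ι) (p : X) (S : Finset X) :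
    ∑ w ∈ ((S.image (s i)).filter (fun u => col u = col (s i p))).map (layEmb none),
      c (Sum.inl (s i p, none)) (Sum.inl w) ≤
    ∑ w ∈ S.map (layEmb (some (i, true))), c (Sum.inl (p, some (i, true))) (Sum.inl w)
      + 10 * θ := by
  apply h.transfer (v := (s i p, none)) (w := (p, some (i, true)))
  · exact ((adj_true_none s p (s i p) i).2 rfl).symm
  · intro e; cases e
  · intro u hu
    obtain ⟨x, hx, rfl⟩ := Finset.mem_map.1 hu
    exact congrArg Sum.inl (Finset.mem_filter.1 hx).2
  · intro u hu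
    obtain ⟨x, _, rfl⟩ := Finset.mem_map.1 hu
    rfl
  · intro b hb u _ hu hadj
    obtain ⟨x, hx, rfl⟩ := Finset.mem_map.1 hb
    obtain ⟨x0, hx0, rfl⟩ := Finset.mem_image.1 (Finset.mem_filter.1 hx).1
    rcases u with ⟨x', l⟩
    have hl : l = some (i, true) := layerCls_eq_inr hu
    subst hl
    have := hs i ((adj_true_none s x' (s i x0) i).1 hadj.symm)
    subst this
    exact Finset.mem_map.2 ⟨_, hx0, rfl⟩

lemma HubCoeff.fwd (h : HubCoeff (layerGraph s) (layerCls (ι := ι) col) θ F c)
    (hs : ∀ i, Function.Injective (s i)) (i : ι) (p : X) (S : Finset X) :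
    ∑ u ∈ S, gFun col c p u ≤ ∑ u ∈ S, gFun col c (s i p) (s i u) + 30 * θ := by
  have h1 := h.step01 i p S
  have h2 := h.step12 i p S
  have h3 := h.step23 i p S
  rw [sum_base] at h1
  rw [sum_base_image hs] at h3
  linarith

lemma HubCoeff.bwd (h : HubCoeff (layerGraph s) (layerCls (ι := ι) col) θ F c)
    (hs : ∀ i, Function.Injective (s i)) (i : ι) (p : X) (S : Finset X) :
    ∑ u ∈ S, gFun col c (s i p) (s i u) ≤ ∑ u ∈ S, gFun col c p u + 30 * θ := by
  have h1 := h.step10 i p S
  have h2 := h.step21 i p S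
  have h3 := h.step32 hs i p S
  rw [sum_base] at h1
  rw [sum_base_image hs] at h3
  linarith

lemma HubCoeff.sum_abs_le (h : HubCoeff (layerGraph s) (layerCls (ι := ι) col) θ F c)
    (hs : ∀ i, Function.Injective (s i)) (i : ι) (p : X) (S : Finset X) :
    ∑ u ∈ S, |gFun col c (s i p) (s i u) - gFun col c p u| ≤ 60 * θ := by
  classical
  have h1 := h.fwd hs i p (S.filter (fun u => gFun col c (s i p) (s i u) - gFun col c p u ≤ 0))
  have h2 := h.bwd hs i p
    (S.filter (fun u => ¬ gFun col c (s i p) (s i u) - gFun col c p u ≤ 0))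
  have e := Finset.sum_filter_add_sum_filter_not S
    (fun u => gFun col c (s i p) (s i u) - gFun col c p u ≤ 0)
    (fun u => |gFun col c (s i p) (s i u) - gFun col c p u|)
  have e1 : ∑ u ∈ S.filter (fun u => gFun col c (s i p) (s i u) - gFun col c p u ≤ 0),
      |gFun col c (s i p) (s i u) - gFun col c p u| =
      ∑ u ∈ S.filter (fun u => gFun col c (s i p) (s i u) - gFun col c p u ≤ 0),
        gFun col c p u -
      ∑ u ∈ S.filter (fun u => gFun col c (s i p) (s i u) - gFun col c p u ≤ 0),
        gFun col c (s i p) (s i u) := by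
    rw [← Finset.sum_sub_distrib]
    apply Finset.sum_congr rfl
    intro u hu
    rw [abs_of_nonpos (Finset.mem_filter.1 hu).2]
    ring
  have e2 : ∑ u ∈ S.filter (fun u => ¬ gFun col c (s i p) (s i u) - gFun col c p u ≤ 0),
      |gFun col c (s i p) (s i u) - gFun col c p u| =
      ∑ u ∈ S.filter (fun u => ¬ gFun col c (s i p) (s i u) - gFun col c p u ≤ 0),
        gFun col c (s i p) (s i u) -
      ∑ u ∈ S.filter (fun u => ¬ gFun col c (s i p) (s i u) - gFun col c p u ≤ 0),
        gFun col c p u := by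
    rw [← Finset.sum_sub_distrib]
    apply Finset.sum_congr rfl
    intro u hu
    rw [abs_of_pos (not_le.1 (Finset.mem_filter.1 hu).2)]
  rw [← e, e1, e2]
  linarith

end main

/-- From the coefficients on the layer space to almost equivariant families of measures. -/
theorem HubCoeff.almost_equivariant {X ι J : Type*} {s : ι → X → X}
    (hs : ∀ i, Function.Injective (s i)) {col : X → J} {θ : ℝ}
    {F : Finset ((X × Option (ι × Bool)) ⊕ (J ⊕ ι × Bool) × Fin 3)}
    {c : ((X × Option (ι × Bool)) ⊕ (J ⊕ ι × Bool) × Fin 3) →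
      ((X × Option (ι × Bool)) ⊕ (J ⊕ ι × Bool) × Fin 3) → ℝ}
    (h : HubCoeff (layerGraph s) (layerCls (ι := ι) col) θ F c) :
    ∃ (E : Finset X) (y : X → X → ℝ), (∀ p u, 0 ≤ y p u) ∧ (∀ p u, u ∉ E → y p u = 0) ∧
      (∀ p u, col u ≠ col p → y p u = 0) ∧ (∀ p, 1 - 3 * θ ≤ ∑ u ∈ E, y p u) ∧
      (∀ p, ∑ u ∈ E, y p u ≤ 1 + θ) ∧
      ∀ i p (S : Finset X), ∑ u ∈ S, |y (s i p) (s i u) - y p u| ≤ 60 * θ := by
  classical
  refine ⟨(F.toLeft).image Prod.fst, fun p u => max (gFun col c p u) 0, ?_, ?_, ?_, ?_, ?_, ?_⟩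
  · intro p u
    exact le_max_right _ _
  · intro p u hu
    have h0 : gFun col c p u = 0 := by
      unfold gFun
      split_ifs
      · apply h.supp
        intro hF
        exact hu (Finset.mem_image.2 ⟨(u, none), Finset.mem_toLeft.2 hF, rfl⟩)
      · rfl
    simp only [h0, max_self]
  · intro p u hu
    simp only [gFun, if_neg hu, max_self]
  · intro p
    have h1 := h.inside_ge (p, none)
      ((((F.toLeft).image Prod.fst).filter (fun u => col u = col p)).map (layEmb none)) ?_ ?_
    · rw [sum_base] at h1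
      exact h1.trans (Finset.sum_le_sum fun u _ => le_max_left _ _)
    · intro u huF hu
      rcases u with ⟨x, l⟩
      obtain ⟨hl, hc⟩ := layerCls_eq_inl hu
      simp only at hl hc
      subst hl
      exact Finset.mem_map.2 ⟨x, Finset.mem_filter.2
        ⟨Finset.mem_image.2 ⟨(x, none), Finset.mem_toLeft.2 huF, rfl⟩, hc⟩, rfl⟩
    · intro u hu
      obtain ⟨x, hx, rfl⟩ := Finset.mem_map.1 hu
      exact congrArg Sum.inl (Finset.mem_filter.1 hx).2
  · intro p
    have h1 := h.le_one_add (p, none)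
      (((((F.toLeft).image Prod.fst).filter (fun u => 0 < gFun col c p u)).filter
        (fun u => col u = col p)).map (layEmb none))
    rw [sum_base, Finset.sum_filter] at h1
    refine le_trans (le_of_eq ?_) h1
    apply Finset.sum_congr rfl
    intro u _
    by_cases h2 : 0 < gFun col c p u
    · rw [if_pos h2]
      exact max_eq_left h2.le
    · rw [if_neg h2]
      exact max_eq_right (not_lt.1 h2)
  · intro i p S
    refine le_trans (Finset.sum_le_sum fun u _ => ?_) (h.sum_abs_le hs i p S)
    exact abs_max_sub_max_le_abs _ _ _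

end Vale.Agent.Lib.P090
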