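import Vale.Agent.Lib.P090.Coeff
import Vale.Agent.Lib.P090.LayerEquiv
import Vale.Agent.Lib.P090.GGContra

noncomputable section

namespace Vale.Agent.Lib.P090

theorem gg_main (o : GGSpace) : ¬ HasBAP (1 + 1 / 4000) (LipFree GGSpace o) := by
  intro h
  obtain ⟨F, c, hc⟩ := exists_hubCoeff (layerGraph ggS) (layerCls (ι := Fin 4) ggCol) o
    (η := 1 / 4000) (θ := 1 / 3900) (by norm_num) (by norm_num) h
  obtain ⟨E, y, h0, hE, hcol, hmass, -, hvar⟩ := hc.almost_equivariant ggS_injective
  exact gg_no_almost_equivariant (by norm_num) E y h0 hE hcol hmass hvar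

end Vale.Agent.Lib.P090
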