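import Vale.Agent.Lib.P090.Trunc
import Vale.Agent.Lib.P090.CoeffProp

/-!
# Hair graphs

Given a graph `GX` on `X`, a type map `π : X → Q` and a length `ℓ`, the hair graph has the vertices
`(x, j)`, `j < ℓ`, and the hubs `z : Q`; edges: `(x, 0) - (x', 0)` for `x - x'` in `GX`,
`(x, j) - (x, j + 1)`, and `(x, ℓ - 1) - hub (π x)`.
-/

noncomputable section

namespace Vale.Agent.Lib.P090

/-- The hair graph. -/
def hairGraph {X Q : Type*} (GX : SimpleGraph X) (π : X → Q) (ℓ : ℕ) :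
    SimpleGraph (X × Fin ℓ ⊕ Q) where
  Adj a b :=
    match a, b with
    | Sum.inl p, Sum.inl p' =>
        (GX.Adj p.1 p'.1 ∧ (p.2 : ℕ) = 0 ∧ (p'.2 : ℕ) = 0) ∨
          (p.1 = p'.1 ∧ ((p.2 : ℕ) + 1 = p'.2 ∨ (p'.2 : ℕ) + 1 = p.2))
    | Sum.inl p, Sum.inr z => (p.2 : ℕ) + 1 = ℓ ∧ π p.1 = z
    | Sum.inr z, Sum.inl p => (p.2 : ℕ) + 1 = ℓ ∧ π p.1 = z
    | Sum.inr _, Sum.inr _ => False
  symm := ⟨by
    intro a b h
    rcases a with p | z <;> rcases b with p' | z'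
    · rcases h with ⟨h1, h2, h3⟩ | ⟨h1, h2⟩
      · exact Or.inl ⟨GX.adj_symm h1, h3, h2⟩
      · exact Or.inr ⟨h1.symm, h2.symm⟩
    · exact h
    · exact h
    · exact h⟩
  loopless := ⟨by
    intro a h
    rcases a with p | z
    · rcases h with ⟨h1, -, -⟩ | ⟨-, h2⟩
      · exact GX.loopless.irrefl _ h1
      · rcases h2 with h2 | h2 <;> omega
    · exact h⟩

/-- The hair space: the hair graph with its graph metric truncated at `W + 1`. -/
abbrev HairSpace {X Q : Type*} (GX : SimpleGraph X) (π : X → Q) (ℓ W : ℕ) : Type _ :=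
  TruncSpace (hairGraph GX π ℓ) W

/-- The cut-off function `max 0 (1 - r / W)`. -/
def cutoff (W r : ℕ) : ℝ := max 0 (1 - (r : ℝ) / W)

/-- The type of a point of `X ⊕ Q`. -/
def typ {X Q : Type*} (π : X → Q) : X ⊕ Q → Q := Sum.elim π id

/-- The type of a vertex of the hair graph. -/
def htyp {X Q : Type*} (π : X → Q) {ℓ : ℕ} : X × Fin ℓ ⊕ Q → Q := Sum.elim (fun p => π p.1) id

/-- The test function attached to `y` and to the weights `σ` of the classes. -/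
def hairPsi {X Q K : Type*} (π : X → Q) (ℓ W : ℕ) (ρ : X → Q → ℕ) (cl : X → X ⊕ Q → K)
    (σ : K → ℝ) (y : X) : X × Fin ℓ ⊕ Q → ℝ
  | Sum.inl p => cutoff W (ρ y (π p.1)) *
      (σ (cl y (Sum.inl p.1)) * (1 - (p.2 : ℝ) / ℓ) + σ (cl y (Sum.inr (π p.1))) * ((p.2 : ℝ) / ℓ))
  | Sum.inr z => cutoff W (ρ y z) * σ (cl y (Sum.inr z))

/-- Consequence of the coefficient property for the hair space, with the hubs as the finite set:
`c y` is the signed measure attached to the point `(y, 0)`.  A function `ψ` is admissible with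
constant `κ` if it changes by at most `κ` along the edges of the hair graph and has oscillation at
most `κ * (W + 1)`. -/
structure HairCoeff {X Q : Type*} (GX : SimpleGraph X) (π : X → Q) (ℓ W : ℕ) (L1 Lam : ℝ)
    (F : Finset (X × Fin ℓ ⊕ Q)) (c : X → X × Fin ℓ ⊕ Q → ℝ) : Prop where
  supp : ∀ y u, u ∉ F → c y u = 0
  edge : ∀ (ψ : X × Fin ℓ ⊕ Q → ℝ) (κ : ℝ), 0 ≤ κ →
    (∀ a b, (hairGraph GX π ℓ).Adj a b → |ψ a - ψ b| ≤ κ) →
    (∀ a b, |ψ a - ψ b| ≤ κ * ((W : ℝ) + 1)) →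
    ∀ y y', GX.Adj y y' → ∑ u ∈ F, (c y u - c y' u) * ψ u ≤ κ * L1
  hub : ∀ (ψ : X × Fin ℓ ⊕ Q → ℝ) (κ : ℝ), 0 ≤ κ →
    (∀ a b, (hairGraph GX π ℓ).Adj a b → |ψ a - ψ b| ≤ κ) →
    (∀ a b, |ψ a - ψ b| ≤ κ * ((W : ℝ) + 1)) →
    ∀ y, |∑ u ∈ F, c y u * ψ u - ψ (Sum.inr (π y))| ≤ κ * Lam

end Vale.Agent.Lib.P090
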