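import Vale.Agent.Lib.P090.Hair

noncomputable section

namespace Vale.Agent.Lib.P090

/-- The distance from `(y, j)` to the hub of `y` is at most `ℓ - j`. -/
theorem hair_dist_hub {X Q : Type*} (GX : SimpleGraph X) (π : X → Q) (ℓ W : ℕ) (y : X) :
    ∀ (k j : ℕ) (hj : j < ℓ), j + k + 1 = ℓ →
      truncDist (hairGraph GX π ℓ) W (Sum.inl (y, ⟨j, hj⟩)) (Sum.inr (π y)) ≤ (k : ℝ) + 1 := by
  intro k
  induction k with
  | zero =>
    intro j hj hjk
    have hadj : (hairGraph GX π ℓ).Adj (Sum.inl (y, ⟨j, hj⟩)) (Sum.inr (π y)) := by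
      refine ⟨?_, rfl⟩
      simpa using hjk
    have := truncDist_adj_le (hairGraph GX π ℓ) W hadj
    simpa using this
  | succ k ih =>
    intro j hj hjk
    have hj' : j + 1 < ℓ := by omega
    have hadj : (hairGraph GX π ℓ).Adj (Sum.inl (y, ⟨j, hj⟩)) (Sum.inl (y, ⟨j + 1, hj'⟩)) :=
      Or.inr ⟨rfl, Or.inl rfl⟩
    have h1 := truncDist_adj_le (hairGraph GX π ℓ) W hadj
    have h2 := ih (j + 1) hj' (by omega)
    have h3 := truncDist_triangle (hairGraph GX π ℓ) W (Sum.inl (y, ⟨j, hj⟩))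
      (Sum.inl (y, ⟨j + 1, hj'⟩)) (Sum.inr (π y))
    push_cast
    linarith

/-- Scaling: the inequalities of the coefficient property for admissible functions. -/
theorem admissible_test {V : Type*} (G : SimpleGraph V) (W : ℕ) {L1 δ : ℝ}
    (A F : Finset (TruncSpace G W)) (c : TruncSpace G W → TruncSpace G W → ℝ)
    (hmass : ∀ v, ∑ u ∈ F, c v u = 1)
    (htest : ∀ ψ : TruncSpace G W → ℝ, (∀ x y, |ψ x - ψ y| ≤ dist x y) →
      (∀ v w, ∑ u ∈ F, (c v u - c w u) * ψ u ≤ L1 * dist v w) ∧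
      (∀ a ∈ A, ∑ u ∈ F, c a u * ψ u - ψ a ≤ δ))
    (ψ : V → ℝ) (κ : ℝ) (hκ : 0 ≤ κ) (hedge : ∀ a b, G.Adj a b → |ψ a - ψ b| ≤ κ)
    (hosc : ∀ a b, |ψ a - ψ b| ≤ κ * ((W : ℝ) + 1)) :
    (∀ v w : V, ∑ u ∈ F, (c v u - c w u) * ψ u ≤ κ * (L1 * truncDist G W v w)) ∧
      (∀ a ∈ A, ∑ u ∈ F, c a u * ψ u - ψ a ≤ κ * δ) := by
  rcases hκ.eq_or_lt with h0 | hpos
  · -- `ψ` is constant
    have hconst : ∀ a b, ψ a = ψ b := by
      intro a b
      have := hosc a b
      rw [← h0, zero_mul] at this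
      have := abs_nonpos_iff.mp this
      linarith
    constructor
    · intro v w
      have : ∑ u ∈ F, (c v u - c w u) * ψ u = 0 := by
        calc ∑ u ∈ F, (c v u - c w u) * ψ u = ∑ u ∈ F, (c v u * ψ v - c w u * ψ v) := by
              refine Finset.sum_congr rfl fun u _ => ?_
              rw [hconst u v]; ring
          _ = (∑ u ∈ F, c v u) * ψ v - (∑ u ∈ F, c w u) * ψ v := by
              rw [Finset.sum_sub_distrib, Finset.sum_mul, Finset.sum_mul]
          _ = 0 := by rw [hmass v, hmass w]; ring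
      rw [this, ← h0, zero_mul]
    · intro a _
      have : ∑ u ∈ F, c a u * ψ u = ψ a := by
        calc ∑ u ∈ F, c a u * ψ u = ∑ u ∈ F, c a u * ψ a := by
              refine Finset.sum_congr rfl fun u _ => ?_
              rw [hconst u a]
          _ = (∑ u ∈ F, c a u) * ψ a := by rw [Finset.sum_mul]
          _ = ψ a := by rw [hmass a, one_mul]
      rw [this, ← h0, zero_mul, sub_self]
  · have hlip : ∀ x y : TruncSpace G W, |ψ x / κ - ψ y / κ| ≤ dist x y := by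
      intro x y
      rw [← sub_div, abs_div, abs_of_pos hpos, div_le_iff₀ hpos, truncSpace_dist, mul_comm]
      exact truncDist_lipschitz G W ψ κ hedge hosc x y
    obtain ⟨h1, h2⟩ := htest (fun x => ψ x / κ) hlip
    constructor
    · intro v w
      have := h1 v w
      have e : ∑ u ∈ F, (c v u - c w u) * ψ u = κ * ∑ u ∈ F, (c v u - c w u) * (ψ u / κ) := by
        rw [Finset.mul_sum]
        refine Finset.sum_congr rfl fun u _ => ?_
        field_simp
      rw [e]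
      exact mul_le_mul_of_nonneg_left this hκ
    · intro a ha
      have := h2 a ha
      have e : ∑ u ∈ F, c a u * ψ u - ψ a = κ * (∑ u ∈ F, c a u * (ψ u / κ) - ψ a / κ) := by
        rw [mul_sub, Finset.mul_sum]
        congr 1
        · refine Finset.sum_congr rfl fun u _ => ?_
          field_simp
        · field_simp
      rw [e]
      exact mul_le_mul_of_nonneg_left this hκ

/-- U5a. -/
theorem exists_hairCoeff {X Q : Type*} [Finite Q] (GX : SimpleGraph X) (π : X → Q) (ℓ W : ℕ)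
    (hℓ : 1 ≤ ℓ) {L δ : ℝ} (hL : 0 ≤ L) (hδ : 0 < δ) (h : CoeffProp (HairSpace GX π ℓ W) L) :
    ∃ F c, HairCoeff GX π ℓ W (L + δ) ((L + δ) * ℓ + δ) F c := by
  classical
  have : Fintype Q := Fintype.ofFinite Q
  let A : Finset (HairSpace GX π ℓ W) :=
    (Finset.univ : Finset Q).image (fun z => (Sum.inr z : X × Fin ℓ ⊕ Q))
  obtain ⟨F, c, hsupp, hmass, htest⟩ := h A δ hδ
  have hL1 : 0 ≤ L + δ := by linarith
  let b : X → X × Fin ℓ ⊕ Q := fun y => Sum.inl (y, ⟨0, hℓ⟩)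
  have hhub1 : ∀ (ψ : X × Fin ℓ ⊕ Q → ℝ) (κ : ℝ), 0 ≤ κ →
      (∀ a b, (hairGraph GX π ℓ).Adj a b → |ψ a - ψ b| ≤ κ) →
      (∀ a b, |ψ a - ψ b| ≤ κ * ((W : ℝ) + 1)) →
      ∀ y, ∑ u ∈ F, c (b y) u * ψ u - ψ (Sum.inr (π y)) ≤ κ * ((L + δ) * ℓ + δ) := by
    intro ψ κ hκ hedge hosc y
    obtain ⟨h1, h2⟩ := admissible_test (hairGraph GX π ℓ) W A F c hmass htest ψ κ hκ hedge hosc
    have h3 := h1 (b y) (Sum.inr (π y))
    have h4 := h2 (Sum.inr (π y)) (Finset.mem_image.mpr ⟨π y, Finset.mem_univ _, rfl⟩)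
    have h5 : truncDist (hairGraph GX π ℓ) W (b y) (Sum.inr (π y)) ≤ ℓ := by
      have := hair_dist_hub GX π ℓ W y (ℓ - 1) 0 hℓ (by omega)
      have e : ((ℓ - 1 : ℕ) : ℝ) + 1 = ℓ := by
        rw [Nat.cast_sub hℓ]; simp
      rwa [e] at this
    have e : ∑ u ∈ F, c (b y) u * ψ u - ψ (Sum.inr (π y)) =
        ∑ u ∈ F, (c (b y) u - c (Sum.inr (π y)) u) * ψ u +
          (∑ u ∈ F, c (Sum.inr (π y)) u * ψ u - ψ (Sum.inr (π y))) := by
      simp only [sub_mul, Finset.sum_sub_distrib]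
      ring
    rw [e]
    have h6 : κ * ((L + δ) * truncDist (hairGraph GX π ℓ) W (b y) (Sum.inr (π y))) ≤
        κ * ((L + δ) * ℓ) :=
      mul_le_mul_of_nonneg_left (mul_le_mul_of_nonneg_left h5 hL1) hκ
    calc _ ≤ κ * ((L + δ) * truncDist (hairGraph GX π ℓ) W (b y) (Sum.inr (π y))) + κ * δ :=
          add_le_add h3 h4
      _ ≤ κ * ((L + δ) * ℓ) + κ * δ := by linarith
      _ = κ * ((L + δ) * ℓ + δ) := by ring
  refine ⟨F, fun y => c (b y), ⟨fun y u hu => hsupp _ u hu, ?_, ?_⟩⟩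
  · intro ψ κ hκ hedge hosc y y' hyy'
    obtain ⟨h1, -⟩ := admissible_test (hairGraph GX π ℓ) W A F c hmass htest ψ κ hκ hedge hosc
    have h3 := h1 (b y) (b y')
    have hadj : (hairGraph GX π ℓ).Adj (b y) (b y') := Or.inl ⟨hyy', rfl, rfl⟩
    have h5 := truncDist_adj_le (hairGraph GX π ℓ) W hadj
    refine h3.trans ?_
    apply mul_le_mul_of_nonneg_left _ hκ
    calc (L + δ) * truncDist (hairGraph GX π ℓ) W (b y) (b y') ≤ (L + δ) * 1 :=
          mul_le_mul_of_nonneg_left h5 hL1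
      _ = L + δ := mul_one _
  · intro ψ κ hκ hedge hosc y
    rw [abs_le]
    constructor
    · have := hhub1 (fun u => -ψ u) κ hκ
        (fun a b hab => by
          have := hedge a b hab
          rwa [show -ψ a - -ψ b = -(ψ a - ψ b) by ring, abs_neg])
        (fun a b => by
          have := hosc a b
          rwa [show -ψ a - -ψ b = -(ψ a - ψ b) by ring, abs_neg]) y
      have e : ∑ u ∈ F, c (b y) u * -ψ u = -∑ u ∈ F, c (b y) u * ψ u := by
        rw [← Finset.sum_neg_distrib]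
        refine Finset.sum_congr rfl fun u _ => ?_
        ring
      have this' : ∑ u ∈ F, c (b y) u * -ψ u - -ψ (Sum.inr (π y)) ≤ κ * ((L + δ) * ℓ + δ) := this
      rw [e] at this'
      have key : -(κ * ((L + δ) * ℓ + δ)) ≤ ∑ u ∈ F, c (b y) u * ψ u - ψ (Sum.inr (π y)) := by
        linarith
      exact key
    · exact hhub1 ψ κ hκ hedge hosc y

end Vale.Agent.Lib.P090
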