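import Vale.Agent.Lib.P090.Hair

noncomputable section

namespace Vale.Agent.Lib.P090

/-! U5b.  Estimates for the test functions. -/

theorem cutoff_nonneg (W r : ℕ) : 0 ≤ cutoff W r := by
  unfold cutoff
  exact le_max_left _ _

theorem cutoff_le_one (W r : ℕ) : cutoff W r ≤ 1 := by
  unfold cutoff
  refine max_le zero_le_one ?_
  have : 0 ≤ (r : ℝ) / W := by positivity
  linarith

theorem cutoff_zero (W : ℕ) : cutoff W 0 = 1 := by
  unfold cutoff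
  simp

theorem cutoff_eq_zero {W r : ℕ} (hW : 1 ≤ W) (h : W ≤ r) : cutoff W r = 0 := by
  unfold cutoff
  refine max_eq_left ?_
  have hW' : (0 : ℝ) < W := by exact_mod_cast hW
  have h' : (W : ℝ) ≤ r := by exact_mod_cast h
  have : 1 ≤ (r : ℝ) / W := by
    rw [le_div_iff₀ hW']
    linarith
  linarith

private theorem cutoff_adj {W r r' : ℕ} (hW : 1 ≤ W) (h1 : r ≤ r' + 1) (h2 : r' ≤ r + 1) :
    |cutoff W r - cutoff W r'| ≤ 1 / W := by
  unfold cutoff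
  have hW' : (0 : ℝ) < W := by exact_mod_cast hW
  rw [max_comm 0, max_comm 0]
  refine (abs_max_sub_max_le_abs _ _ _).trans ?_
  have h1' : (r : ℝ) ≤ r' + 1 := by exact_mod_cast h1
  have h2' : (r' : ℝ) ≤ r + 1 := by exact_mod_cast h2
  have e : (1 - (r : ℝ) / W) - (1 - (r' : ℝ) / W) = ((r' : ℝ) - r) / W := by ring
  rw [e, abs_div, abs_of_pos hW']
  refine div_le_div_of_nonneg_right ?_ hW'.le
  rw [abs_le]
  constructor <;> linarith

private theorem cutoff_le_inv {W r : ℕ} (hW : 1 ≤ W) (h : W ≤ r + 1) : cutoff W r ≤ 1 / W := by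
  have h0 := cutoff_adj (W := W) (r := r) (r' := r + 1) hW (by omega) (by omega)
  rw [cutoff_eq_zero hW h, sub_zero] at h0
  exact (le_abs_self _).trans h0

private theorem key {W r r' : ℕ} (hW : 1 ≤ W) (h1 : r ≤ r' + 1) (h2 : r' ≤ r + 1) (B B' : ℝ)
    (hB : |B| ≤ 1) (hB' : |B'| ≤ 1) (hBB : r < W → r' < W → B = B') :
    |cutoff W r * B - cutoff W r' * B'| ≤ 1 / W := by
  have hW' : (0 : ℝ) < W := by exact_mod_cast hW
  by_cases hr : r < W
  · by_cases hr' : r' < W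
    · rw [← hBB hr hr', ← sub_mul, abs_mul]
      calc |cutoff W r - cutoff W r'| * |B| ≤ (1 / W) * 1 :=
            mul_le_mul (cutoff_adj hW h1 h2) hB (abs_nonneg _) (by positivity)
        _ = 1 / W := mul_one _
    · rw [cutoff_eq_zero hW (not_lt.mp hr'), zero_mul, sub_zero, abs_mul,
        abs_of_nonneg (cutoff_nonneg _ _)]
      calc cutoff W r * |B| ≤ (1 / W) * 1 :=
            mul_le_mul (cutoff_le_inv hW (by omega)) hB (abs_nonneg _) (by positivity)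
        _ = 1 / W := mul_one _
  · rw [cutoff_eq_zero hW (not_lt.mp hr), zero_mul, zero_sub, abs_neg, abs_mul,
      abs_of_nonneg (cutoff_nonneg _ _)]
    calc cutoff W r' * |B'| ≤ (1 / W) * 1 :=
          mul_le_mul (cutoff_le_inv hW (by omega)) hB' (abs_nonneg _) (by positivity)
      _ = 1 / W := mul_one _

private theorem bracket_abs_le (s1 s2 t : ℝ) (h1 : |s1| ≤ 1) (h2 : |s2| ≤ 1) (ht0 : 0 ≤ t)
    (ht1 : t ≤ 1) : |s1 * (1 - t) + s2 * t| ≤ 1 := by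
  rw [abs_le] at *
  constructor <;> nlinarith [h1.1, h1.2, h2.1, h2.2]

private theorem frac_mem {ℓ : ℕ} (j : Fin ℓ) : 0 ≤ ((j : ℕ) : ℝ) / ℓ ∧ ((j : ℕ) : ℝ) / ℓ ≤ 1 := by
  have hl : (0 : ℝ) < ℓ := by
    have := j.pos
    exact_mod_cast this
  refine ⟨by positivity, ?_⟩
  rw [div_le_one hl]
  exact_mod_cast j.isLt.le

variable {X Q K : Type*} {GX : SimpleGraph X} {π : X → Q} {ℓ W : ℕ}

theorem hairPsi_one (ρ : X → Q → ℕ) (cl : X → X ⊕ Q → K) (y : X) (a : X × Fin ℓ ⊕ Q) :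
    hairPsi π ℓ W ρ cl (fun _ => 1) y a = cutoff W (ρ y (htyp π a)) := by
  rcases a with p | z
  · simp only [hairPsi, htyp, Sum.elim_inl]
    ring
  · simp only [hairPsi, htyp, Sum.elim_inr, id, mul_one]

theorem hairPsi_one_edge (hW : 1 ≤ W) (ρ : X → Q → ℕ)
    (hρu : ∀ y u u', GX.Adj u u' → ρ y (π u) ≤ ρ y (π u') + 1) (cl : X → X ⊕ Q → K) (y : X)
    (a b : X × Fin ℓ ⊕ Q) (hab : (hairGraph GX π ℓ).Adj a b) :
    |hairPsi π ℓ W ρ cl (fun _ => 1) y a - hairPsi π ℓ W ρ cl (fun _ => 1) y b| ≤ 1 / W := by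
  rw [hairPsi_one, hairPsi_one]
  have hpos : (0 : ℝ) ≤ 1 / W := by positivity
  rcases a with p | z <;> rcases b with p' | z'
  · rcases hab with ⟨h1, -, -⟩ | ⟨h1, -⟩
    · exact cutoff_adj hW (hρu y _ _ h1) (hρu y _ _ (GX.adj_symm h1))
    · simp only [htyp, Sum.elim_inl, h1, sub_self, abs_zero]
      exact hpos
  · obtain ⟨-, h2⟩ := hab
    simp only [htyp, Sum.elim_inl, Sum.elim_inr, id, h2, sub_self, abs_zero]
    exact hpos
  · obtain ⟨-, h2⟩ := hab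
    simp only [htyp, Sum.elim_inl, Sum.elim_inr, id, h2, sub_self, abs_zero]
    exact hpos
  · exact hab.elim

theorem hairPsi_abs_le (ρ : X → Q → ℕ) (cl : X → X ⊕ Q → K) (σ : K → ℝ) (hσ : ∀ k, |σ k| ≤ 1)
    (y : X) (a : X × Fin ℓ ⊕ Q) : |hairPsi π ℓ W ρ cl σ y a| ≤ 1 := by
  rcases a with p | z
  · simp only [hairPsi]
    rw [abs_mul, abs_of_nonneg (cutoff_nonneg _ _)]
    calc _ ≤ (1 : ℝ) * 1 :=
          mul_le_mul (cutoff_le_one _ _)
            (bracket_abs_le _ _ _ (hσ _) (hσ _) (frac_mem p.2).1 (frac_mem p.2).2)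
            (abs_nonneg _) zero_le_one
      _ = 1 := mul_one _
  · simp only [hairPsi]
    rw [abs_mul, abs_of_nonneg (cutoff_nonneg _ _)]
    calc _ ≤ (1 : ℝ) * 1 := mul_le_mul (cutoff_le_one _ _) (hσ _) (abs_nonneg _) zero_le_one
      _ = 1 := mul_one _

private theorem hair_step (c s1 s2 l : ℝ) (hc0 : 0 ≤ c) (hc1 : c ≤ 1) (h1 : |s1| ≤ 1)
    (h2 : |s2| ≤ 1) (hl : 0 < l) : |c * ((s1 - s2) / l)| ≤ 2 / l := by
  rw [abs_mul, abs_of_nonneg hc0, abs_div, abs_of_pos hl]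
  have h3 : |s1 - s2| ≤ 2 := by
    rw [abs_le] at *
    constructor <;> linarith [h1.1, h1.2, h2.1, h2.2]
  calc c * (|s1 - s2| / l) ≤ 1 * (2 / l) :=
        mul_le_mul hc1 (div_le_div_of_nonneg_right h3 hl.le) (by positivity) zero_le_one
    _ = 2 / l := one_mul _

theorem hairPsi_edge (hℓ : 1 ≤ ℓ) (hW : ℓ ≤ W) (ρ : X → Q → ℕ)
    (hρu : ∀ y u u', GX.Adj u u' → ρ y (π u) ≤ ρ y (π u') + 1) (cl : X → X ⊕ Q → K)
    (hcl1 : ∀ y u u', GX.Adj u u' → ρ y (π u) < W → ρ y (π u') < W →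
      cl y (Sum.inl u) = cl y (Sum.inl u'))
    (σ : K → ℝ) (hσ : ∀ k, |σ k| ≤ 1) (y : X)
    (a b : X × Fin ℓ ⊕ Q) (hab : (hairGraph GX π ℓ).Adj a b) :
    |hairPsi π ℓ W ρ cl σ y a - hairPsi π ℓ W ρ cl σ y b| ≤ 2 / ℓ := by
  have hl : (0 : ℝ) < ℓ := by exact_mod_cast hℓ
  have hW1 : 1 ≤ W := hℓ.trans hW
  have hWl : (ℓ : ℝ) ≤ W := by exact_mod_cast hW
  have hWle : (1 : ℝ) / W ≤ 2 / ℓ := by
    calc (1 : ℝ) / W ≤ 1 / ℓ := one_div_le_one_div_of_le hl hWl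
      _ ≤ 2 / ℓ := div_le_div_of_nonneg_right (by norm_num) hl.le
  rcases a with p | z <;> rcases b with p' | z'
  · rcases hab with ⟨h1, h2, h3⟩ | ⟨h1, h2⟩
    · simp only [hairPsi, h2, h3, Nat.cast_zero, zero_div, sub_zero, mul_one, mul_zero, add_zero]
      refine le_trans ?_ hWle
      refine key hW1 (hρu y _ _ h1) (hρu y _ _ (GX.adj_symm h1)) _ _ (hσ _) (hσ _) ?_
      intro ha hb
      rw [hcl1 y _ _ h1 ha hb]
    · simp only [hairPsi, ← h1]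
      rcases h2 with h2 | h2
      · have e : ((p'.2 : ℕ) : ℝ) = (p.2 : ℕ) + 1 := by exact_mod_cast h2.symm
        rw [e]
        have := hair_step (cutoff W (ρ y (π p.1))) (σ (cl y (Sum.inl p.1)))
          (σ (cl y (Sum.inr (π p.1)))) ℓ (cutoff_nonneg _ _) (cutoff_le_one _ _) (hσ _) (hσ _) hl
        convert this using 2
        field_simp
        ring
      · have e : ((p.2 : ℕ) : ℝ) = (p'.2 : ℕ) + 1 := by exact_mod_cast h2.symm
        rw [e]
        have := hair_step (cutoff W (ρ y (π p.1))) (σ (cl y (Sum.inr (π p.1))))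
          (σ (cl y (Sum.inl p.1))) ℓ (cutoff_nonneg _ _) (cutoff_le_one _ _) (hσ _) (hσ _) hl
        convert this using 2
        field_simp
        ring
  · obtain ⟨h1, h2⟩ := hab
    simp only [hairPsi, ← h2]
    have e : ((p.2 : ℕ) : ℝ) = ℓ - 1 := by
      have : ((p.2 : ℕ) : ℝ) + 1 = ℓ := by exact_mod_cast h1
      linarith
    rw [e]
    have := hair_step (cutoff W (ρ y (π p.1))) (σ (cl y (Sum.inl p.1)))
      (σ (cl y (Sum.inr (π p.1)))) ℓ (cutoff_nonneg _ _) (cutoff_le_one _ _) (hσ _) (hσ _) hl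
    convert this using 2
    field_simp
    ring
  · obtain ⟨h1, h2⟩ := hab
    simp only [hairPsi, ← h2]
    have e : ((p'.2 : ℕ) : ℝ) = ℓ - 1 := by
      have : ((p'.2 : ℕ) : ℝ) + 1 = ℓ := by exact_mod_cast h1
      linarith
    rw [e]
    have := hair_step (cutoff W (ρ y (π p'.1))) (σ (cl y (Sum.inr (π p'.1))))
      (σ (cl y (Sum.inl p'.1))) ℓ (cutoff_nonneg _ _) (cutoff_le_one _ _) (hσ _) (hσ _) hl
    convert this using 2
    field_simp
    ring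
  · exact hab.elim

theorem hairPsi_diff (hW : 1 ≤ W) (ρ : X → Q → ℕ)
    (hρy : ∀ y y' z, GX.Adj y y' → ρ y z ≤ ρ y' z + 1) (cl : X → X ⊕ Q → K)
    (hcl2 : ∀ y y' u, GX.Adj y y' → ρ y (typ π u) < W → ρ y' (typ π u) < W → cl y u = cl y' u)
    (σ : K → ℝ) (hσ : ∀ k, |σ k| ≤ 1) (y y' : X) (hy : GX.Adj y y') (a : X × Fin ℓ ⊕ Q) :
    |hairPsi π ℓ W ρ cl σ y a - hairPsi π ℓ W ρ cl σ y' a| ≤ 1 / W := by
  rcases a with p | z
  · simp only [hairPsi]
    refine key hW (hρy _ _ _ hy) (hρy _ _ _ (GX.adj_symm hy)) _ _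
      (bracket_abs_le _ _ _ (hσ _) (hσ _) (frac_mem p.2).1 (frac_mem p.2).2)
      (bracket_abs_le _ _ _ (hσ _) (hσ _) (frac_mem p.2).1 (frac_mem p.2).2) ?_
    intro ha hb
    rw [hcl2 y y' (Sum.inl p.1) hy ha hb, hcl2 y y' (Sum.inr (π p.1)) hy ha hb]
  · simp only [hairPsi]
    refine key hW (hρy _ _ _ hy) (hρy _ _ _ (GX.adj_symm hy)) _ _ (hσ _) (hσ _) ?_
    intro ha hb
    rw [hcl2 y y' (Sum.inr z) hy ha hb]

end Vale.Agent.Lib.P090
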