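import Vale.Agent.Lib.P090.Criterion

/-!
# Coarsely Helly integer-valued metric spaces
-/

noncomputable section

namespace Vale.Agent.Lib.P090

variable {M : Type*} [MetricSpace M] {o : M}

/-- One-point-at-a-time extension with a non-accumulating additive error. -/
theorem exists_extension {T : Type*} [DecidableEq T] (Δ : T → T → ℕ)
    (hsymm : ∀ a b, Δ a b = Δ b a) (htri : ∀ a b c, Δ a c ≤ Δ a b + Δ b c) (ξ : ℕ)
    (hH : ∀ (n : ℕ) (c : Fin n → M) (r : Fin n → ℕ),
      (∀ i j, dist (c i) (c j) ≤ (r i : ℝ) + (r j : ℝ)) → ∃ z, ∀ i, dist z (c i) ≤ (r i : ℝ) + ξ)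
    (A : Finset T) (g : T → M)
    (hg : ∀ a ∈ A, ∀ b ∈ A, dist (g a) (g b) ≤ (Δ a b : ℝ) + 2 * ξ) (S : Finset T) :
    ∃ c : T → M, (∀ a ∈ A, c a = g a) ∧
      ∀ a ∈ A ∪ S, ∀ b ∈ A ∪ S, dist (c a) (c b) ≤ (Δ a b : ℝ) + 2 * ξ := by
  induction S using Finset.induction_on with
  | empty =>
    refine ⟨g, fun _ _ => rfl, fun a ha b hb => ?_⟩
    rw [Finset.union_empty] at ha hb
    exact hg a ha b hb
  | insert t S _ ih =>
    obtain ⟨c, hcA, hc⟩ := ih
    by_cases ht : t ∈ A ∪ S
    · refine ⟨c, hcA, fun a ha b hb => hc a ?_ b ?_⟩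
      · rw [Finset.union_insert, Finset.mem_insert] at ha
        rcases ha with rfl | ha
        · exact ht
        · exact ha
      · rw [Finset.union_insert, Finset.mem_insert] at hb
        rcases hb with rfl | hb
        · exact ht
        · exact hb
    · set U := A ∪ S with hU
      let e := U.equivFin
      obtain ⟨z, hz⟩ := hH U.card (fun i => c (e.symm i)) (fun i => Δ t (e.symm i) + ξ) (by
        intro i j
        have h1 := hc _ (e.symm i).2 _ (e.symm j).2
        have h2 : (Δ (e.symm i : T) (e.symm j : T) : ℝ) ≤ (Δ t (e.symm i) : ℝ) + (Δ t (e.symm j) : ℝ) := by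
          have := htri (e.symm i : T) t (e.symm j : T)
          rw [hsymm (e.symm i : T) t] at this
          exact_mod_cast this
        push_cast
        linarith)
      have hz' : ∀ a ∈ U, dist z (c a) ≤ (Δ t a : ℝ) + 2 * ξ := by
        intro a ha
        have := hz (e ⟨a, ha⟩)
        simp only [Equiv.symm_apply_apply] at this
        push_cast at this
        linarith
      have hne : ∀ a ∈ U, a ≠ t := fun a ha h => ht (h ▸ ha)
      refine ⟨Function.update c t z, fun a ha => ?_, fun a ha b hb => ?_⟩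
      · rw [Function.update_of_ne (hne a (Finset.mem_union_left _ ha))]
        exact hcA a ha
      · rw [Finset.union_insert, Finset.mem_insert] at ha hb
        rcases ha with rfl | ha <;> rcases hb with rfl | hb
        · rw [dist_self]; positivity
        · rw [Function.update_self, Function.update_of_ne (hne b hb)]
          exact hz' b hb
        · rw [Function.update_self, Function.update_of_ne (hne a ha), dist_comm, hsymm]
          exact hz' a ha
        · rw [Function.update_of_ne (hne a ha), Function.update_of_ne (hne b hb)]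
          exact hc a ha b hb

/-- In a coarsely Helly integer-valued metric space every finite set is fixed by a finite-range
self-map which increases distances by at most `2 ξ`. -/
theorem exists_map_of_coarseHelly (ξ : ℕ) (hint : ∀ x y : M, ∃ n : ℕ, dist x y = n)
    (hH : ∀ (n : ℕ) (c : Fin n → M) (r : Fin n → ℕ),
      (∀ i j, dist (c i) (c j) ≤ (r i : ℝ) + (r j : ℝ)) → ∃ z, ∀ i, dist z (c i) ≤ (r i : ℝ) + ξ)
    (o : M) (E : Finset M) :
    ∃ r : M → M, (Set.range r).Finite ∧ (∀ x ∈ E, r x = x) ∧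
      ∀ y z : M, dist (r y) (r z) ≤ dist y z + 2 * ξ := by
  classical
  -- integer distances
  set N : M → M → ℕ := fun x y => ⌊dist x y⌋₊ with hNdef
  have hN : ∀ x y, (N x y : ℝ) = dist x y := fun x y => by
    obtain ⟨n, hn⟩ := hint x y
    simp only [hNdef, hn, Nat.floor_natCast]
  have hNtri : ∀ x y z, N x z ≤ N x y + N y z := fun x y z => by
    have := dist_triangle x y z
    rw [← hN, ← hN, ← hN] at this
    exact_mod_cast this
  have hNcomm : ∀ x y, N x y = N y x := fun x y => by simp only [hNdef, dist_comm]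
  have hNself : ∀ x, N x x = 0 := fun x => by simp [hNdef]
  -- a bound for the diameter of `E`
  set D : ℕ := (E ×ˢ E).sup (fun p => N p.1 p.2) with hD
  have hDle : ∀ x ∈ E, ∀ y ∈ E, N x y ≤ D := fun x hx y hy =>
    Finset.le_sup (f := fun p : M × M => N p.1 p.2) (Finset.mk_mem_product hx hy)
  -- truncated types
  let T := (↥E → Fin (D + 1))
  let τ : M → T := fun y x => ⟨min (N y x) D, by omega⟩
  let Δ : T → T → ℕ := fun a b => Finset.univ.sup (fun x => Nat.dist (a x) (b x))
  have hΔle : ∀ (a b : T) (x : ↥E), Nat.dist (a x) (b x) ≤ Δ a b := fun a b x =>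
    Finset.le_sup (f := fun x => Nat.dist (a x) (b x)) (Finset.mem_univ x)
  have hsymm : ∀ a b, Δ a b = Δ b a := fun a b =>
    Finset.sup_congr rfl (fun x _ => Nat.dist_comm _ _)
  have htri : ∀ a b c, Δ a c ≤ Δ a b + Δ b c := fun a b c =>
    Finset.sup_le (fun x _ => (Nat.dist.triangle_inequality _ (b x) _).trans
      (add_le_add (hΔle a b x) (hΔle b c x)))
  have hΔself : ∀ a, Δ a a = 0 := fun a => by
    apply Nat.eq_zero_of_le_zero
    exact Finset.sup_le (fun x _ => by rw [Nat.dist_self])
  have hΔτ : ∀ y z, Δ (τ y) (τ z) ≤ N y z := fun y z =>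
    Finset.sup_le (fun x _ => by
      have h1 := hNtri y z x
      have h2 := hNtri z y x
      rw [hNcomm z y] at h2
      simp only [τ, Nat.dist]
      omega)
  have hΔE : ∀ x ∈ E, ∀ x' ∈ E, N x x' ≤ Δ (τ x) (τ x') := fun x hx x' hx' => by
    have h1 : Nat.dist (min (N x x') D) (min (N x' x') D) ≤ Δ (τ x) (τ x') :=
      hΔle (τ x) (τ x') ⟨x', hx'⟩
    have h2 := hDle x hx x' hx'
    have h3 := hNself x'
    rw [h3, min_eq_left h2, Nat.zero_min] at h1
    simpa [Nat.dist] using h1
  -- the partial map on the types of points of `E`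
  let g : T → M := fun a => if h : ∃ x ∈ E, τ x = a then Classical.choose h else o
  have hgτ : ∀ x ∈ E, g (τ x) = x := fun x hx => by
    have h : ∃ x' ∈ E, τ x' = τ x := ⟨x, hx, rfl⟩
    have hg : g (τ x) = Classical.choose h := dif_pos h
    obtain ⟨h1, h2⟩ := Classical.choose_spec h
    rw [hg]
    have h3 := hΔE _ h1 x hx
    rw [h2, hΔself] at h3
    have h4 : dist (Classical.choose h) x = 0 := by
      rw [← hN]
      exact_mod_cast Nat.eq_zero_of_le_zero h3
    exact dist_eq_zero.mp h4
  obtain ⟨c, hcA, hc⟩ := exists_extension Δ hsymm htri ξ hH (E.image τ) g (by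
    intro a ha b hb
    obtain ⟨x, hx, rfl⟩ := Finset.mem_image.mp ha
    obtain ⟨x', hx', rfl⟩ := Finset.mem_image.mp hb
    rw [hgτ x hx, hgτ x' hx', ← hN]
    have : (N x x' : ℝ) ≤ (Δ (τ x) (τ x') : ℝ) := by exact_mod_cast hΔE x hx x' hx'
    have h0 : (0 : ℝ) ≤ 2 * ξ := by positivity
    linarith) Finset.univ
  refine ⟨fun y => c (τ y), ?_, ?_, ?_⟩
  · exact (Set.finite_range c).subset (by rintro _ ⟨y, rfl⟩; exact ⟨τ y, rfl⟩)
  · intro x hx
    change c (τ x) = x
    rw [hcA _ (Finset.mem_image_of_mem _ hx), hgτ x hx]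
  · intro y z
    have h1 := hc (τ y) (by simp) (τ z) (by simp)
    have h2 : (Δ (τ y) (τ z) : ℝ) ≤ dist y z := by
      rw [← hN]; exact_mod_cast hΔτ y z
    linarith

/-- **Coarsely Helly spaces.**  Let `M` be a metric space with integer distances in which every
finite family of balls `B(c i, r i)`, with natural radii and `dist (c i) (c j) ≤ r i + r j`, is such
that the enlarged balls `B(c i, r i + ξ)` have a common point.  Then the Lipschitz-free space of `M`
has the `(1 + 2 ξ)`-bounded approximation property. -/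
theorem hasBAP_of_coarseHelly (ξ : ℕ) (hint : ∀ x y : M, ∃ n : ℕ, dist x y = n)
    (hH : ∀ (n : ℕ) (c : Fin n → M) (r : Fin n → ℕ),
      (∀ i j, dist (c i) (c j) ≤ (r i : ℝ) + (r j : ℝ)) → ∃ z, ∀ i, dist z (c i) ≤ (r i : ℝ) + ξ) :
    HasBAP (1 + 2 * ξ) (LipFree M o) := by
  refine hasBAP_of_maps (by positivity) (fun E => ?_)
  obtain ⟨r, hfin, hfix, hr⟩ := exists_map_of_coarseHelly ξ hint hH o E
  refine ⟨r, hfin, hfix, fun y z => ?_⟩
  rcases eq_or_ne y z with rfl | hyz
  · simp
  · have h1 : (1 : ℝ) ≤ dist y z := by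
      obtain ⟨n, hn⟩ := hint y z
      have hpos : 0 < dist y z := dist_pos.mpr hyz
      rw [hn] at hpos ⊢
      exact_mod_cast Nat.one_le_iff_ne_zero.mpr (by
        intro h0; rw [h0] at hpos; simp at hpos)
    have h2 : (2 * (ξ : ℝ)) * 1 ≤ 2 * ξ * dist y z :=
      mul_le_mul_of_nonneg_left h1 (by positivity)
    calc dist (r y) (r z) ≤ dist y z + 2 * ξ := hr y z
      _ ≤ (1 + 2 * ξ) * dist y z := by linarith

end Vale.Agent.Lib.P090
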