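import Vale.Agent.Lib.P090.Criterion

/-!
# Coarsely Helly uniformly discrete metric spaces (real radii)
-/

noncomputable section

set_option maxSynthPendingDepth 3

namespace Vale.Agent.Lib.P090

section scaling

variable {X : Type*} [NormedAddCommGroup X] [NormedSpace ℝ X]

/-- The set of constants `lam` for which `X` has the `lam`-BAP is closed from the right. -/
theorem hasBAP_of_forall_gt {lam : ℝ} (hlam : 0 ≤ lam) (h : ∀ lam' : ℝ, lam < lam' → HasBAP lam' X) :
    HasBAP lam X := by
  intro C hC ε hε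
  obtain ⟨B, hBpos, hB⟩ : ∃ B : ℝ, 0 < B ∧ ∀ u ∈ C, ‖u‖ ≤ B := by
    obtain ⟨B, hB⟩ := hC.isBounded.exists_norm_le
    exact ⟨max B 1, lt_max_of_lt_right one_pos, fun u hu => (hB u hu).trans (le_max_left _ _)⟩
  set η := ε / (2 * B) with hη
  have hηpos : 0 < η := by positivity
  have hl' : 0 < lam + η := by positivity
  obtain ⟨T, hTfin, hTnorm, hT⟩ := h (lam + η) (by linarith) C hC (ε / 2) (by positivity)
  refine ⟨(lam / (lam + η)) • T, ?_, ?_, ?_⟩
  · refine Submodule.finiteDimensional_of_le (S₂ := LinearMap.range (T : X →ₗ[ℝ] X)) ?_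
    rintro _ ⟨x, rfl⟩
    exact ⟨(lam / (lam + η)) • x, by simp⟩
  · rw [norm_smul, Real.norm_eq_abs, abs_of_nonneg (by positivity)]
    calc lam / (lam + η) * ‖T‖ ≤ lam / (lam + η) * (lam + η) := by gcongr
      _ = lam := by field_simp
  · intro u hu
    have h1 : ((lam / (lam + η)) • T) u - u = (T u - u) - (η / (lam + η)) • T u := by
      rw [_root_.smul_apply]
      have : lam / (lam + η) = 1 - η / (lam + η) := by field_simp; ring
      rw [this, sub_smul, one_smul]
      abel
    have h2 : ‖(η / (lam + η)) • T u‖ ≤ η * B := by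
      rw [norm_smul, Real.norm_eq_abs, abs_of_nonneg (by positivity)]
      calc η / (lam + η) * ‖T u‖ ≤ η / (lam + η) * ((lam + η) * B) := by
            gcongr
            exact (T.le_opNorm u).trans (mul_le_mul hTnorm (hB u hu) (norm_nonneg _) hl'.le)
        _ = η * B := by field_simp
    have h3 : η * B = ε / 2 := by rw [hη]; field_simp
    calc ‖((lam / (lam + η)) • T) u - u‖ = ‖(T u - u) - (η / (lam + η)) • T u‖ := by rw [h1]
      _ ≤ ‖T u - u‖ + ‖(η / (lam + η)) • T u‖ := norm_sub_le _ _
      _ < ε / 2 + ε / 2 := by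
          have := hT u hu
          linarith
      _ = ε := by ring

end scaling

variable {M : Type*} [MetricSpace M] {o : M}

/-- One-point-at-a-time extension with a non-accumulating additive error (real radii). -/
theorem exists_extension_real {T : Type*} [DecidableEq T] (Δ : T → T → ℝ)
    (hnn : ∀ a b, 0 ≤ Δ a b)
    (hsymm : ∀ a b, Δ a b = Δ b a) (htri : ∀ a b c, Δ a c ≤ Δ a b + Δ b c) (ξ : ℝ) (hξ : 0 ≤ ξ)
    (hH : ∀ (n : ℕ) (c : Fin n → M) (r : Fin n → ℝ), (∀ i, 0 ≤ r i) →
      (∀ i j, dist (c i) (c j) ≤ r i + r j) → ∃ z, ∀ i, dist z (c i) ≤ r i + ξ)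
    (A : Finset T) (g : T → M)
    (hg : ∀ a ∈ A, ∀ b ∈ A, dist (g a) (g b) ≤ Δ a b + 2 * ξ) (S : Finset T) :
    ∃ c : T → M, (∀ a ∈ A, c a = g a) ∧
      ∀ a ∈ A ∪ S, ∀ b ∈ A ∪ S, dist (c a) (c b) ≤ Δ a b + 2 * ξ := by
  induction S using Finset.induction_on with
  | empty =>
    refine ⟨g, fun _ _ => rfl, fun a ha b hb => ?_⟩
    rw [Finset.union_empty] at ha hb
    exact hg a ha b hb
  | insert t S _ ih =>
    obtain ⟨c, hcA, hc⟩ := ih
    by_cases ht : t ∈ A ∪ S
    · refine ⟨c, hcA, fun a ha b hb => hc a ?_ b ?_⟩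
      · rw [Finset.union_insert, Finset.mem_insert] at ha
        rcases ha with rfl | ha
        · exact ht
        · exact ha
      · rw [Finset.union_insert, Finset.mem_insert] at hb
        rcases hb with rfl | hb
        · exact ht
        · exact hb
    · set U := A ∪ S with hU
      let e := U.equivFin
      obtain ⟨z, hz⟩ := hH U.card (fun i => c (e.symm i)) (fun i => Δ t (e.symm i) + ξ)
        (fun i => add_nonneg (hnn _ _) hξ) (by
        intro i j
        have h1 := hc _ (e.symm i).2 _ (e.symm j).2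
        have h2 := htri (e.symm i : T) t (e.symm j : T)
        rw [hsymm (e.symm i : T) t] at h2
        linarith)
      have hz' : ∀ a ∈ U, dist z (c a) ≤ Δ t a + 2 * ξ := by
        intro a ha
        have := hz (e ⟨a, ha⟩)
        simp only [Equiv.symm_apply_apply] at this
        linarith
      have hne : ∀ a ∈ U, a ≠ t := fun a ha h => ht (h ▸ ha)
      refine ⟨Function.update c t z, fun a ha => ?_, fun a ha b hb => ?_⟩
      · rw [Function.update_of_ne (hne a (Finset.mem_union_left _ ha))]
        exact hcA a ha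
      · rw [Finset.union_insert, Finset.mem_insert] at ha hb
        rcases ha with rfl | ha <;> rcases hb with rfl | hb
        · rw [dist_self]
          exact add_nonneg (hnn _ _) (by positivity)
        · rw [Function.update_self, Function.update_of_ne (hne b hb)]
          exact hz' b hb
        · rw [Function.update_self, Function.update_of_ne (hne a ha), dist_comm, hsymm]
          exact hz' a ha
        · rw [Function.update_of_ne (hne a ha), Function.update_of_ne (hne b hb)]
          exact hc a ha b hb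

/-- In a coarsely Helly metric space every finite set is fixed by a finite-range self-map which
increases distances by at most `2 ξ + 2 η`, for any `η > 0`. -/
theorem exists_map_of_coarseHelly_real (ξ : ℝ) (hξ : 0 ≤ ξ)
    (hH : ∀ (n : ℕ) (c : Fin n → M) (r : Fin n → ℝ), (∀ i, 0 ≤ r i) →
      (∀ i j, dist (c i) (c j) ≤ r i + r j) → ∃ z, ∀ i, dist z (c i) ≤ r i + ξ)
    (o : M) (E : Finset M) (η : ℝ) (hη : 0 < η) :
    ∃ r : M → M, (Set.range r).Finite ∧ (∀ x ∈ E, r x = x) ∧
      ∀ y z : M, dist (r y) (r z) ≤ dist y z + 2 * ξ + 2 * η := by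
  classical
  -- a bound for the diameter of `E`
  obtain ⟨D, hD0, hD⟩ : ∃ D : ℝ, 0 ≤ D ∧ ∀ x ∈ E, ∀ y ∈ E, dist x y ≤ D := by
    obtain ⟨C, hC⟩ := Metric.isBounded_iff.mp E.finite_toSet.isBounded
    exact ⟨max C 0, le_max_right _ _, fun x hx y hy => (hC hx hy).trans (le_max_left _ _)⟩
  -- truncated distance vectors
  let τ : M → (↥E → ℝ) := fun y x => min (dist y x) D
  have hτlip : ∀ y z, dist (τ y) (τ z) ≤ dist y z := fun y z => by
    rw [dist_pi_le_iff dist_nonneg]
    intro x
    rw [Real.dist_eq]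
    have h1 : |min (dist y x) D - min (dist z x) D| ≤ |dist y x - dist z x| := by
      have := abs_min_sub_min_le_max (dist y x) D (dist z x) D
      simpa using this
    exact h1.trans (abs_dist_sub_le y z x)
  have hτE : ∀ x ∈ E, ∀ x' ∈ E, dist x x' ≤ dist (τ x) (τ x') := fun x hx x' hx' => by
    have h1 := dist_le_pi_dist (τ x) (τ x') ⟨x', hx'⟩
    have h2 : τ x ⟨x', hx'⟩ = dist x x' := min_eq_left (hD x hx x' hx')
    have h3 : τ x' ⟨x', hx'⟩ = 0 := by
      change min (dist x' x') D = 0
      rw [dist_self, min_eq_left hD0]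
    rw [h2, h3, Real.dist_eq, sub_zero, abs_of_nonneg dist_nonneg] at h1
    exact h1
  -- total boundedness
  have htb : TotallyBounded (Set.range τ) := by
    refine (totallyBounded_Icc (0 : ↥E → ℝ) (fun _ => D)).subset ?_
    rintro _ ⟨y, rfl⟩
    exact ⟨fun x => le_min dist_nonneg hD0, fun x => min_le_right _ _⟩
  obtain ⟨t, htsub, htfin, htcov⟩ := htb.exists_subset (Metric.dist_mem_uniformity hη)
  have hcov : ∀ y : M, ∃ v ∈ t, dist (τ y) v < η := by
    intro y
    have := htcov ⟨y, rfl⟩
    simp only [Set.mem_iUnion, Set.mem_ofPred_eq, exists_prop] at this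
    exact this
  choose vv hvt hvd using hcov
  -- one representative for each element of `t`
  let rep : (↥E → ℝ) → M := fun v => if h : v ∈ t then (htsub h).choose else o
  have hrep : ∀ v ∈ t, τ (rep v) = v := fun v hv => by
    have : rep v = (htsub hv).choose := dif_pos hv
    rw [this]
    exact (htsub hv).choose_spec
  let q : M → M := fun y => if y ∈ E then y else rep (vv y)
  have hqE : ∀ x ∈ E, q x = x := fun x hx => if_pos hx
  have hqd : ∀ y, dist (τ y) (τ (q y)) ≤ η := fun y => by
    by_cases hy : y ∈ E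
    · rw [hqE y hy, dist_self]; exact hη.le
    · have : q y = rep (vv y) := if_neg hy
      rw [this, hrep _ (hvt y)]
      exact (hvd y).le
  let Y : Finset M := htfin.toFinset.image rep
  have hqY : ∀ y, q y ∈ E ∪ Y := fun y => by
    by_cases hy : y ∈ E
    · rw [hqE y hy]; exact Finset.mem_union_left _ hy
    · have : q y = rep (vv y) := if_neg hy
      rw [this]
      exact Finset.mem_union_right _ (Finset.mem_image_of_mem _ (htfin.mem_toFinset.mpr (hvt y)))
  obtain ⟨c, hcA, hc⟩ := exists_extension_real (fun a b : M => dist (τ a) (τ b))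
    (fun _ _ => dist_nonneg) (fun _ _ => dist_comm _ _) (fun _ _ _ => dist_triangle _ _ _) ξ hξ hH
    E id (by
      intro a ha b hb
      have := hτE a ha b hb
      simp only [id]
      linarith) Y
  refine ⟨fun y => c (q y), ?_, ?_, ?_⟩
  · refine ((E ∪ Y).finite_toSet.image c).subset ?_
    rintro _ ⟨y, rfl⟩
    exact ⟨q y, hqY y, rfl⟩
  · intro x hx
    change c (q x) = x
    rw [hqE x hx, hcA x hx]
    rfl
  · intro y z
    have h1 := hc (q y) (hqY y) (q z) (hqY z)
    have h2 : dist (τ (q y)) (τ (q z)) ≤ dist (τ (q y)) (τ y) + dist (τ y) (τ z) + dist (τ z) (τ (q z)) :=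
      dist_triangle4 _ _ _ _
    have h3 := hqd y
    have h4 := hqd z
    have h5 := hτlip y z
    rw [dist_comm (τ y) (τ (q y))] at h3
    linarith

/-- **Coarsely Helly uniformly discrete spaces (real radii).**  Let `M` be a metric space whose
non-zero distances are at least `θ > 0` and such that for every finite family of balls
`B(c i, r i)` with `dist (c i) (c j) ≤ r i + r j` the balls `B(c i, r i + ξ)` have a common point.
Then the Lipschitz-free space of `M` has the `(1 + 2 ξ / θ)`-bounded approximation property. -/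
theorem hasBAP_of_coarseHelly_real (θ ξ : ℝ) (hθ : 0 < θ) (hξ : 0 ≤ ξ)
    (hsep : ∀ x y : M, x ≠ y → θ ≤ dist x y)
    (hH : ∀ (n : ℕ) (c : Fin n → M) (r : Fin n → ℝ), (∀ i, 0 ≤ r i) →
      (∀ i j, dist (c i) (c j) ≤ r i + r j) → ∃ z, ∀ i, dist z (c i) ≤ r i + ξ) :
    HasBAP (1 + 2 * ξ / θ) (LipFree M o) := by
  refine hasBAP_of_forall_gt (by positivity) (fun lam' hlam' => ?_)
  set η := (lam' - (1 + 2 * ξ / θ)) * θ / 2 with hη
  have hηpos : 0 < η := by
    have : 0 < lam' - (1 + 2 * ξ / θ) := by linarith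
    positivity
  have hlam'eq : lam' = 1 + (2 * ξ + 2 * η) / θ := by
    rw [hη]; field_simp; ring
  have hlam'0 : 0 ≤ lam' := by rw [hlam'eq]; positivity
  refine hasBAP_of_maps hlam'0 (fun E => ?_)
  obtain ⟨r, hfin, hfix, hr⟩ := exists_map_of_coarseHelly_real ξ hξ hH o E η hηpos
  refine ⟨r, hfin, hfix, fun y z => ?_⟩
  rcases eq_or_ne y z with rfl | hyz
  · simp
  · have h1 : θ ≤ dist y z := hsep y z hyz
    have h2 : 2 * ξ + 2 * η ≤ (2 * ξ + 2 * η) / θ * dist y z := by
      rw [div_mul_eq_mul_div, le_div_iff₀ hθ]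
      exact mul_le_mul_of_nonneg_left h1 (by positivity)
    calc dist (r y) (r z) ≤ dist y z + 2 * ξ + 2 * η := hr y z
      _ ≤ lam' * dist y z := by rw [hlam'eq]; linarith

/-- A roughly geodesic metric space satisfying the four-point inequality with additive constant `κ`
is coarsely Helly with constant `κ + σ`. -/
theorem coarseHelly_of_hyperbolic_real (κ σ : ℝ) (o : M)
    (hgeo : ∀ (x y : M) (s : ℝ), 0 ≤ s → s ≤ dist x y →
      ∃ p, dist x p ≤ s + σ ∧ dist p y ≤ dist x y - s + σ)
    (hhyp : ∀ x y z w : M,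
      dist x y + dist z w ≤ max (dist x z + dist y w) (dist x w + dist y z) + κ)
    (hκσ : 0 ≤ κ + σ)
    (n : ℕ) (c : Fin n → M) (r : Fin n → ℝ) (hr : ∀ i, 0 ≤ r i)
    (hpair : ∀ i j, dist (c i) (c j) ≤ r i + r j) :
    ∃ z, ∀ i, dist z (c i) ≤ r i + (κ + σ) := by
  classical
  rcases Nat.eq_zero_or_pos n with rfl | hn
  · exact ⟨o, fun i => i.elim0⟩
  · have : Nonempty (Fin n) := ⟨⟨0, hn⟩⟩
    obtain ⟨i0, -, hmax⟩ := Finset.exists_max_image (Finset.univ : Finset (Fin n))
      (fun i => dist o (c i) - r i) Finset.univ_nonempty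
    by_cases hm : dist o (c i0) - r i0 ≤ 0
    · refine ⟨o, fun i => ?_⟩
      have := hmax i (Finset.mem_univ i)
      linarith
    · rw [not_le] at hm
      obtain ⟨p, hp1, hp2⟩ := hgeo (c i0) o (r i0) (hr i0) (by rw [dist_comm]; linarith)
      refine ⟨p, fun i => ?_⟩
      have h4 := hhyp p (c i) o (c i0)
      have hmaxi := hmax i (Finset.mem_univ i)
      have hpi := hpair i i0
      rw [dist_comm (c i0) p] at hp1
      rw [dist_comm (c i0) o] at hp2
      rw [dist_comm (c i) o] at h4
      rcases le_total (dist p o + dist (c i) (c i0)) (dist p (c i0) + dist o (c i)) with h | h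
      · rw [max_eq_right h] at h4
        linarith
      · rw [max_eq_left h] at h4
        linarith

/-- **Uniformly discrete, roughly geodesic, Gromov hyperbolic spaces.** -/
theorem hasBAP_of_hyperbolic_real (θ κ σ : ℝ) (hθ : 0 < θ) (hκσ : 0 ≤ κ + σ)
    (hsep : ∀ x y : M, x ≠ y → θ ≤ dist x y)
    (hgeo : ∀ (x y : M) (s : ℝ), 0 ≤ s → s ≤ dist x y →
      ∃ p, dist x p ≤ s + σ ∧ dist p y ≤ dist x y - s + σ)
    (hhyp : ∀ x y z w : M,
      dist x y + dist z w ≤ max (dist x z + dist y w) (dist x w + dist y z) + κ) :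
    HasBAP (1 + 2 * (κ + σ) / θ) (LipFree M o) :=
  hasBAP_of_coarseHelly_real θ (κ + σ) hθ hκσ hsep
    (coarseHelly_of_hyperbolic_real κ σ o hgeo hhyp hκσ)

end Vale.Agent.Lib.P090
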