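import Vale.Agent.Lib.P090.HubDefs

noncomputable section

namespace Vale.Agent.Lib.P090

variable {V₀ K : Type*} {G₀ : SimpleGraph V₀} {cls : V₀ → K} {θ : ℝ}
  {F : Finset (V₀ ⊕ K × Fin 3)} {c : (V₀ ⊕ K × Fin 3) → (V₀ ⊕ K × Fin 3) → ℝ}

/-- membership of a vertex of the hub graph in the class `k` -/
def InCls (cls : V₀ → K) (k : K) (u : V₀ ⊕ K × Fin 3) : Prop :=
  ∃ u0, u = Sum.inl u0 ∧ cls u0 = k

open Classical in
/-- the positive part of `f` outside the class `k` -/
def outPos (cls : V₀ → K) (k : K) (f : V₀ ⊕ K × Fin 3 → ℝ) (u : V₀ ⊕ K × Fin 3) : ℝ :=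
  if InCls cls k u then 0 else max (f u) 0

open Classical in
/-- the first test function: `0` at the hub, `2` on the positive set outside the class -/
def psiHub (cls : V₀ → K) (k : K) (f : V₀ ⊕ K × Fin 3 → ℝ) (a u : V₀ ⊕ K × Fin 3) : ℝ :=
  if u = a then 0 else if 0 < f u ∧ ¬ InCls cls k u then 2 else 1

open Classical in
/-- the second test function: the indicator of the positive set minus a hub -/
def psiPos (f : V₀ ⊕ K × Fin 3 → ℝ) (a u : V₀ ⊕ K × Fin 3) : ℝ :=
  if 0 < f u ∧ u ≠ a then 1 else 0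

lemma outPos_nonneg (k : K) (f : V₀ ⊕ K × Fin 3 → ℝ) (u : V₀ ⊕ K × Fin 3) :
    0 ≤ outPos cls k f u := by
  unfold outPos
  split_ifs
  · exact le_rfl
  · exact le_max_right _ _

lemma outPos_inr (k : K) (f : V₀ ⊕ K × Fin 3 → ℝ) (a : K × Fin 3) :
    outPos cls k f (Sum.inr a) = max (f (Sum.inr a)) 0 := by
  unfold outPos
  rw [if_neg]
  rintro ⟨u0, h, _⟩
  cases h

lemma outPos_eq_zero (k : K) (f : V₀ ⊕ K × Fin 3 → ℝ) {u : V₀ ⊕ K × Fin 3} (h : f u = 0) :
    outPos cls k f u = 0 := by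
  unfold outPos
  split_ifs
  · rfl
  · rw [h]; simp

lemma le_outPos (k : K) (f : V₀ ⊕ K × Fin 3 → ℝ) {u : V₀ ⊕ K × Fin 3}
    (h : ¬ InCls cls k u) : f u ≤ outPos cls k f u := by
  unfold outPos
  rw [if_neg h]
  exact le_max_left _ _

open Classical in
lemma mul_psiHub (k : K) (f : V₀ ⊕ K × Fin 3 → ℝ) (a u : V₀ ⊕ K × Fin 3) :
    f u * psiHub cls k f a u =
      f u + outPos cls k f u + (if u = a then - f u - outPos cls k f u else 0) := by
  classical
  unfold psiHub outPos
  by_cases h1 : u = a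
  · simp only [if_pos h1]
    ring
  · simp only [if_neg h1]
    by_cases h2 : InCls cls k u
    · simp [h2]
    · by_cases h3 : 0 < f u
      · simp only [h2, h3, not_false_eq_true, and_self, if_true, if_false, max_eq_left h3.le]
        ring
      · simp only [h2, h3, false_and, if_false, max_eq_right (not_lt.1 h3)]
        ring

lemma graphTest_psiHub (G₀ : SimpleGraph V₀) (k : K) (f : V₀ ⊕ K × Fin 3 → ℝ) (j : Fin 3) :
    GraphTest (hubGraph G₀ cls) (psiHub cls k f (Sum.inr (k, j))) := by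
  classical
  have hval : ∀ u, psiHub cls k f (Sum.inr (k, j)) u = 0 ∨
      psiHub cls k f (Sum.inr (k, j)) u = 1 ∨ psiHub cls k f (Sum.inr (k, j)) u = 2 := by
    intro u
    unfold psiHub
    split_ifs <;> simp
  have hzero : ∀ u, psiHub cls k f (Sum.inr (k, j)) u = 0 → u = Sum.inr (k, j) := by
    intro u hu
    unfold psiHub at hu
    split_ifs at hu with h1 h2
    · exact h1
    · norm_num at hu
    · norm_num at hu
  have htwo : ∀ u, psiHub cls k f (Sum.inr (k, j)) u = 2 → ¬ InCls cls k u := by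
    intro u hu
    unfold psiHub at hu
    split_ifs at hu with h1 h2
    · norm_num at hu
    · exact h2.2
    · norm_num at hu
  have hbad : ∀ u w, (hubGraph G₀ cls).Adj u w → psiHub cls k f (Sum.inr (k, j)) u = 0 →
      psiHub cls k f (Sum.inr (k, j)) w = 2 → False := by
    intro u w hadj hu hw
    have e := hzero u hu
    subst e
    rcases w with w0 | b
    · exact htwo _ hw ⟨w0, rfl, hadj⟩
    · exact hadj
  refine ⟨fun u => ?_, fun u w hadj => ?_⟩
  · rcases hval u with h | h | h <;> rw [h] <;> norm_num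
  · rcases hval u with h | h | h <;> rcases hval w with h' | h' | h'
    · rw [h, h']; norm_num
    · rw [h, h']; norm_num
    · exact (hbad u w hadj h h').elim
    · rw [h, h']; norm_num
    · rw [h, h']; norm_num
    · rw [h, h']; norm_num
    · exact (hbad w u hadj.symm h' h).elim
    · rw [h, h']; norm_num
    · rw [h, h']; norm_num

lemma graphTest_psiPos (G : SimpleGraph (V₀ ⊕ K × Fin 3)) (f : V₀ ⊕ K × Fin 3 → ℝ)
    (a : V₀ ⊕ K × Fin 3) : GraphTest G (psiPos f a) := by
  classical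
  have hval : ∀ u, psiPos f a u = 0 ∨ psiPos f a u = 1 := by
    intro u
    unfold psiPos
    split_ifs <;> simp
  refine ⟨fun u => ?_, fun u w _ => ?_⟩
  · rcases hval u with h | h <;> rw [h] <;> norm_num
  · rcases hval u with h | h <;> rcases hval w with h' | h' <;> rw [h, h'] <;> norm_num

/-- sums over non-hub vertices are dominated by sums over `F` -/
lemma sum_inl_le {q : V₀ ⊕ K × Fin 3 → ℝ} (hq : ∀ u, 0 ≤ q u) (hF : ∀ u, u ∉ F → q u = 0)
    (W : Finset V₀) : ∑ u ∈ W, q (Sum.inl u) ≤ ∑ x ∈ F, q x := by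
  classical
  have e1 : ∑ u ∈ W, q (Sum.inl u) =
      ∑ x ∈ W.map ⟨Sum.inl, Sum.inl_injective⟩, q x := by
    rw [Finset.sum_map]
    rfl
  have e2 : ∑ x ∈ (W.map ⟨Sum.inl, Sum.inl_injective⟩).filter (fun x => x ∈ F), q x =
      ∑ x ∈ W.map ⟨Sum.inl, Sum.inl_injective⟩, q x := by
    apply Finset.sum_filter_of_ne
    intro x _ hx
    by_contra hxF
    exact hx (hF x hxF)
  rw [e1, ← e2]
  apply Finset.sum_le_sum_of_subset_of_nonneg
  · intro x hx
    exact (Finset.mem_filter.1 hx).2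
  · intro x _ _
    exact hq x

/-- the inequality given by the first test function -/
lemma HubCoeff.hub_ineq (h : HubCoeff G₀ cls θ F c) (v : V₀) (j : Fin 3) :
    ∑ u ∈ F, outPos cls (cls v) (c (Sum.inl v)) u
      - max (c (Sum.inl v) (Sum.inr (cls v, j))) 0 - c (Sum.inl v) (Sum.inr (cls v, j)) ≤ θ := by
  classical
  have h1 := h.hub _ (graphTest_psiHub G₀ (cls v) (c (Sum.inl v)) j) (cls v, j) v rfl
  have h2 : psiHub cls (cls v) (c (Sum.inl v)) (Sum.inr (cls v, j)) (Sum.inr (cls v, j)) = 0 := by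
    unfold psiHub
    simp
  rw [h2] at h1
  simp only [mul_psiHub] at h1
  rw [Finset.sum_add_distrib, Finset.sum_add_distrib, h.mass,
    Finset.sum_ite_eq' F (Sum.inr (cls v, j)), if_pos (h.hub_mem _), outPos_inr] at h1
  linarith

/-- the total positive mass outside the class is at most `3 θ` -/
lemma HubCoeff.sum_outPos_le (h : HubCoeff G₀ cls θ F c) (v : V₀) :
    ∑ u ∈ F, outPos cls (cls v) (c (Sum.inl v)) u ≤ 3 * θ := by
  classical
  have h0 := h.hub_ineq v 0
  have h1 := h.hub_ineq v 1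
  have h2 := h.hub_ineq v 2
  have inj : Function.Injective (fun j : Fin 3 => (Sum.inr (cls v, j) : V₀ ⊕ K × Fin 3)) := by
    intro i j hij
    simpa using hij
  have h3 : ∑ j : Fin 3, outPos cls (cls v) (c (Sum.inl v)) (Sum.inr (cls v, j)) ≤
      ∑ u ∈ F, outPos cls (cls v) (c (Sum.inl v)) u := by
    have e : ∑ j : Fin 3, outPos cls (cls v) (c (Sum.inl v)) (Sum.inr (cls v, j)) =
        ∑ x ∈ Finset.univ.map ⟨_, inj⟩, outPos cls (cls v) (c (Sum.inl v)) x := by
      rw [Finset.sum_map]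
      rfl
    rw [e]
    apply Finset.sum_le_sum_of_subset_of_nonneg
    · intro x hx
      obtain ⟨j, _, rfl⟩ := Finset.mem_map.1 hx
      exact h.hub_mem _
    · intro x _ _
      exact outPos_nonneg _ _ _
  rw [Fin.sum_univ_three] at h3
  simp only [outPos_inr] at h3
  have m0 := le_max_left (c (Sum.inl v) (Sum.inr (cls v, 0))) 0
  have m1 := le_max_left (c (Sum.inl v) (Sum.inr (cls v, 1))) 0
  have m2 := le_max_left (c (Sum.inl v) (Sum.inr (cls v, 2))) 0
  linarith

/-- mass outside the class is small -/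
theorem HubCoeff.outside_le (h : HubCoeff G₀ cls θ F c) (v : V₀) (W : Finset V₀)
    (hW : ∀ u ∈ W, cls u ≠ cls v) : ∑ u ∈ W, c (Sum.inl v) (Sum.inl u) ≤ 3 * θ := by
  classical
  calc ∑ u ∈ W, c (Sum.inl v) (Sum.inl u)
      ≤ ∑ u ∈ W, outPos cls (cls v) (c (Sum.inl v)) (Sum.inl u) := by
        apply Finset.sum_le_sum
        intro u hu
        apply le_outPos
        rintro ⟨u0, e, hu0⟩
        cases e
        exact hW u hu hu0
    _ ≤ ∑ x ∈ F, outPos cls (cls v) (c (Sum.inl v)) x :=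
        sum_inl_le (fun u => outPos_nonneg _ _ _)
          (fun u hu => outPos_eq_zero _ _ (h.supp _ _ hu)) W
    _ ≤ 3 * θ := h.sum_outPos_le v

/-- no set of non-hub vertices has mass more than `1 + θ` -/
theorem HubCoeff.le_one_add (h : HubCoeff G₀ cls θ F c) (v : V₀) (W : Finset V₀) :
    ∑ u ∈ W, c (Sum.inl v) (Sum.inl u) ≤ 1 + θ := by
  classical
  have h1 := h.hub _ (graphTest_psiPos (hubGraph G₀ cls) (c (Sum.inl v)) (Sum.inr (cls v, 0)))
    (cls v, 0) v rfl
  have h2 : psiPos (c (Sum.inl v)) (Sum.inr (cls v, 0)) (Sum.inr (cls v, 0)) = 0 := by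
    unfold psiPos
    simp
  rw [h2, sub_zero] at h1
  refine le_trans ?_ h1
  have hq : ∀ u, 0 ≤ c (Sum.inl v) u * psiPos (c (Sum.inl v)) (Sum.inr (cls v, 0)) u := by
    intro u
    unfold psiPos
    split_ifs with h3
    · rw [mul_one]; exact h3.1.le
    · rw [mul_zero]
  refine le_trans ?_ (sum_inl_le hq (fun u hu => by rw [h.supp _ _ hu, zero_mul]) W)
  apply Finset.sum_le_sum
  intro u _
  unfold psiPos
  by_cases h3 : 0 < c (Sum.inl v) (Sum.inl u)
  · rw [if_pos ⟨h3, by simp⟩, mul_one]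
  · rw [if_neg (fun h4 => h3 h4.1), mul_zero]
    exact not_lt.1 h3

/-- the class carries almost all the mass -/
theorem HubCoeff.inside_ge (h : HubCoeff G₀ cls θ F c) (v : V₀) (W : Finset V₀)
    (hW : ∀ u, Sum.inl u ∈ F → cls u = cls v → u ∈ W) (hW' : ∀ u ∈ W, cls u = cls v) :
    1 - 3 * θ ≤ ∑ u ∈ W, c (Sum.inl v) (Sum.inl u) := by
  classical
  have e1 : ∑ u ∈ W, c (Sum.inl v) (Sum.inl u) =
      ∑ x ∈ W.map ⟨Sum.inl, Sum.inl_injective⟩, c (Sum.inl v) x := by
    rw [Finset.sum_map]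
    rfl
  have e2 : ∑ x ∈ W.map ⟨Sum.inl, Sum.inl_injective⟩, c (Sum.inl v) x =
      ∑ x ∈ F.filter (fun x => InCls cls (cls v) x), c (Sum.inl v) x := by
    symm
    apply Finset.sum_subset
    · intro x hx
      obtain ⟨hxF, u0, rfl, hu0⟩ := Finset.mem_filter.1 hx
      exact Finset.mem_map.2 ⟨u0, hW u0 hxF hu0, rfl⟩
    · intro x hx hx'
      obtain ⟨u0, hu0, rfl⟩ := Finset.mem_map.1 hx
      apply h.supp
      intro hF
      exact hx' (Finset.mem_filter.2 ⟨hF, u0, rfl, hW' u0 hu0⟩)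
  have e3 := Finset.sum_filter_add_sum_filter_not F (fun x => InCls cls (cls v) x)
    (c (Sum.inl v))
  rw [h.mass] at e3
  have e4 : ∑ x ∈ F.filter (fun x => ¬ InCls cls (cls v) x), c (Sum.inl v) x ≤
      ∑ x ∈ F, outPos cls (cls v) (c (Sum.inl v)) x := by
    calc ∑ x ∈ F.filter (fun x => ¬ InCls cls (cls v) x), c (Sum.inl v) x
        ≤ ∑ x ∈ F.filter (fun x => ¬ InCls cls (cls v) x),
            outPos cls (cls v) (c (Sum.inl v)) x := by
          apply Finset.sum_le_sum
          intro x hx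
          exact le_outPos _ _ (Finset.mem_filter.1 hx).2
      _ ≤ ∑ x ∈ F, outPos cls (cls v) (c (Sum.inl v)) x := by
          apply Finset.sum_le_sum_of_subset_of_nonneg (Finset.filter_subset _ _)
          intro x _ _
          exact outPos_nonneg _ _ _
  have e5 := h.sum_outPos_le v
  rw [e1, e2]
  linarith

end Vale.Agent.Lib.P090
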