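import Vale.Agent.Lib.P090.TwoDist

noncomputable section

namespace Vale.Agent.Lib.P090

/-- admissible test functions on a graph: values in `[0,2]`, oscillation at most one on edges -/
def GraphTest {V : Type*} (G : SimpleGraph V) (ψ : V → ℝ) : Prop :=
  (∀ u, 0 ≤ ψ u ∧ ψ u ≤ 2) ∧ ∀ u w, G.Adj u w → |ψ u - ψ w| ≤ 1

/-- The data extracted from an almost contractive finite rank operator which almost fixes the
hubs: `c v` is the (signed, finitely supported, total mass one) measure representing the image of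
the point mass at `v`. -/
structure HubCoeff {V₀ K : Type*} (G₀ : SimpleGraph V₀) (cls : V₀ → K) (θ : ℝ)
    (F : Finset (V₀ ⊕ K × Fin 3)) (c : (V₀ ⊕ K × Fin 3) → (V₀ ⊕ K × Fin 3) → ℝ) : Prop where
  supp : ∀ v u, u ∉ F → c v u = 0
  hub_mem : ∀ a : K × Fin 3, Sum.inr a ∈ F
  mass : ∀ v, ∑ u ∈ F, c v u = 1
  edge : ∀ ψ, GraphTest (hubGraph G₀ cls) ψ → ∀ v w, (hubGraph G₀ cls).Adj v w →
    ∑ u ∈ F, (c v u - c w u) * ψ u ≤ 1 + θ
  hub : ∀ ψ, GraphTest (hubGraph G₀ cls) ψ → ∀ (a : K × Fin 3) (v : V₀), cls v = a.1 →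
    ∑ u ∈ F, c (Sum.inl v) u * ψ u - ψ (Sum.inr a) ≤ 1 + θ

end Vale.Agent.Lib.P090
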