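import Vale.Agent.Lib.P090.HubConc

noncomputable section

namespace Vale.Agent.Lib.P090

variable {V₀ K : Type*} {G₀ : SimpleGraph V₀} {cls : V₀ → K} {θ : ℝ}
  {F : Finset (V₀ ⊕ K × Fin 3)} {c : (V₀ ⊕ K × Fin 3) → (V₀ ⊕ K × Fin 3) → ℝ}

/-- summation against the indicator of a set of non-hub vertices -/
theorem sum_mul_indicator_inl {H : Type*} [DecidableEq (V₀ ⊕ H)] (F : Finset (V₀ ⊕ H))
    (d : V₀ ⊕ H → ℝ)
    (hd : ∀ x, x ∉ F → d x = 0) (W : Finset V₀) :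
    ∑ x ∈ F, d x * (if x ∈ W.image Sum.inl then (1 : ℝ) else 0) = ∑ u ∈ W, d (Sum.inl u) := by
  have h1 : ∑ u ∈ W, d (Sum.inl u) = ∑ x ∈ W.image (Sum.inl : V₀ → V₀ ⊕ H), d x := by
    rw [Finset.sum_image]
    intro a _ b _ hab
    exact Sum.inl_injective hab
  rw [h1]
  simp only [mul_ite, mul_one, mul_zero]
  rw [← Finset.sum_filter]
  have h2 : F.filter (fun x => x ∈ W.image (Sum.inl : V₀ → V₀ ⊕ H)) ⊆ W.image Sum.inl :=
    fun x hx => (Finset.mem_filter.1 hx).2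
  refine Finset.sum_subset h2 fun x hx hx' => hd x fun hxF => hx' ?_
  exact Finset.mem_filter.2 ⟨hxF, hx⟩

/-- transfer along an edge between two different classes -/
theorem HubCoeff.transfer (h : HubCoeff G₀ cls θ F c) {v w : V₀} (hvw : G₀.Adj v w)
    (hcls : cls v ≠ cls w) (B B' : Finset V₀) (hB : ∀ u ∈ B, cls u = cls v)
    (hB' : ∀ u ∈ B', cls u = cls w)
    (hBB' : ∀ b ∈ B, ∀ u, Sum.inl u ∈ F → cls u = cls w → G₀.Adj b u → u ∈ B') :
    ∑ u ∈ B, c (Sum.inl v) (Sum.inl u) ≤ ∑ u ∈ B', c (Sum.inl w) (Sum.inl u) + 10 * θ := by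
  classical
  set Z : Finset V₀ := F.toLeft.filter (fun u => cls u = cls w ∧ u ∉ B') with hZ
  have hZmem : ∀ u, u ∈ Z ↔ Sum.inl u ∈ F ∧ cls u = cls w ∧ u ∉ B' := fun u => by
    rw [hZ, Finset.mem_filter, Finset.mem_toLeft]
  set B₁ : Finset (V₀ ⊕ K × Fin 3) := B.image Sum.inl with hB₁
  set Z₁ : Finset (V₀ ⊕ K × Fin 3) := Z.image Sum.inl with hZ₁
  let ψ : V₀ ⊕ K × Fin 3 → ℝ := fun x =>
    1 + (if x ∈ B₁ then (1 : ℝ) else 0) - (if x ∈ Z₁ then (1 : ℝ) else 0)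
  have hbad : ∀ x x', (hubGraph G₀ cls).Adj x x' → x ∈ B₁ → x' ∈ Z₁ → False := by
    intro x x' hadj hx hx'
    obtain ⟨b, hb, rfl⟩ := Finset.mem_image.1 hx
    obtain ⟨u, hu, rfl⟩ := Finset.mem_image.1 hx'
    obtain ⟨huF, hucls, hunot⟩ := (hZmem u).1 hu
    exact hunot (hBB' b hb u huF hucls hadj)
  have hψ : GraphTest (hubGraph G₀ cls) ψ := by
    constructor
    · intro u
      simp only [ψ]
      split_ifs <;> norm_num
    · intro x x' hadj
      have h1 := hbad x x' hadj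
      have h2 := hbad x' x hadj.symm
      simp only [ψ]
      by_cases a1 : x ∈ B₁ <;> by_cases a2 : x ∈ Z₁ <;> by_cases a3 : x' ∈ B₁ <;>
        by_cases a4 : x' ∈ Z₁ <;> simp only [a1, a2, a3, a4, if_true, if_false] <;>
        first
          | exact (h1 a1 a4).elim
          | exact (h2 a3 a2).elim
          | norm_num
  have hedge := h.edge ψ hψ (Sum.inl v) (Sum.inl w) hvw
  -- expand the sum
  set d : V₀ ⊕ K × Fin 3 → ℝ := fun x => c (Sum.inl v) x - c (Sum.inl w) x with hd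
  have hd0 : ∀ x, x ∉ F → d x = 0 := fun x hx => by
    simp only [hd, h.supp _ x hx, sub_zero]
  have hsum : ∑ u ∈ F, (c (Sum.inl v) u - c (Sum.inl w) u) * ψ u =
      ∑ u ∈ B, d (Sum.inl u) - ∑ u ∈ Z, d (Sum.inl u) := by
    rw [← sum_mul_indicator_inl F d hd0 B, ← sum_mul_indicator_inl F d hd0 Z,
      ← Finset.sum_sub_distrib]
    have h0 : ∑ u ∈ F, d u = 0 := by
      simp only [hd, Finset.sum_sub_distrib, h.mass, sub_self]
    have h1 : ∑ u ∈ F, (c (Sum.inl v) u - c (Sum.inl w) u) * ψ u =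
        ∑ u ∈ F, d u + ∑ u ∈ F, (d u * (if u ∈ B₁ then (1 : ℝ) else 0) -
          d u * (if u ∈ Z₁ then (1 : ℝ) else 0)) := by
      rw [← Finset.sum_add_distrib]
      refine Finset.sum_congr rfl fun u _ => ?_
      simp only [ψ, hd]
      ring
    rw [h1, h0, zero_add, hB₁, hZ₁]
  rw [hsum] at hedge
  simp only [hd, Finset.sum_sub_distrib] at hedge
  -- the four estimates
  have e1 : ∑ u ∈ B, c (Sum.inl w) (Sum.inl u) ≤ 3 * θ :=
    h.outside_le w B fun u hu => by rw [hB u hu]; exact hcls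
  have e2 : ∑ u ∈ Z, c (Sum.inl v) (Sum.inl u) ≤ 3 * θ :=
    h.outside_le v Z fun u hu => by rw [((hZmem u).1 hu).2.1]; exact hcls.symm
  have e3 : 1 - 3 * θ ≤ ∑ u ∈ Z ∪ B', c (Sum.inl w) (Sum.inl u) := by
    refine h.inside_ge w (Z ∪ B') ?_ ?_
    · intro u huF hucls
      by_cases hu : u ∈ B'
      · exact Finset.mem_union_right _ hu
      · exact Finset.mem_union_left _ ((hZmem u).2 ⟨huF, hucls, hu⟩)
    · intro u hu
      rcases Finset.mem_union.1 hu with hu | hu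
      · exact ((hZmem u).1 hu).2.1
      · exact hB' u hu
  have hdisj : Disjoint Z B' := by
    rw [Finset.disjoint_left]
    intro u hu hu'
    exact ((hZmem u).1 hu).2.2 hu'
  rw [Finset.sum_union hdisj] at e3
  linarith

end Vale.Agent.Lib.P090
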