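import Vale.Agent.Lib.P090.Helly

/-!
# Gromov hyperbolic discretely geodesic spaces are coarsely Helly
-/

noncomputable section

namespace Vale.Agent.Lib.P090

variable {M : Type*} [MetricSpace M] {o : M}

/-- A discretely geodesic metric space satisfying the four-point inequality with additive
constant `κ` is coarsely Helly with constant `κ`. -/
theorem coarseHelly_of_hyperbolic (κ : ℕ) (o : M)
    (hgeo : ∀ (x y : M) (k : ℕ), (k : ℝ) ≤ dist x y →
      ∃ p, dist x p = k ∧ dist p y = dist x y - k)
    (hhyp : ∀ x y z w : M,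
      dist x y + dist z w ≤ max (dist x z + dist y w) (dist x w + dist y z) + κ)
    (n : ℕ) (c : Fin n → M) (r : Fin n → ℕ)
    (hpair : ∀ i j, dist (c i) (c j) ≤ (r i : ℝ) + (r j : ℝ)) :
    ∃ z, ∀ i, dist z (c i) ≤ (r i : ℝ) + κ := by
  classical
  rcases Nat.eq_zero_or_pos n with rfl | hn
  · exact ⟨o, fun i => i.elim0⟩
  · have : Nonempty (Fin n) := ⟨⟨0, hn⟩⟩
    obtain ⟨i0, -, hmax⟩ := Finset.exists_max_image (Finset.univ : Finset (Fin n))
      (fun i => dist o (c i) - r i) Finset.univ_nonempty
    have hκ : (0 : ℝ) ≤ κ := by positivity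
    by_cases hm : dist o (c i0) - r i0 ≤ 0
    · refine ⟨o, fun i => ?_⟩
      have := hmax i (Finset.mem_univ i)
      linarith
    · rw [not_le] at hm
      obtain ⟨p, hp1, hp2⟩ := hgeo (c i0) o (r i0) (by rw [dist_comm]; linarith)
      refine ⟨p, fun i => ?_⟩
      have h4 := hhyp p (c i) o (c i0)
      have hmaxi := hmax i (Finset.mem_univ i)
      have hpi := hpair i i0
      rw [dist_comm (c i0) p] at hp1
      rw [dist_comm (c i0) o] at hp2
      rw [dist_comm (c i) o] at h4
      rcases le_total (dist p o + dist (c i) (c i0)) (dist p (c i0) + dist o (c i)) with h | h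
      · rw [max_eq_right h] at h4
        linarith
      · rw [max_eq_left h] at h4
        linarith

/-- **Hyperbolic graphs.**  Let `M` be a metric space with integer distances which is discretely
geodesic and satisfies Gromov's four-point inequality with additive constant `κ` (that is, `M` is
`κ / 2`-hyperbolic).  Then its Lipschitz-free space has the `(1 + 2 κ)`-bounded approximation
property.  No local finiteness is assumed. -/
theorem hasBAP_of_hyperbolic (κ : ℕ) (hint : ∀ x y : M, ∃ n : ℕ, dist x y = n)
    (hgeo : ∀ (x y : M) (k : ℕ), (k : ℝ) ≤ dist x y →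
      ∃ p, dist x p = k ∧ dist p y = dist x y - k)
    (hhyp : ∀ x y z w : M,
      dist x y + dist z w ≤ max (dist x z + dist y w) (dist x w + dist y z) + κ) :
    HasBAP (1 + 2 * κ) (LipFree M o) :=
  hasBAP_of_coarseHelly κ hint (coarseHelly_of_hyperbolic κ o hgeo hhyp)

end Vale.Agent.Lib.P090
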