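import Vale.Agent.Lib.P090.Dir

/-!
# Isoperimetry with a height function
-/

noncomputable section

namespace Vale.Agent.Lib.P090

/-- U6a.  If at every point of the support of `f` at most one of the four directions does not
increase the height `h`, then the total variation of `f` dominates twice its `l_1` norm. -/
theorem iso_dir {Y : Type*} [Fintype Y] (N : Dir → Y → Y)
    (hN : ∀ (x : Dir) (y : Y), N (x.1, !x.2) (N x y) = y) (f : Y → ℝ) (h : Y → ℕ)
    (hA : ∀ y, f y ≠ 0 → (Finset.univ.filter fun x : Dir => h (N x y) ≤ h y).card ≤ 1) :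
    2 * ∑ y, |f y| ≤ ∑ y, ∑ x : Dir, |f (N x y) - f y| := by
  classical
  -- the involution
  let σ : Y × Dir → Y × Dir := fun p => (N p.2 p.1, (p.2.1, !p.2.2))
  have hσ : Function.Involutive σ := by
    rintro ⟨y, x⟩
    simp only [σ]
    refine Prod.ext (hN x y) (Prod.ext rfl (by simp))
  have h1 : ∀ y, ∀ x : Dir,
      (if h y < h (N x y) then |f y| else 0) - (if h y < h (N x y) then |f (N x y)| else 0)
        ≤ |f (N x y) - f y| := by
    intro y x
    split_ifs
    · have := abs_sub_abs_le_abs_sub (f y) (f (N x y))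
      rwa [abs_sub_comm] at this
    · simp
  have h2 : ∀ y, 3 * |f y| ≤ ∑ x : Dir, (if h y < h (N x y) then |f y| else 0) := by
    intro y
    by_cases hy : f y = 0
    · simp [hy]
    · rw [← Finset.sum_filter, Finset.sum_const, nsmul_eq_mul]
      have hc : 3 ≤ (Finset.univ.filter fun x : Dir => h y < h (N x y)).card := by
        have h0 := hA y hy
        have h4 : (Finset.univ.filter fun x : Dir => h y < h (N x y)).card
            + (Finset.univ.filter fun x : Dir => ¬ h y < h (N x y)).card = 4 := by
          rw [Finset.card_filter_add_card_filter_not]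
          simp
        simp only [not_lt] at h4
        omega
      have hc' : (3:ℝ) ≤ ((Finset.univ.filter fun x : Dir => h y < h (N x y)).card : ℝ) := by
        exact_mod_cast hc
      exact mul_le_mul_of_nonneg_right hc' (abs_nonneg _)
  have h3 : ∀ c, ∑ x : Dir, (if h (N x c) < h c then |f c| else 0) ≤ |f c| := by
    intro c
    by_cases hy : f c = 0
    · simp [hy]
    · rw [← Finset.sum_filter, Finset.sum_const, nsmul_eq_mul]
      have hc : (Finset.univ.filter fun x : Dir => h (N x c) < h c).card ≤ 1 := by
        refine le_trans (Finset.card_le_card ?_) (hA c hy)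
        intro x hx
        simp only [Finset.mem_filter, Finset.mem_univ, true_and] at hx ⊢
        exact hx.le
      have hc' : ((Finset.univ.filter fun x : Dir => h (N x c) < h c).card : ℝ) ≤ 1 := by
        exact_mod_cast hc
      calc _ ≤ 1 * |f c| := mul_le_mul_of_nonneg_right hc' (abs_nonneg _)
        _ = |f c| := one_mul _
  have h4 : ∑ y, ∑ x : Dir, (if h y < h (N x y) then |f (N x y)| else 0)
      = ∑ c, ∑ x : Dir, (if h (N x c) < h c then |f c| else 0) := by
    rw [← Fintype.sum_prod_type', ← Fintype.sum_prod_type']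
    rw [← Equiv.sum_comp hσ.toPerm
      (fun p : Y × Dir => if h (N p.2 p.1) < h p.1 then |f p.1| else 0)]
    refine Finset.sum_congr rfl ?_
    rintro ⟨y, x⟩ -
    simp only [Function.Involutive.coe_toPerm, σ, hN]
  calc 2 * ∑ y, |f y| = ∑ y, 3 * |f y| - ∑ y, |f y| := by
        rw [← Finset.mul_sum]; ring
    _ ≤ ∑ y, ∑ x : Dir, (if h y < h (N x y) then |f y| else 0)
          - ∑ c, ∑ x : Dir, (if h (N x c) < h c then |f c| else 0) :=
        sub_le_sub (Finset.sum_le_sum fun y _ => h2 y) (Finset.sum_le_sum fun y _ => h3 y)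
    _ = ∑ y, ∑ x : Dir, ((if h y < h (N x y) then |f y| else 0)
          - (if h y < h (N x y) then |f (N x y)| else 0)) := by
        rw [← h4, ← Finset.sum_sub_distrib]
        refine Finset.sum_congr rfl fun y _ => ?_
        rw [Finset.sum_sub_distrib]
    _ ≤ ∑ y, ∑ x : Dir, |f (N x y) - f y| :=
        Finset.sum_le_sum fun y _ => Finset.sum_le_sum fun x _ => h1 y x

end Vale.Agent.Lib.P090
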