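import Vale.Agent.Lib.P090.Dir

/-!
# Labelled walks

`mv x z` is the neighbour of `z` in the direction `x`, `lab z x` the letter read on this step.
-/

noncomputable section

namespace Vale.Agent.Lib.P090

open FreeGroup

/-- End point of the walk from `z` with the list of directions `ω`. -/
def walkEnd {Z : Type*} (mv : Dir → Z → Z) : Z → List Dir → Z
  | z, [] => z
  | z, x :: ω => walkEnd mv (mv x z) ω

/-- The word read along the walk from `z` with the list of directions `ω`. -/
def walkLab {Z S : Type*} (mv : Dir → Z → Z) (lab : Z → Dir → S × Bool) :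
    Z → List Dir → List (S × Bool)
  | _, [] => []
  | z, x :: ω => lab z x :: walkLab mv lab (mv x z) ω

/-- The axioms of a labelled system: moves are reversible, the reversed step reads the inverse
letter, and the letter determines the direction. -/
structure IsLab {Z S : Type*} (mv : Dir → Z → Z) (lab : Z → Dir → S × Bool) (gen : S → Fin 2) :
    Prop where
  mv_inv : ∀ (x : Dir) (z : Z), mv (x.1, !x.2) (mv x z) = z
  lab_inv : ∀ (x : Dir) (z : Z), lab (mv x z) (x.1, !x.2) = ((lab z x).1, !(lab z x).2)
  lab_gen : ∀ (x : Dir) (z : Z), gen (lab z x).1 = x.1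
  lab_sign : ∀ (x : Dir) (z : Z), (lab z x).2 = x.2

variable {Z S : Type*} [DecidableEq S] {mv : Dir → Z → Z} {lab : Z → Dir → S × Bool}
  {gen : S → Fin 2}

theorem walkEnd_append (z : Z) (ω ω' : List Dir) :
    walkEnd mv z (ω ++ ω') = walkEnd mv (walkEnd mv z ω) ω' := by
  induction ω generalizing z with
  | nil => rfl
  | cons x ω ih => exact ih (mv x z)

theorem walkLab_append (z : Z) (ω ω' : List Dir) :
    walkLab mv lab z (ω ++ ω') = walkLab mv lab z ω ++ walkLab mv lab (walkEnd mv z ω) ω' := by
  induction ω generalizing z with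
  | nil => rfl
  | cons x ω ih =>
    show lab z x :: walkLab mv lab (mv x z) (ω ++ ω') =
      lab z x :: (walkLab mv lab (mv x z) ω ++ walkLab mv lab (walkEnd mv (mv x z) ω) ω')
    rw [ih]

theorem walkLab_length (z : Z) (ω : List Dir) : (walkLab mv lab z ω).length = ω.length := by
  induction ω generalizing z with
  | nil => rfl
  | cons x ω ih =>
    show (lab z x :: walkLab mv lab (mv x z) ω).length = (x :: ω).length
    rw [List.length_cons, List.length_cons, ih]

theorem IsLab.walkEnd_invRev (h : IsLab mv lab gen) (z : Z) (ω : List Dir) :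
    walkEnd mv (walkEnd mv z ω) (invRev ω) = z := by
  induction ω generalizing z with
  | nil => rfl
  | cons x ω ih =>
    rw [invRev_cons, walkEnd_append]
    show walkEnd mv (walkEnd mv (walkEnd mv (mv x z) ω) (invRev ω)) (invRev [x]) = z
    rw [ih]
    exact h.mv_inv x z

theorem IsLab.walkLab_invRev (h : IsLab mv lab gen) (z : Z) (ω : List Dir) :
    walkLab mv lab (walkEnd mv z ω) (invRev ω) = invRev (walkLab mv lab z ω) := by
  induction ω generalizing z with
  | nil => rfl
  | cons x ω ih =>
    rw [invRev_cons, walkLab_append]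
    show walkLab mv lab (walkEnd mv (mv x z) ω) (invRev ω) ++
      walkLab mv lab (walkEnd mv (walkEnd mv (mv x z) ω) (invRev ω)) (invRev [x]) =
      invRev (lab z x :: walkLab mv lab (mv x z) ω)
    have hR : invRev (lab z x :: walkLab mv lab (mv x z) ω) =
        invRev (walkLab mv lab (mv x z) ω) ++ invRev [lab z x] := invRev_cons
    rw [ih, h.walkEnd_invRev, hR]
    congr 1
    show [lab (mv x z) (x.1, !x.2)] = [((lab z x).1, !(lab z x).2)]
    rw [h.lab_inv]

/-- One cancellation in the list of directions: same end point, one cancellation in the word. -/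
theorem IsLab.walk_step (h : IsLab mv lab gen) (z : Z) {ω ω' : List Dir} (hs : Red.Step ω ω') :
    walkEnd mv z ω = walkEnd mv z ω' ∧
      Red.Step (walkLab mv lab z ω) (walkLab mv lab z ω') := by
  cases hs with
  | @not L₁ L₂ x b =>
    have hback : mv (x, !b) (mv (x, b) (walkEnd mv z L₁)) = walkEnd mv z L₁ :=
      h.mv_inv (x, b) (walkEnd mv z L₁)
    constructor
    · rw [walkEnd_append, walkEnd_append]
      show walkEnd mv (mv (x, !b) (mv (x, b) (walkEnd mv z L₁))) L₂ = _
      rw [hback]
    · rw [walkLab_append, walkLab_append]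
      show Red.Step (walkLab mv lab z L₁ ++ lab (walkEnd mv z L₁) (x, b) ::
        lab (mv (x, b) (walkEnd mv z L₁)) (x, !b) ::
        walkLab mv lab (mv (x, !b) (mv (x, b) (walkEnd mv z L₁))) L₂) _
      rw [hback]
      have h2 : lab (mv (x, b) (walkEnd mv z L₁)) (x, !b) =
          ((lab (walkEnd mv z L₁) (x, b)).1, !(lab (walkEnd mv z L₁) (x, b)).2) :=
        h.lab_inv (x, b) (walkEnd mv z L₁)
      rw [h2]
      exact Red.Step.not

theorem IsLab.walk_red (h : IsLab mv lab gen) (z : Z) {ω ω' : List Dir} (hs : Red ω ω') :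
    walkEnd mv z ω = walkEnd mv z ω' ∧ Red (walkLab mv lab z ω) (walkLab mv lab z ω') := by
  induction hs with
  | refl => exact ⟨rfl, Relation.ReflTransGen.refl⟩
  | tail _ hstep ih =>
    obtain ⟨h1, h2⟩ := h.walk_step z hstep
    exact ⟨ih.1.trans h1, ih.2.tail h2⟩

theorem IsLab.walkLab_isReduced (h : IsLab mv lab gen) (z : Z) {ω : List Dir}
    (hω : IsReduced ω) : IsReduced (walkLab mv lab z ω) := by
  induction ω generalizing z with
  | nil => exact IsReduced.nil
  | cons x ω ih =>
    cases ω with
    | nil => exact IsReduced.singleton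
    | cons y ω =>
      rw [isReduced_cons_cons] at hω
      show IsReduced (lab z x :: lab (mv x z) y :: walkLab mv lab (mv y (mv x z)) ω)
      rw [isReduced_cons_cons]
      refine ⟨fun he => ?_, ih (mv x z) hω.2⟩
      have h1 : x.1 = y.1 := by
        rw [← h.lab_gen x z, ← h.lab_gen y (mv x z), he]
      rw [h.lab_sign, h.lab_sign]
      exact hω.1 h1

theorem IsLab.walkEnd_reduce (h : IsLab mv lab gen) (z : Z) (ω : List Dir) :
    walkEnd mv z (reduce ω) = walkEnd mv z ω :=
  (h.walk_red z reduce.red).1.symm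

theorem IsLab.walkLab_reduce (h : IsLab mv lab gen) (z : Z) (ω : List Dir) :
    reduce (walkLab mv lab z ω) = walkLab mv lab z (reduce ω) := by
  rw [reduce.eq_of_red (h.walk_red z reduce.red).2]
  exact (h.walkLab_isReduced z (IsReduced.of_reduce_eq reduce.idem)).reduce_eq

/-- Splitting the word read along a walk splits the walk. -/
theorem walkLab_eq_append (z : Z) (ω : List Dir) (a b : List (S × Bool))
    (hab : walkLab mv lab z ω = a ++ b) :
    ∃ (ω₁ ω₂ : List Dir), ω = ω₁ ++ ω₂ ∧ a = walkLab mv lab z ω₁ ∧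
      b = walkLab mv lab (walkEnd mv z ω₁) ω₂ := by
  induction a generalizing z ω with
  | nil => exact ⟨[], ω, rfl, rfl, hab.symm⟩
  | cons c a ih =>
    cases ω with
    | nil => exact absurd hab (by simp [walkLab])
    | cons x ω =>
      have hab' : lab z x :: walkLab mv lab (mv x z) ω = c :: (a ++ b) := hab
      rw [List.cons.injEq] at hab'
      obtain ⟨ω₁, ω₂, h1, h2, h3⟩ := ih (mv x z) ω hab'.2
      refine ⟨x :: ω₁, ω₂, by rw [h1]; rfl, ?_, h3⟩
      show c :: a = lab z x :: walkLab mv lab (mv x z) ω₁
      rw [← hab'.1, ← h2]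

/-- A factor of the word read along a walk is read along a factor of the walk. -/
theorem walkLab_infix (z : Z) (ω : List Dir) (v : List (S × Bool))
    (hv : v <:+: walkLab mv lab z ω) :
    ∃ (ω₁ ω₂ ω₃ : List Dir), ω = ω₁ ++ ω₂ ++ ω₃ ∧ v = walkLab mv lab (walkEnd mv z ω₁) ω₂ := by
  obtain ⟨s, t, hst⟩ := hv
  rw [List.append_assoc] at hst
  obtain ⟨ω₁, ω', h1, _, h3⟩ := walkLab_eq_append z ω s (v ++ t) hst.symm
  obtain ⟨ω₂, ω₃, h4, h5, _⟩ := walkLab_eq_append (walkEnd mv z ω₁) ω' v t h3.symm
  exact ⟨ω₁, ω₂, ω₃, by rw [h1, h4, List.append_assoc], h5⟩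

/-- Equal words are read along equal lists of directions. -/
theorem IsLab.dirs_eq (h : IsLab mv lab gen) (z z' : Z) (ω ω' : List Dir)
    (he : walkLab mv lab z ω = walkLab mv lab z' ω') : ω = ω' := by
  induction ω generalizing z z' ω' with
  | nil =>
    cases ω' with
    | nil => rfl
    | cons y ω' => exact absurd he (by simp [walkLab])
  | cons x ω ih =>
    cases ω' with
    | nil => exact absurd he (by simp [walkLab])
    | cons y ω' =>
      have he' : lab z x :: walkLab mv lab (mv x z) ω =
          lab z' y :: walkLab mv lab (mv y z') ω' := he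
      rw [List.cons.injEq] at he'
      have h1 : x.1 = y.1 := by
        rw [← h.lab_gen x z, ← h.lab_gen y z', he'.1]
      have h2 : x.2 = y.2 := by
        rw [← h.lab_sign x z, ← h.lab_sign y z', he'.1]
      rw [Prod.ext h1 h2, ih (mv x z) (mv y z') ω' he'.2]

end Vale.Agent.Lib.P090
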