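import Vale.Agent.Lib.P090.LabelDefs

noncomputable section

namespace Vale.Agent.Lib.P090

open FreeGroup

/-! U13a -/

theorem mk_letter_mul_inv (x : Dir) :
    (FreeGroup.mk [x] : FreeGroup (Fin 2)) * FreeGroup.mk [(x.1, !x.2)] = 1 := by
  have h : (FreeGroup.mk [(x.1, !x.2)] : FreeGroup (Fin 2)) = (FreeGroup.mk [x])⁻¹ := by
    rw [FreeGroup.inv_mk]
    simp [FreeGroup.invRev]
  rw [h, mul_inv_cancel]

theorem zmv_inv (x : Dir) (z : ZZ) : zmv (x.1, !x.2) (zmv x z) = z := by
  obtain ⟨i, h⟩ := z
  unfold zmv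
  simp only
  rw [mul_assoc, ← _root_.map_mul, mk_letter_mul_inv, _root_.map_one, mul_one]

theorem zIsLab : IsLab zmv zlab zgen := by
  refine ⟨zmv_inv, ?_, ?_, ?_⟩
  · rintro ⟨a, b⟩ z
    have h := zmv_inv (a, b) z
    cases b
    · simp only [Bool.not_false] at h
      simp [zlab, h]
    · simp only [Bool.not_true] at h
      simp [zlab, h]
  · rintro ⟨a, b⟩ z
    cases b <;> simp [zlab, zgen]
  · rintro ⟨a, b⟩ z
    cases b <;> simp [zlab]

theorem zmv_fst (x : Dir) (z : ZZ) : (zmv x z).1 = z.1 := rfl

theorem walkEnd_zmv (z : ZZ) (ω : List Dir) :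
    walkEnd zmv z ω = ⟨z.1, z.2 * FreeGroup.lift (slGen z.1.1) (FreeGroup.mk ω)⟩ := by
  induction ω generalizing z with
  | nil =>
    obtain ⟨i, h⟩ := z
    have h1 : (FreeGroup.mk ([] : List Dir) : FreeGroup (Fin 2)) = 1 := rfl
    simp only [walkEnd]
    rw [h1, _root_.map_one, mul_one]
  | cons x ω ih =>
    obtain ⟨i, h⟩ := z
    have h1 : (FreeGroup.mk (x :: ω) : FreeGroup (Fin 2)) = FreeGroup.mk [x] * FreeGroup.mk ω := by
      rw [FreeGroup.mul_mk]
      rfl
    simp only [walkEnd]
    rw [ih, h1, _root_.map_mul, ← mul_assoc]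
    rfl

theorem zlab_eq_cols (z z' : ZZ) (x : Dir) (h : zlab z x = zlab z' x) :
    zcol z = zcol z' ∧ zcol (zmv x z) = zcol (zmv x z') := by
  obtain ⟨a, b⟩ := x
  cases b
  · simp only [zlab, Bool.false_eq_true, if_false, Prod.mk.injEq, true_and, and_true] at h
    exact ⟨h.2, h.1⟩
  · simp only [zlab, if_true, Prod.mk.injEq, true_and, and_true] at h
    exact ⟨h.1, h.2⟩

/-- Equal words force equal colours along the two walks. -/
theorem zcol_eq_of_walkLab_eq (z z' : ZZ) (ω : List Dir) (hω : ω ≠ [])
    (h : walkLab zmv zlab z ω = walkLab zmv zlab z' ω) (t : ℕ) (ht : t ≤ ω.length) :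
    zcol (walkEnd zmv z (ω.take t)) = zcol (walkEnd zmv z' (ω.take t)) := by
  induction ω generalizing z z' t with
  | nil => exact absurd rfl hω
  | cons x ω ih =>
    simp only [walkLab, List.cons.injEq] at h
    obtain ⟨hc1, hc2⟩ := zlab_eq_cols z z' x h.1
    cases t with
    | zero => simpa [walkEnd] using hc1
    | succ t =>
      simp only [List.take_succ_cons, walkEnd]
      by_cases hn : ω = []
      · subst hn
        simpa [walkEnd] using hc2
      · exact ih (zmv x z) (zmv x z') hn h.2 t (by simpa using ht)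

/-- The vertices of a reduced walk shorter than the injectivity radius are distinct. -/
theorem walk_vertices_injective (m g : ℕ)
    (hinj : ∀ w : FreeGroup (Fin 2), w.norm ≤ g → FreeGroup.lift (slGen m) w = 1 → w = 1)
    (h : SLm m) (ω : List Dir) (hω : IsReduced ω) (hlen : ω.length ≤ g) :
    Function.Injective fun t : Fin (ω.length + 1) =>
      h * FreeGroup.lift (slGen m) (FreeGroup.mk (ω.take t)) := by
  have key : ∀ t s : ℕ, t ≤ s → s ≤ ω.length →
      FreeGroup.lift (slGen m) (FreeGroup.mk (ω.take t)) =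
        FreeGroup.lift (slGen m) (FreeGroup.mk (ω.take s)) → t = s := by
    intro t s hts hs he
    have hsplit : ω.take s = ω.take t ++ (ω.take s).drop t := by
      have h1 := (List.take_append_drop t (ω.take s)).symm
      rwa [List.take_take, min_eq_left hts] at h1
    have hred : IsReduced ((ω.take s).drop t) :=
      List.IsChain.drop (List.IsChain.take hω s) t
    have hl : ((ω.take s).drop t).length = s - t := by
      rw [List.length_drop, List.length_take, min_eq_left hs]
    rw [hsplit, ← FreeGroup.mul_mk, _root_.map_mul] at he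
    have he1 : FreeGroup.lift (slGen m) (FreeGroup.mk ((ω.take s).drop t)) = 1 := by
      have := he.symm
      rwa [mul_eq_left] at this
    have h1 := hinj _ (le_trans FreeGroup.norm_mk_le (by rw [hl]; omega)) he1
    have h2 : ((ω.take s).drop t) = [] := by
      have h3 := congrArg FreeGroup.toWord h1
      rwa [FreeGroup.toWord_mk, hred.reduce_eq, FreeGroup.toWord_one] at h3
    rw [h2] at hl
    simp only [List.length_nil] at hl
    omega
  intro t s hts
  have hts' := mul_left_cancel hts
  apply Fin.ext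
  rcases le_total t.1 s.1 with hle | hle
  · exact key _ _ hle (Nat.lt_succ_iff.mp s.2) hts'
  · exact (key _ _ hle (Nat.lt_succ_iff.mp t.2) hts'.symm).symm

end Vale.Agent.Lib.P090
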