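import Vale.Agent.Lib.P090.LabWalk
import Vale.Agent.Lib.P090.Hair

/-!
# The twisted product with a finite group, type distance, and range classes (definitions)
-/

noncomputable section

namespace Vale.Agent.Lib.P090

open FreeGroup

variable {Z S Q I : Type*} [DecidableEq S] [Group Q]

/-- Word norm on `Q` with respect to the images of the letters. -/
def qnorm (Φ : FreeGroup S →* Q) (g : Q) : ℕ :=
  sInf {n | ∃ w : FreeGroup S, w.norm = n ∧ Φ w = g}

/-- The moves on `Z × Q`: the second coordinate is multiplied by the image of the letter read. -/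
def mvX (mv : Dir → Z → Z) (lab : Z → Dir → S × Bool) (Φ : FreeGroup S →* Q) (x : Dir)
    (y : Z × Q) : Z × Q :=
  (mv x y.1, y.2 * Φ (FreeGroup.mk [lab y.1 x]))

/-- The type distance from `y` to the type `q`. -/
def rho (Φ : FreeGroup S →* Q) (y : Z × Q) (q : Q) : ℕ := qnorm Φ (y.2⁻¹ * q)

/-- The graph on `Z × Q` given by the moves. -/
def graphX (mv : Dir → Z → Z) (lab : Z → Dir → S × Bool) (Φ : FreeGroup S →* Q) :
    SimpleGraph (Z × Q) :=
  SimpleGraph.fromRel fun y y' => ∃ x, y' = mvX mv lab Φ x y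

/-- One step in the range graph: move `y` or move `u`, both pairs being in range. -/
def rstep (mv : Dir → Z → Z) (lab : Z → Dir → S × Bool) (Φ : FreeGroup S →* Q) (D : ℕ)
    (p p' : (Z × Q) × ((Z × Q) ⊕ Q)) : Prop :=
  rho Φ p.1 (typ Prod.snd p.2) < D ∧ rho Φ p'.1 (typ Prod.snd p'.2) < D ∧
    (((∃ x, p'.1 = mvX mv lab Φ x p.1) ∧ p'.2 = p.2) ∨
      (p'.1 = p.1 ∧ ∃ u x, p.2 = Sum.inl u ∧ p'.2 = Sum.inl (mvX mv lab Φ x u)))

/-- The range class of a pair. -/
def rcl (mv : Dir → Z → Z) (lab : Z → Dir → S × Bool) (Φ : FreeGroup S →* Q) (D : ℕ)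
    (y : Z × Q) (u : (Z × Q) ⊕ Q) : Quot (rstep mv lab Φ D) :=
  Quot.mk _ (y, u)

/-- The word read from a point of `(Z × Q) ⊕ Q`; hubs read nothing. -/
def labU (mv : Dir → Z → Z) (lab : Z → Dir → S × Bool) : (Z × Q) ⊕ Q → List Dir → List (S × Bool)
  | Sum.inl u, ω => walkLab mv lab u.1 ω
  | Sum.inr _, _ => []

/-- No reduced walk of length `L` in the component `i` reads the same word as a walk in the
component `i'`. -/
def NoCommon (mv : Dir → Z → Z) (lab : Z → Dir → S × Bool) (comp : Z → I) (L : ℕ) (i i' : I) :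
    Prop :=
  ∀ (z z' : Z) (ω : List Dir), comp z = i → comp z' = i' → IsReduced ω → ω.length = L →
    walkLab mv lab z ω ≠ walkLab mv lab z' ω

end Vale.Agent.Lib.P090
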