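import Vale.Agent.Lib.P090.SL2
import Vale.Agent.Lib.P090.RangeDefs

/-!
# The concrete labelled system: all vertex colourings of all the groups `SLm m`
-/

noncomputable section

namespace Vale.Agent.Lib.P090

open FreeGroup

/-- The colours. -/
abbrev Bsym : Type := Fin (3 ^ 20)

/-- The alphabet: a generator and the colours of the two end points of the edge. -/
abbrev Sym : Type := Fin 2 × Bsym × Bsym

/-- A modulus and a colouring of the group. -/
abbrev Idx : Type := Σ m : ℕ, (SLm m → Bsym)

/-- The disjoint union of all coloured groups. -/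
abbrev ZZ : Type := Σ i : Idx, SLm i.1

/-- Right multiplication by a generator or its inverse. -/
def zmv (x : Dir) (z : ZZ) : ZZ := ⟨z.1, z.2 * FreeGroup.lift (slGen z.1.1) (FreeGroup.mk [x])⟩

/-- The colour of a point. -/
def zcol (z : ZZ) : Bsym := z.1.2 z.2

/-- The letter read on a step. -/
def zlab (z : ZZ) (x : Dir) : Sym × Bool :=
  if x.2 then ((x.1, zcol z, zcol (zmv x z)), true) else ((x.1, zcol (zmv x z), zcol z), false)

/-- The generator of a symbol. -/
def zgen (s : Sym) : Fin 2 := s.1

end Vale.Agent.Lib.P090
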