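import Vale.Agent.Lib.P090.RangeDefs

noncomputable section

namespace Vale.Agent.Lib.P090

open FreeGroup

variable {Z S Q : Type*} [DecidableEq S] [Group Q] {mv : Dir → Z → Z}
  {lab : Z → Dir → S × Bool} {gen : S → Fin 2} {Φ : FreeGroup S →* Q}

/-! U9a -/

set_option linter.unusedSectionVars false

theorem exists_lift (hs : Function.Surjective Φ) (g : Q) :
    ∃ w : FreeGroup S, w.norm = qnorm Φ g ∧ Φ w = g := by
  have hne : {n | ∃ w : FreeGroup S, w.norm = n ∧ Φ w = g}.Nonempty := by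
    obtain ⟨w, hw⟩ := hs g
    exact ⟨w.norm, w, rfl, hw⟩
  exact Nat.sInf_mem hne

theorem qnorm_le (w : FreeGroup S) : qnorm Φ (Φ w) ≤ w.norm :=
  Nat.sInf_le ⟨w, rfl, rfl⟩

theorem rho_self (y : Z × Q) : rho Φ y y.2 = 0 := by
  have h := qnorm_le (Φ := Φ) (1 : FreeGroup S)
  simp only [_root_.map_one, FreeGroup.norm_one] at h
  unfold rho
  rw [inv_mul_cancel]
  omega

omit [DecidableEq S] in
private theorem mk_pair_cancel (a : S) (b : Bool) :
    (FreeGroup.mk [(a, b)] : FreeGroup S) * FreeGroup.mk [(a, !b)] = 1 := by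
  rw [FreeGroup.mul_mk]
  have : ([(a, b)] ++ [(a, !b)] : List (S × Bool)) = [] ++ (a, b) :: (a, !b) :: [] := rfl
  rw [this]
  exact Quot.sound (by exact FreeGroup.Red.Step.not)

theorem IsLab.mvX_inv (h : IsLab mv lab gen) (x : Dir) (y : Z × Q) :
    mvX mv lab Φ (x.1, !x.2) (mvX mv lab Φ x y) = y := by
  unfold mvX
  ext
  · exact h.mv_inv x y.1
  · simp only
    rw [h.lab_inv x y.1, mul_assoc, ← _root_.map_mul]
    have : (FreeGroup.mk [lab y.1 x] : FreeGroup S)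
        * FreeGroup.mk [((lab y.1 x).1, !(lab y.1 x).2)] = 1 :=
      mk_pair_cancel (lab y.1 x).1 (lab y.1 x).2
    rw [this, _root_.map_one, mul_one]

theorem IsLab.exists_of_adj (h : IsLab mv lab gen) {y y' : Z × Q}
    (ha : (graphX mv lab Φ).Adj y y') : ∃ x, y' = mvX mv lab Φ x y := by
  unfold graphX at ha
  rw [SimpleGraph.fromRel_adj] at ha
  obtain ⟨_, h1 | h1⟩ := ha
  · exact h1
  · obtain ⟨x, hx⟩ := h1
    exact ⟨(x.1, !x.2), by rw [hx, h.mvX_inv]⟩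

theorem adj_or_eq (x : Dir) (y : Z × Q) :
    mvX mv lab Φ x y = y ∨ (graphX mv lab Φ).Adj y (mvX mv lab Φ x y) := by
  by_cases he : mvX mv lab Φ x y = y
  · exact Or.inl he
  · right
    unfold graphX
    rw [SimpleGraph.fromRel_adj]
    exact ⟨fun h => he h.symm, Or.inl ⟨x, rfl⟩⟩

private theorem norm_mk_singleton_le (l : S × Bool) :
    (FreeGroup.mk [l] : FreeGroup S).norm ≤ 1 := by
  have := FreeGroup.norm_mk_le (L₁ := [l])
  simpa using this

private theorem qnorm_mul_left_le (hs : Function.Surjective Φ) (l : S × Bool) (g : Q) :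
    qnorm Φ (Φ (FreeGroup.mk [l]) * g) ≤ qnorm Φ g + 1 := by
  obtain ⟨w, hw, hg⟩ := exists_lift hs g
  have h1 := qnorm_le (Φ := Φ) (FreeGroup.mk [l] * w)
  rw [_root_.map_mul, hg] at h1
  have h2 := FreeGroup.norm_mul_le (FreeGroup.mk [l]) w
  have h3 := norm_mk_singleton_le l
  omega

private theorem qnorm_mul_right_le (hs : Function.Surjective Φ) (l : S × Bool) (g : Q) :
    qnorm Φ (g * Φ (FreeGroup.mk [l])) ≤ qnorm Φ g + 1 := by
  obtain ⟨w, hw, hg⟩ := exists_lift hs g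
  have h1 := qnorm_le (Φ := Φ) (w * FreeGroup.mk [l])
  rw [_root_.map_mul, hg] at h1
  have h2 := FreeGroup.norm_mul_le w (FreeGroup.mk [l])
  have h3 := norm_mk_singleton_le l
  omega

theorem IsLab.rho_adj_left (h : IsLab mv lab gen) (hs : Function.Surjective Φ) (y y' : Z × Q)
    (z : Q) (ha : (graphX mv lab Φ).Adj y y') : rho Φ y z ≤ rho Φ y' z + 1 := by
  obtain ⟨x, hx⟩ := h.exists_of_adj ha
  unfold rho
  have h1 : y.2⁻¹ * z = Φ (FreeGroup.mk [lab y.1 x]) * (y'.2⁻¹ * z) := by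
    rw [hx]
    simp only [mvX]
    group
  rw [h1]
  exact qnorm_mul_left_le hs _ _

theorem IsLab.rho_adj_right (h : IsLab mv lab gen) (hs : Function.Surjective Φ) (y u u' : Z × Q)
    (ha : (graphX mv lab Φ).Adj u u') : rho Φ y u.2 ≤ rho Φ y u'.2 + 1 := by
  obtain ⟨x, hx⟩ := h.exists_of_adj ha.symm
  unfold rho
  have h1 : y.2⁻¹ * u.2 = (y.2⁻¹ * u'.2) * Φ (FreeGroup.mk [lab u'.1 x]) := by
    rw [hx]
    simp only [mvX]
    group
  rw [h1]
  exact qnorm_mul_right_le hs _ _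

theorem IsLab.rcl_right (h : IsLab mv lab gen) (D : ℕ) (y u u' : Z × Q)
    (ha : (graphX mv lab Φ).Adj u u') (h1 : rho Φ y u.2 < D) (h2 : rho Φ y u'.2 < D) :
    rcl mv lab Φ D y (Sum.inl u) = rcl mv lab Φ D y (Sum.inl u') := by
  obtain ⟨x, hx⟩ := h.exists_of_adj ha
  unfold rcl
  apply Quot.sound
  refine ⟨h1, h2, Or.inr ⟨rfl, u, x, rfl, ?_⟩⟩
  simp only [hx]

theorem IsLab.rcl_left (h : IsLab mv lab gen) (D : ℕ) (y y' : Z × Q) (u : (Z × Q) ⊕ Q)
    (ha : (graphX mv lab Φ).Adj y y') (h1 : rho Φ y (typ Prod.snd u) < D)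
    (h2 : rho Φ y' (typ Prod.snd u) < D) :
    rcl mv lab Φ D y u = rcl mv lab Φ D y' u := by
  obtain ⟨x, hx⟩ := h.exists_of_adj ha
  unfold rcl
  apply Quot.sound
  exact ⟨h1, h2, Or.inl ⟨⟨x, hx⟩, rfl⟩⟩

end Vale.Agent.Lib.P090
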