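import Mathlib

/-!
# The groups `SL (2, ZMod (m + 1))` with the two Sanov generators
-/

noncomputable section

namespace Vale.Agent.Lib.P090

/-- The finite group `SL (2, ZMod (m + 1))`. -/
abbrev SLm (m : ℕ) : Type := Matrix.SpecialLinearGroup (Fin 2) (ZMod (m + 1))

/-- The two generators `[[1, 2], [0, 1]]` and `[[1, 0], [2, 1]]`. -/
def slGen (m : ℕ) (i : Fin 2) : SLm m :=
  if i = 0 then ⟨!![1, 2; 0, 1], by simp [Matrix.det_fin_two]⟩
  else ⟨!![1, 0; 2, 1], by simp [Matrix.det_fin_two]⟩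

/-- integer action of a letter on a column vector -/
def slAct (a : Fin 2 × Bool) (v : ℤ × ℤ) : ℤ × ℤ :=
  if a.1 = 0 then (if a.2 then (v.1 + 2 * v.2, v.2) else (v.1 - 2 * v.2, v.2))
  else (if a.2 then (v.1, v.2 + 2 * v.1) else (v.1, v.2 - 2 * v.1))

/-- integer action of a word (the last letter acts first) -/
def slActL : List (Fin 2 × Bool) → ℤ × ℤ → ℤ × ℤ
  | [], v => v
  | a :: l, v => slAct a (slActL l v)

/-- the ping-pong regions -/
def slReg (a : Fin 2 × Bool) (v : ℤ × ℤ) : Prop :=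
  (if a.1 = 0 then |v.2| < |v.1| else |v.1| < |v.2|) ∧
    (if a.2 then 0 < v.1 * v.2 else v.1 * v.2 < 0)

/-- the start vector, depending on the last letter -/
def slStart (a : Fin 2 × Bool) : ℤ × ℤ := if a.1 = 0 then (0, 1) else (1, 0)

/-- reduction modulo `m + 1` of an integer vector -/
def slVec (m : ℕ) (v : ℤ × ℤ) : Fin 2 → ZMod (m + 1) := ![(v.1 : ZMod (m + 1)), (v.2 : ZMod (m + 1))]

/-- the inverses of the two generators -/
def slGenInv (m : ℕ) (i : Fin 2) : SLm m :=
  if i = 0 then ⟨!![1, -2; 0, 1], by simp [Matrix.det_fin_two]⟩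
  else ⟨!![1, 0; -2, 1], by simp [Matrix.det_fin_two]⟩

lemma slGen_inv (m : ℕ) (i : Fin 2) : (slGen m i)⁻¹ = slGenInv m i := by
  apply inv_eq_of_mul_eq_one_right
  apply Subtype.ext
  rw [Matrix.SpecialLinearGroup.coe_mul]
  fin_cases i <;>
    · ext j k
      fin_cases j <;> fin_cases k <;> simp [slGen, slGenInv, Matrix.mul_apply, Fin.sum_univ_two]

lemma slAct_mulVec (m : ℕ) (a : Fin 2 × Bool) (v : ℤ × ℤ) :
    Matrix.mulVec (cond a.2 (slGen m a.1) (slGen m a.1)⁻¹ : SLm m).1 (slVec m v) =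
      slVec m (slAct a v) := by
  obtain ⟨i, b⟩ := a
  rw [slGen_inv]
  fin_cases i <;> cases b <;>
    · funext j
      simp only [cond_true, cond_false]
      fin_cases j <;>
        simp [slGen, slGenInv, slVec, slAct, Matrix.mulVec, dotProduct, Fin.sum_univ_two] <;> ring

lemma slActL_mulVec (m : ℕ) (l : List (Fin 2 × Bool)) (v : ℤ × ℤ) :
    Matrix.mulVec ((l.map fun x => cond x.2 (slGen m x.1) (slGen m x.1)⁻¹).prod : SLm m).1
      (slVec m v) = slVec m (slActL l v) := by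
  induction l with
  | nil => simp [slActL]
  | cons a l ih =>
    rw [List.map_cons, List.prod_cons, Matrix.SpecialLinearGroup.coe_mul, ← Matrix.mulVec_mulVec,
      ih, slAct_mulVec]
    rfl

lemma slReg_step (a b : Fin 2 × Bool) (v : ℤ × ℤ) (hab : a.1 = b.1 → a.2 = b.2)
    (hv : slReg b v) : slReg a (slAct a v) := by
  obtain ⟨i, s⟩ := a
  obtain ⟨j, t⟩ := b
  obtain ⟨x, y⟩ := v
  have hx := abs_cases x
  have hy := abs_cases y
  fin_cases i <;> fin_cases j <;> cases s <;> cases t <;>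
    simp [slReg, slAct, abs_lt, lt_abs, mul_pos_iff, mul_neg_iff] at hab hv ⊢ <;> omega

lemma slReg_start (a : Fin 2 × Bool) : slReg a (slAct a (slStart a)) := by
  obtain ⟨i, s⟩ := a
  fin_cases i <;> cases s <;> simp [slReg, slAct, slStart]

/-- the last letter of `a :: l` -/
def slLast : Fin 2 × Bool → List (Fin 2 × Bool) → Fin 2 × Bool
  | a, [] => a
  | _, b :: l => slLast b l

lemma slReg_word (l : List (Fin 2 × Bool)) :
    ∀ a : Fin 2 × Bool, FreeGroup.IsReduced (a :: l) →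
      slReg a (slActL (a :: l) (slStart (slLast a l))) := by
  induction l with
  | nil => intro a _; exact slReg_start a
  | cons b l ih =>
    intro a h
    rw [FreeGroup.isReduced_cons_cons] at h
    exact slReg_step a b _ h.1 (ih b h.2)

lemma slAct_bound (a : Fin 2 × Bool) (v : ℤ × ℤ) (N : ℤ) (h : |v.1| ≤ N ∧ |v.2| ≤ N) :
    |(slAct a v).1| ≤ 3 * N ∧ |(slAct a v).2| ≤ 3 * N := by
  obtain ⟨i, s⟩ := a
  obtain ⟨x, y⟩ := v
  fin_cases i <;> cases s <;> simp [slAct, abs_le] at h ⊢ <;> omega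

lemma slActL_bound (l : List (Fin 2 × Bool)) (v : ℤ × ℤ) (h : |v.1| ≤ 1 ∧ |v.2| ≤ 1) :
    |(slActL l v).1| ≤ 3 ^ l.length ∧ |(slActL l v).2| ≤ 3 ^ l.length := by
  induction l with
  | nil => simpa [slActL] using h
  | cons a l ih =>
    have := slAct_bound a _ _ ih
    rw [List.length_cons, pow_succ, mul_comm]
    exact this

lemma slVec_inj (m : ℕ) (v u : ℤ × ℤ) (N : ℤ) (hN : N + 1 < m + 1)
    (hv : |v.1| ≤ N ∧ |v.2| ≤ N) (hu : |u.1| ≤ 1 ∧ |u.2| ≤ 1) (h : slVec m v = slVec m u) :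
    v = u := by
  have h0 := congrFun h 0
  have h1 := congrFun h 1
  simp only [slVec, Matrix.cons_val_zero, Matrix.cons_val_one] at h0 h1
  have key : ∀ x y : ℤ, |x| ≤ N → |y| ≤ 1 → (x : ZMod (m + 1)) = (y : ZMod (m + 1)) → x = y := by
    intro x y hx hy hxy
    rw [ZMod.intCast_eq_intCast_iff_dvd_sub] at hxy
    have : y - x = 0 := by
      apply Int.eq_zero_of_abs_lt_dvd hxy
      rw [abs_le] at hx hy
      rw [abs_lt]
      push_cast
      constructor <;> omega
    omega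
  exact Prod.ext (key _ _ hv.1 hu.1 h0) (key _ _ hv.2 hu.2 h1)

/-- U12.  No non-trivial reduced word of length at most `g` is trivial modulo `m + 1 > 3 ^ g + 1`. -/
theorem sl_inj (g m : ℕ) (hm : 3 ^ g + 1 < m + 1) (w : FreeGroup (Fin 2)) (hw : w.norm ≤ g)
    (h1 : FreeGroup.lift (slGen m) w = 1) : w = 1 := by
  rw [← FreeGroup.toWord_eq_nil_iff]
  rcases hl : w.toWord with _ | ⟨a, l⟩
  · rfl
  exfalso
  have hred : FreeGroup.IsReduced (a :: l) := hl ▸ FreeGroup.isReduced_toWord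
  have hlen : (a :: l).length ≤ g := by rw [← hl]; exact hw
  have hreg := slReg_word l a hred
  have hst : |(slStart (slLast a l)).1| ≤ 1 ∧ |(slStart (slLast a l)).2| ≤ 1 := by
    unfold slStart
    split_ifs <;> simp
  have hb := slActL_bound (a :: l) _ hst
  have hpow : (3 : ℤ) ^ (a :: l).length ≤ 3 ^ g := pow_le_pow_right₀ (by norm_num) hlen
  have hprod : ((a :: l).map fun x => cond x.2 (slGen m x.1) (slGen m x.1)⁻¹).prod = 1 := by
    rw [← FreeGroup.lift_mk, ← hl, FreeGroup.mk_toWord, h1]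
  have hmv := slActL_mulVec m (a :: l) (slStart (slLast a l))
  rw [hprod] at hmv
  simp only [Matrix.SpecialLinearGroup.coe_one, Matrix.one_mulVec] at hmv
  have heq := slVec_inj m _ _ (3 ^ g) (by exact_mod_cast hm)
    ⟨hb.1.trans hpow, hb.2.trans hpow⟩ hst hmv.symm
  rw [heq] at hreg
  have hz : (slStart (slLast a l)).1 * (slStart (slLast a l)).2 = 0 := by
    unfold slStart
    split_ifs <;> simp
  have := hreg.2
  rw [hz] at this
  split_ifs at this <;> omega

theorem sl_card (m : ℕ) : Fintype.card (SLm m) ≤ (m + 1) ^ 4 := by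
  have h := Fintype.card_le_of_injective
    (fun x : SLm m => (x.1 : Matrix (Fin 2) (Fin 2) (ZMod (m + 1)))) Subtype.val_injective
  refine h.trans (le_of_eq ?_)
  have h2 : Fintype.card (Matrix (Fin 2) (Fin 2) (ZMod (m + 1))) =
      Fintype.card (Fin 2 → Fin 2 → ZMod (m + 1)) := rfl
  rw [h2, Fintype.card_fun, Fintype.card_fun, ZMod.card, Fintype.card_fin, ← pow_mul]

end Vale.Agent.Lib.P090
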