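import Mathlib

/-!
# Truncated graph metrics

`TruncSpace G R` is the vertex set of the simple graph `G` with the metric
`min (graph distance) (R + 1)` (vertices in different components are at distance `R + 1`).
-/

noncomputable section

namespace Vale.Agent.Lib.P090

/-- The graph distance truncated at `R + 1`. -/
def truncDist {V : Type*} (G : SimpleGraph V) (R : ℕ) (u v : V) : ℝ :=
  ((min (G.edist u v) ((R + 1 : ℕ) : ℕ∞)).toNat : ℝ)

/-- The vertex set of `G`, to be equipped with the metric `truncDist G R`. -/
def TruncSpace {V : Type*} (_G : SimpleGraph V) (_R : ℕ) : Type _ := V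

variable {V : Type*} (G : SimpleGraph V) (R : ℕ)

/-- The truncated distance as an extended natural number. -/
theorem coe_toNat_min (u v : V) :
    (((min (G.edist u v) ((R + 1 : ℕ) : ℕ∞)).toNat : ℕ) : ℕ∞)
      = min (G.edist u v) ((R + 1 : ℕ) : ℕ∞) := by
  apply ENat.natCast_toNat
  intro h
  have h1 : min (G.edist u v) ((R + 1 : ℕ) : ℕ∞) ≤ ((R + 1 : ℕ) : ℕ∞) := min_le_right _ _
  rw [h] at h1
  exact absurd h1 (not_le.mpr (ENat.natCast_lt_top _))

theorem truncDist_self (u : V) : truncDist G R u u = 0 := by
  simp [truncDist]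

theorem truncDist_comm (u v : V) : truncDist G R u v = truncDist G R v u := by
  unfold truncDist
  rw [SimpleGraph.edist_comm]

theorem enat_min_triangle (a b c K : ℕ∞) (h : a ≤ b + c) : min a K ≤ min b K + min c K := by
  rcases le_total b K with hb | hb
  · rcases le_total c K with hc | hc
    · rw [min_eq_left hb, min_eq_left hc]
      exact (min_le_left _ _).trans h
    · rw [min_eq_right hc]
      exact (min_le_right _ _).trans le_add_self
  · rw [min_eq_right hb]
    exact (min_le_right _ _).trans le_self_add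

theorem truncDist_triangle (u v w : V) :
    truncDist G R u w ≤ truncDist G R u v + truncDist G R v w := by
  unfold truncDist
  have h := enat_min_triangle (G.edist u w) (G.edist u v) (G.edist v w) ((R + 1 : ℕ) : ℕ∞)
    SimpleGraph.edist_triangle
  rw [← coe_toNat_min G R u w, ← coe_toNat_min G R u v, ← coe_toNat_min G R v w] at h
  exact_mod_cast h

theorem one_le_truncDist {u v : V} (h : u ≠ v) : 1 ≤ truncDist G R u v := by
  unfold truncDist
  have h1 : (1 : ℕ∞) ≤ G.edist u v := by
    rw [Order.one_le_iff_ne_zero]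
    intro h0
    exact h (SimpleGraph.edist_eq_zero_iff.mp h0)
  have h2 : (1 : ℕ∞) ≤ ((R + 1 : ℕ) : ℕ∞) := by
    exact_mod_cast Nat.le_add_left 1 R
  have h3 : (1 : ℕ∞) ≤ min (G.edist u v) ((R + 1 : ℕ) : ℕ∞) := le_min h1 h2
  rw [← coe_toNat_min G R u v] at h3
  exact_mod_cast h3

theorem truncDist_le (u v : V) : truncDist G R u v ≤ (R : ℝ) + 1 := by
  unfold truncDist
  have h3 : min (G.edist u v) ((R + 1 : ℕ) : ℕ∞) ≤ ((R + 1 : ℕ) : ℕ∞) := min_le_right _ _
  rw [← coe_toNat_min G R u v] at h3
  exact_mod_cast h3

theorem truncDist_le_length {u v : V} (p : G.Walk u v) : truncDist G R u v ≤ (p.length : ℝ) := by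
  unfold truncDist
  have h3 : min (G.edist u v) ((R + 1 : ℕ) : ℕ∞) ≤ (p.length : ℕ∞) :=
    (min_le_left _ _).trans p.edist_le
  rw [← coe_toNat_min G R u v] at h3
  exact_mod_cast h3

theorem truncDist_adj_le {u v : V} (h : G.Adj u v) : truncDist G R u v ≤ 1 := by
  have := truncDist_le_length G R h.toWalk
  simpa using this

theorem abs_sub_le_length (ψ : V → ℝ) (κ : ℝ)
    (hedge : ∀ u v, G.Adj u v → |ψ u - ψ v| ≤ κ) {u v : V} (p : G.Walk u v) :
    |ψ u - ψ v| ≤ κ * (p.length : ℝ) := by
  induction p with
  | nil => simp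
  | @cons a b c hab q ih =>
    have h1 := hedge a b hab
    have h2 : |ψ a - ψ c| ≤ |ψ a - ψ b| + |ψ b - ψ c| := abs_sub_le _ _ _
    rw [SimpleGraph.Walk.length_cons]
    push_cast
    linarith

/-- A function which changes by at most `κ` along edges and has oscillation at most
`κ * (R + 1)` is `κ`-Lipschitz for the truncated metric. -/
theorem truncDist_lipschitz (ψ : V → ℝ) (κ : ℝ)
    (hedge : ∀ u v, G.Adj u v → |ψ u - ψ v| ≤ κ)
    (hosc : ∀ u v, |ψ u - ψ v| ≤ κ * ((R : ℝ) + 1)) (u v : V) :
    |ψ u - ψ v| ≤ κ * truncDist G R u v := by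
  rcases le_total ((R + 1 : ℕ) : ℕ∞) (G.edist u v) with h | h
  · have h1 : truncDist G R u v = (R : ℝ) + 1 := by
      unfold truncDist
      rw [min_eq_right h, ENat.toNat_natCast]
      push_cast
      rfl
    rw [h1]
    exact hosc u v
  · have hne : G.edist u v ≠ ⊤ := by
      intro h0
      rw [h0] at h
      exact absurd h (not_le.mpr (ENat.natCast_lt_top _))
    obtain ⟨p, hp⟩ := SimpleGraph.exists_walk_of_edist_ne_top hne
    have h1 : truncDist G R u v = (p.length : ℝ) := by
      unfold truncDist
      rw [min_eq_left h, ← hp, ENat.toNat_natCast]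
    rw [h1]
    exact abs_sub_le_length G ψ κ hedge p

instance instMetricSpaceTruncSpace : MetricSpace (TruncSpace G R) where
  dist u v := truncDist G R u v
  dist_self := truncDist_self G R
  dist_comm := truncDist_comm G R
  dist_triangle := truncDist_triangle G R
  eq_of_dist_eq_zero := by
    intro u v h
    by_contra hne
    have := one_le_truncDist G R hne
    have h' : truncDist G R u v = 0 := h
    linarith

theorem truncSpace_dist (x y : TruncSpace G R) : dist x y = truncDist G R x y := rfl

end Vale.Agent.Lib.P090
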