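import Mathlib

/-!
# Metric spaces with distances 1 and 2, hubs, layers, and the explicit example

* `GraphSpace G`: the vertex set of a simple graph `G` with the metric `0 / 1 / 2`
  (equal / adjacent / not adjacent).
* `hubGraph G₀ cls`: add to `G₀` three new vertices (hubs) for every class `k`, joined exactly to
  the vertices of class `k`.
* `layerGraph s`: for self-maps `s i : X → X`, the graph on `X × Option (ι × Bool)` with edges
  `(p, none) - (p, (i, false)) - (p, (i, true)) - (s i p, none)`.
* `ggMap`, `ggCol`, `GGPt`, `GGSpace`: the explicit example built on the planes over `ZMod p`.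
-/

noncomputable section

namespace Vale.Agent.Lib.P090

open Classical in
/-- The distance `0 / 1 / 2` attached to a simple graph. -/
def graphDist {V : Type*} (G : SimpleGraph V) (u v : V) : ℝ :=
  if u = v then 0 else if G.Adj u v then 1 else 2

/-- The vertex set of `G`, to be equipped with the metric `graphDist G`. -/
def GraphSpace {V : Type*} (_G : SimpleGraph V) : Type _ := V

theorem graphDist_self {V : Type*} (G : SimpleGraph V) (u : V) : graphDist G u u = 0 := by
  simp [graphDist]

theorem graphDist_comm {V : Type*} (G : SimpleGraph V) (u v : V) :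
    graphDist G u v = graphDist G v u := by
  unfold graphDist
  by_cases h : u = v
  · simp [h]
  · have h' : ¬ v = u := fun e => h e.symm
    rw [if_neg h, if_neg h']
    by_cases ha : G.Adj u v
    · rw [if_pos ha, if_pos ha.symm]
    · have ha' : ¬ G.Adj v u := fun e => ha e.symm
      rw [if_neg ha, if_neg ha']

theorem graphDist_ne {V : Type*} (G : SimpleGraph V) {u v : V} (h : u ≠ v) :
    1 ≤ graphDist G u v ∧ graphDist G u v ≤ 2 := by
  unfold graphDist
  rw [if_neg h]
  split_ifs <;> norm_num

theorem graphDist_nonneg_le {V : Type*} (G : SimpleGraph V) (u v : V) :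
    0 ≤ graphDist G u v ∧ graphDist G u v ≤ 2 := by
  by_cases h : u = v
  · subst h; rw [graphDist_self]; norm_num
  · have := graphDist_ne G h
    constructor <;> linarith [this.1, this.2]

theorem graphDist_triangle {V : Type*} (G : SimpleGraph V) (u v w : V) :
    graphDist G u w ≤ graphDist G u v + graphDist G v w := by
  by_cases h1 : u = v
  · subst h1; rw [graphDist_self]; linarith
  · by_cases h2 : v = w
    · subst h2; rw [graphDist_self]; linarith
    · have a := graphDist_ne G h1
      have b := graphDist_ne G h2
      have c := graphDist_nonneg_le G u w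
      linarith [a.1, b.1, c.2]

instance instMetricSpaceGraphSpace {V : Type*} (G : SimpleGraph V) :
    MetricSpace (GraphSpace G) where
  dist u v := graphDist G u v
  dist_self := graphDist_self G
  dist_comm := graphDist_comm G
  dist_triangle := graphDist_triangle G
  eq_of_dist_eq_zero := by
    intro u v h
    by_contra hne
    have := (graphDist_ne G hne).1
    have h' : graphDist G u v = 0 := h
    linarith

/-- Add three hubs to every class: the hub `(k, j)` is joined exactly to the vertices of class
`k`. -/
def hubGraph {V₀ K : Type*} (G₀ : SimpleGraph V₀) (cls : V₀ → K) :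
    SimpleGraph (V₀ ⊕ K × Fin 3) where
  Adj x y :=
    match x, y with
    | Sum.inl u, Sum.inl v => G₀.Adj u v
    | Sum.inl u, Sum.inr a => cls u = a.1
    | Sum.inr a, Sum.inl u => cls u = a.1
    | Sum.inr _, Sum.inr _ => False
  symm := ⟨by
    intro x y h
    rcases x with u | a <;> rcases y with v | b
    · exact G₀.adj_symm h
    · exact h
    · exact h
    · exact h⟩
  loopless := ⟨by
    intro x h
    rcases x with u | a
    · exact G₀.loopless.irrefl u h
    · exact h⟩

/-- The layer graph of a family of self-maps `s i : X → X`. -/
def layerGraph {X ι : Type*} (s : ι → X → X) : SimpleGraph (X × Option (ι × Bool)) :=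
  SimpleGraph.fromRel fun x y =>
    (∃ i, x.2 = none ∧ y.2 = some (i, false) ∧ y.1 = x.1) ∨
    (∃ i, x.2 = some (i, false) ∧ y.2 = some (i, true) ∧ y.1 = x.1) ∨
    (∃ i, x.2 = some (i, true) ∧ y.2 = none ∧ y.1 = s i x.1)

/-- The class of a vertex of the layer graph: its colour in the base layer, the name of the layer
otherwise. -/
def layerCls {X ι J : Type*} (col : X → J) (x : X × Option (ι × Bool)) : J ⊕ ι × Bool :=
  match x.2 with
  | none => Sum.inl (col x.1)
  | some e => Sum.inr e

/-- The bounded uniformly discrete metric space attached to self-maps `s i` and a colouring. -/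
abbrev LayerSpace {X ι J : Type*} (s : ι → X → X) (col : X → J) : Type _ :=
  GraphSpace (hubGraph (layerGraph s) (layerCls (ι := ι) col))

/-- The four affine maps of Gabber and Galil on the plane over `ZMod N`. -/
def ggMap (N : ℕ) (i : Fin 4) (z : ZMod N × ZMod N) : ZMod N × ZMod N :=
  match i with
  | 0 => (z.1 + 2 * z.2, z.2)
  | 1 => (z.1 + 2 * z.2 + 1, z.2)
  | 2 => (z.1, z.2 + 2 * z.1)
  | 3 => (z.1, z.2 + 2 * z.1 + 1)

/-- The disjoint union of the planes over `ZMod p`, `p` prime. -/
abbrev GGPt : Type := Σ p : Nat.Primes, ZMod (p : ℕ) × ZMod (p : ℕ)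

/-- The four maps act on every plane. -/
def ggS (i : Fin 4) (x : GGPt) : GGPt := ⟨x.1, ggMap (x.1 : ℕ) i x.2⟩

/-- Three colours: compare the representatives of the two coordinates. -/
def ggCol (x : GGPt) : Ordering := compare x.2.1.val x.2.2.val

/-- The explicit bounded uniformly discrete metric space. -/
abbrev GGSpace : Type := LayerSpace ggS ggCol

end Vale.Agent.Lib.P090
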